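import Crest.Agent.N218.D3.Geo
import Crest.Agent.N218.K.Cy

-- ▼ part N218/D3/Shr
section

/-!
# Row 218, block D3 (helper47): `shr' : SHR`
-/

set_option autoImplicit false
set_option linter.unusedVariables false

open Set unitInterval

noncomputable section

namespace Crest.Agent.N218.D3
open K

/-- **SHR** -/
theorem shr' : SHR := by
  intro Γ _ _ X V Q U c hQ s o ct e a
  let H : PB X.ls.cy V := ⟨{z : X.W × I | z.1 ∈ U ∧ z.1 + (z.2 : ℝ) • c z.1 ∈ Q.O},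
    fun z : X.W × I => Q.f (z.1 + (z.2 : ℝ) • c z.1)⟩
  have m : ∀ b : ℝ, ContinuousOn (fun z : X.W × I => z.1 + (b * z.2 : ℝ) • c z.1)
      (Prod.fst ⁻¹' U) := fun b =>
    continuousOn_fst.add (ContinuousOn.smul (f := fun z : X.W × I => (b * z.2 : ℝ))
      (Continuous.continuousOn (by fun_prop)) (ct.comp continuousOn_fst fun _ h => h))
  have m1 : ContinuousOn (fun z : X.W × I => z.1 + (z.2 : ℝ) • c z.1) (Prod.fst ⁻¹' U) := by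
    simpa only [one_mul] using m 1
  have q : ∀ g, ∀ x ∈ U, ∀ t : ℝ, X.ρ g x + t • c (X.ρ g x) = X.ρ g (x + t • c x) :=
    fun g x hx t => by rw [map_add, map_smul, (e g x hx).2.1, (e g x hx).2.2]
  have cp : IsCompact {z : X.W × I | (z.1 ∈ U ∧ z.1 + (z.2 : ℝ) • c z.1 ∈ Q.O) ∧
      Q.f (z.1 + (z.2 : ℝ) • c z.1) = 0} := by
    have k : IsCompact {y : X.W | y ∈ Q.O ∧ Q.f y = 0} := hQ.cp
    have := (k.prod (isCompact_univ (X := I))).image_of_continuousOn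
      (((m (-1)).mono fun z hz => s hz.1.1).prodMk continuousOn_snd)
    convert this using 1
    ext ⟨x, t⟩
    constructor
    · rintro ⟨⟨h1, h2⟩, h3⟩
      refine ⟨(x + (t : ℝ) • c x, t), ⟨⟨h2, h3⟩, trivial⟩, Prod.ext ?_ rfl⟩
      change x + (t : ℝ) • c x + (-1 * t : ℝ) • c (x + (t : ℝ) • c x) = x
      rw [(a x h1 t).2]; module
    · rintro ⟨⟨y, u⟩, ⟨⟨h1, h2⟩, -⟩, h3⟩
      obtain ⟨rfl, rfl⟩ := Prod.ext_iff.1 h3
      have b := a y (s h1) (-1 * u)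
      have d : y + (-1 * u : ℝ) • c y + (u : ℝ) • c (y + (-1 * u : ℝ) • c y) = y := by
        rw [b.2]; module
      exact ⟨⟨b.1, (congrArg (· ∈ Q.O) d).mpr h1⟩, (congrArg Q.f d).trans h2⟩
  have ok : H.Ok (Prod.fst ⁻¹' X.ls.fr) :=
    ⟨m1.isOpen_inter_preimage (o.preimage continuous_fst) hQ.op, fun g (z : X.W × I) hz =>
      ⟨(e g _ hz.1).1, (congrArg (· ∈ Q.O) (q g _ hz.1 z.2)).mpr (hQ.inv g _ hz.2)⟩,
      hQ.ct.comp (m1.mono fun _ h => h.1) fun _ h => h.2, fun g (z : X.W × I) hz =>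
      (congrArg Q.f (q g _ hz.1 z.2)).trans (hQ.eq g _ hz.2), cp, fun (z : X.W × I) hz g hg =>
      hQ.fr (a := z.1 + (z.2 : ℝ) • c z.1) ⟨hz.1.2, hz.2⟩ g ((q g _ hz.1.1 z.2).symm.trans
        (congrArg (fun y : X.W => y + (z.2 : ℝ) • c y) hg))⟩
  have e1 : H.sl (1 : I) = ⟨{x : X.W | x ∈ U ∧ x + c x ∈ Q.O}, fun x : X.W => Q.f (x + c x)⟩ := by
    change (⟨{x : X.W | x ∈ U ∧ x + (1 : ℝ) • c x ∈ Q.O},
      fun x : X.W => Q.f (x + (1 : ℝ) • c x)⟩ : PB X.ls V) = _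
    simp only [one_smul]
  have z : ∀ x : X.W, x + (0 : ℝ) • c x = x := fun x => by simp
  exact ⟨hQ, e1 ▸ ok.sl (1 : I), H, ok, ⟨fun x h => (congrArg (· ∈ Q.O) (z x)).mp h.2,
    fun x h => congrArg Q.f (z x), fun x h => ⟨s h.1, (congrArg (· ∈ Q.O) (z x)).mpr h.1⟩⟩,
    e1 ▸ PB.Le.rfl' _⟩

end Crest.Agent.N218.D3

end
end

-- ▼ part N218/D3/Esh

/-!
# Row 218, block D3 (helper47): `esh : ZE → LM → ZL → ESH`
-/

set_option autoImplicit false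
set_option linter.unusedVariables false

open Set
open scoped RealInnerProductSpace

noncomputable section

namespace Crest.Agent.N218.D3
open K In Sh

namespace Es

theorem mn_cs {k : ℕ} {F : Type} [NormedAddCommGroup F] [NormedSpace ℝ F] (y : Pm.V k F) (a : F) :
    Pm.mn (y + Pm.cs k F a) = Pm.mn y := funext fun i => by simp [Pm.mn]

theorem mn_ne {k : ℕ} {F : Type} [NormedAddCommGroup F] [NormedSpace ℝ F] {y : Pm.V k F} {ε : ℝ}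
    (e : ε ≠ 0) (h : Pm.mn y ≠ 0) : Pm.mn (ε • y) ≠ 0 := by
  rw [Pm.mn_smul]; exact smul_ne_zero e h

theorem eq0_sh {f f' : P.Y → P.Y} {ε : ℝ} (e : ε ≠ 0) (s : ℝ) {η : VY} {c : P.Y}
    (h : ∀ i, f (c + ε • η i) = c + ε • f' (η i)) :
    ε⁻¹ • eq0 f s (ε • (η + Pm.cs 21 _ (ε⁻¹ • c))) = eq0 f' s η := by
  have a : ∀ i, (ε • (η + Pm.cs 21 _ (ε⁻¹ • c))) i = c + ε • η i := fun i => by
    simp only [Pi.smul_apply, Pi.add_apply, Pm.cs_apply, smul_add, smul_inv_smul₀ e, add_comm]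
  rw [inv_smul_eq_iff₀ e, eq0, eq0, Pm.mn_smul, mn_cs]
  funext i
  simp only [a, h, Pi.add_apply, Pi.smul_apply]
  module

/-- the underlying space -/
abbrev ZZ : Type := A0 × (ℂ × ℝ × ℝ) × VY

variable {Φ : A.Fam} (h : P.Shape Φ (2 ^ 30)) (t : Tt h.S)

/-- the direction -/
def xx (z : ZZ) : A.Eu 11 := ‖z.1.1‖⁻¹ • z.1.1
/-- the point of the sheet -/
def qq (z : ZZ) : (E 8 × E 3) × E 8 × ℝ := (h.π (xx z), z.1.2, z.2.1.2.1)
/-- the domain of the shear -/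
def UU : Set ZZ := {z | 0 < ⟪h.e', z.1.1⟫ ∧ qq h z ∈ h.S.O}
/-- the shear -/
def cc (z : ZZ) : ZZ := (0, 0, Pm.cs 21 _ (h.ε⁻¹ • ctr h (qq h z)))
/-- bounded deviations -/
def NN : Set ZZ := {z | ∀ i, ‖z.2.2 i‖ < h.A * 2 ^ 25}

theorem ne_of {p : A.Eu 11} (a : 0 < ⟪h.e', p⟫) : p ≠ 0 := fun e => by simp [e] at a
theorem xx_n {z : ZZ} (a : z.1.1 ≠ 0) : ‖xx z‖ = 1 := norm_smul_inv_norm a
theorem xx_p {z : ZZ} (a : z.1.1 ≠ 0) : 0 < ⟪h.e', xx z⟫ ↔ 0 < ⟪h.e', z.1.1⟫ := by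
  rw [xx, real_inner_smul_right, mul_pos_iff_of_pos_left (inv_pos.2 (norm_pos_iff.2 a))]

theorem qq_ct : ContinuousOn (qq h) {z | 0 < ⟪h.e', z.1.1⟫} := by
  have a : ContinuousOn xx {z | 0 < ⟪h.e', z.1.1⟫} :=
    ContinuousOn.smul (f := fun z : ZZ => ‖z.1.1‖⁻¹) (g := fun z : ZZ => z.1.1)
      (continuous_fst.fst.norm.continuousOn.inv₀ fun z hz => norm_ne_zero_iff.2 (ne_of h hz))
      continuous_fst.fst.continuousOn
  exact (h.π.continuous.comp_continuousOn a).prodMk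
    (continuous_fst.snd.prodMk continuous_snd.fst.snd.fst).continuousOn

theorem UU_op : IsOpen (UU h) :=
  (qq_ct h).isOpen_inter_preimage
    (isOpen_lt continuous_const (continuous_const.inner continuous_fst.fst)) h.S.op

theorem cc_ct : ContinuousOn (cc h) (UU h) := by
  have a : ContinuousOn (qq h) (UU h) := (qq_ct h).mono fun _ a => a.1
  have b : ContinuousOn (fun z => ctr h (qq h z)) (UU h) :=
    h.j.symm.continuous.comp_continuousOn ((a.snd.sub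
      (h.S.sH.continuousOn.comp a fun _ a => a.2)).prodMk continuousOn_const)
  exact continuousOn_const.prodMk (continuousOn_const.prodMk
    ((Pm.cs 21 _).continuous.comp_continuousOn (b.const_smul h.ε⁻¹)))

theorem NN_op : IsOpen (NN h) := by
  rw [NN, ofPred_forall]
  exact isOpen_iInter_of_finite fun i =>
    isOpen_lt ((continuous_apply i).comp continuous_snd.snd).norm continuous_const

theorem add_cc (z : ZZ) (s : ℝ) :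
    z + s • cc h z = (z.1, z.2.1, z.2.2 + s • Pm.cs 21 _ (h.ε⁻¹ • ctr h (qq h z))) :=
  Prod.ext (by simp [cc]) (Prod.ext (by simp [cc]) rfl)
theorem add_cc' (z : ZZ) :
    z + cc h z = (z.1, z.2.1, z.2.2 + Pm.cs 21 _ (h.ε⁻¹ • ctr h (qq h z))) :=
  Prod.ext (add_zero _) (Prod.ext (add_zero _) rfl)

theorem ch0 (p : A.Eu 11) : ch h 0 p = h.π (‖p‖⁻¹ • p) := by simp [ch]

variable (v : VY →L[ℝ] P.Y)

/-- `P1` with an abstract average -/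
def P1' : PB X1.ls VV :=
  ⟨{z : B0 × (ℂ × ℝ × ℝ) × VY | (z.1.1.1, z.2.1.2.1) ∈ t.S2.O ∧ ‖z.1.1.2‖ < t.S2.r ∧
      Pm.mn z.2.2 ≠ 0},
    fun z : B0 × (ℂ × ℝ × ℝ) × VY =>
      (((z.1.2, z.2.1.1.im), eq0 (rl h (t.S2.W (z.1.1.1, z.2.1.2.1))) z.2.1.1.re z.2.2),
        h.j.symm ((z.1.1.2, t.S2.H (z.1.1.1, z.2.1.2.1)), z.2.1.2.2 - 1) - h.ε • v z.2.2)⟩

/-- `E1` with an abstract average -/
def E1' : PB XE.ls VV :=
  ⟨{z : A0 × (ℂ × ℝ × ℝ) × VY | z.1.1 ≠ 0 ∧ Pm.mn z.2.2 ≠ 0},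
    fun z : A0 × (ℂ × ℝ × ℝ) × VY =>
      (((Real.log ‖z.1.1‖, z.2.1.1.im),
        h.ε⁻¹ • eq0 (rE h (‖z.1.1‖⁻¹ • z.1.1)) z.2.1.1.re (h.ε • z.2.2)),
        h.j.symm ((z.1.2, z.2.1.2.1), z.2.1.2.2) - h.ε • v z.2.2)⟩

/-- `ZE` with an abstract average -/
def ZE' : Prop := ∀ x s y, ‖x‖ = 1 → Pm.mn y ≠ 0 → eq0 (rE h x) s y = 0 →
  0 < ⟪h.e', x⟫ ∧ (h.π x, (h.j (v y)).1) ∈ h.S.O ∧
    ∀ i, ‖y i - ctr h (h.π x, (h.j (v y)).1)‖ ≤ h.ε * h.A * 2 ^ 24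

theorem cmp_O (z : ZZ) : z ∈ (cmp (cL h t 0) (P1' h t v)).O ↔ z ∈ UU h ∧ Pm.mn z.2.2 ≠ 0 := by
  change (0 < ⟪h.e', z.1.1⟫ ∧ (ch h 0 z.1.1, z.1.2) ∈ t.S1.O) ∧
    ((t.S1.W (ch h 0 z.1.1, z.1.2), z.2.1.2.1) ∈ t.S2.O ∧
      ‖t.S1.H (ch h 0 z.1.1, z.1.2)‖ < t.S2.r ∧ Pm.mn z.2.2 ≠ 0) ↔ _
  rw [UU, t.hO, ch0]
  exact ⟨fun a => ⟨⟨a.1.1, a.1.2, a.2.2.1, a.2.1⟩, a.2.2.2⟩,
    fun a => ⟨⟨a.1.1, a.1.2.1⟩, a.1.2.2.2, a.1.2.2.1, a.2⟩⟩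

theorem cmp_f (z : ZZ) : (cmp (cL h t 0) (P1' h t v)).f z =
    (((Real.log ‖z.1.1‖, z.2.1.1.im), eq0 (rl h (h.S.W (qq h z))) z.2.1.1.re z.2.2),
      h.j.symm (h.S.H (qq h z), z.2.1.2.2 - 1) - h.ε • v z.2.2) := by
  rw [t.hW, t.hH, qq, xx, ← ch0]
  rfl

theorem ze (H : ZE' h v) {z : ZZ} (a : z ∈ (E1' h v).Z) :
    z ∈ UU h ∧ ∀ i, ‖h.ε • z.2.2 i - ctr h (qq h z)‖ ≤ h.ε * h.A * 2 ^ 24 := by
  have e1 : h.ε⁻¹ • eq0 (rE h (xx z)) z.2.1.1.re (h.ε • z.2.2) = 0 :=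
    congrArg (fun v => v.1.2) a.2
  have e2 : h.j.symm ((z.1.2, z.2.1.2.1), z.2.1.2.2) - h.ε • v z.2.2 = 0 :=
    congrArg (fun v => v.2) a.2
  have e3 : (h.j (v (h.ε • z.2.2))).1 = (z.1.2, z.2.1.2.1) := by
    rw [map_smul, ← sub_eq_zero.1 e2, ContinuousLinearEquiv.apply_symm_apply]
  have := H (xx z) _ _ (xx_n a.1.1) (mn_ne h.ε0.ne' a.1.2)
    ((smul_eq_zero_iff_right (inv_ne_zero h.ε0.ne')).1 e1)
  rw [e3] at this
  exact ⟨⟨(xx_p h a.1.1).1 this.1, this.2.1⟩, this.2.2⟩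

theorem main (hv : ∀ c, v (Pm.cs 21 _ c) = c) (H1 : ZE' h v) (H2 : LM) (H3 : ZL)
    (f1 : (E1' h v).Fr) (f2 : (cmp (cL h t 0) (P1' h t v)).Fr) :
    Bq (E1' h v) (cmp (cL h t 0) (P1' h t v)) := by
  have A0' : 0 < h.A := one_pos.trans_le h.A1
  have lt : h.A * 2 ^ 24 < h.A * 2 ^ 25 := mul_lt_mul_of_pos_left (by norm_num) A0'
  have z1 : (E1' h v).Z ⊆ UU h := fun z a => (ze h v H1 a).1
  have f3 : ((E1' h v).on (UU h)).Fr := f1.on (UU_op h) (fun g z a => a) z1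
  have b := shr' XE VV ((E1' h v).on (UU h)) (UU h) (cc h) f3 inter_subset_right (UU_op h)
    (cc_ct h) (fun g z a => ⟨a, rfl, rfl⟩) fun (z : ZZ) a s => by
      have e := add_cc h z s
      exact ⟨(congrArg (· ∈ UU h) e).mpr a, (congrArg (cc h) e).trans rfl⟩
  have z2 : (cmp (cL h t 0) (P1' h t v)).Z ⊆ NN h := fun (z : ZZ) a i => by
    have o := (cmp_O h t v z).1 a.1
    have e := congrArg (fun v => v.1.2) ((cmp_f h t v z).symm.trans a.2)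
    exact ((H3 Φ h t _ (h.hS.mem _ o.1.2) _ _ o.2 e).2 i).trans_lt lt
  have f4 : ((cmp (cL h t 0) (P1' h t v)).on (NN h)).Fr := f2.on (NN_op h) (fun g z a i => a _) z2
  refine .trans _ _ _ (.symm _ _ (.rel _ _ ((PB.on_le z1).hb f3 f1)))
    (.trans _ _ _ (.rel _ _ b) (.rel _ _ (PB.hb_le b.2.1 f2 f4 ⟨fun (z : ZZ) a => ?_,
      fun (z : ZZ) a => ?_, fun (z : ZZ) a => ?_⟩ (PB.on_le z2))))
  · have o := (cmp_O h t v z).1 a.1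
    refine ⟨o.1, (congrArg (· ∈ ((E1' h v).on (UU h)).O) (add_cc' h z)).mpr
      ⟨⟨ne_of h o.1.1, ?_⟩, o.1⟩⟩
    exact (congrArg (· ≠ 0) (mn_cs _ _)).mpr o.2
  · have o := (cmp_O h t v z).1 a.1
    have n := ne_of h o.1.1
    refine (cmp_f h t v z).trans (Eq.symm ((congrArg (E1' h v).f (add_cc' h z)).trans
      (Prod.ext (Prod.ext rfl ?_) ?_)))
    · exact eq0_sh h.ε0.ne' _ fun i =>
        H2 Φ h t (xx z) _ _ (xx_n n) ((xx_p h n).2 o.1.1) o.1.2 (a.2 i).le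
    · change h.j.symm ((z.1.2, z.2.1.2.1), z.2.1.2.2) -
        h.ε • v (z.2.2 + Pm.cs 21 _ (h.ε⁻¹ • ctr h (qq h z))) =
        h.j.symm (h.S.H (qq h z), z.2.1.2.2 - 1) - h.ε • v z.2.2
      rw [map_add, hv, smul_add, smul_inv_smul₀ h.ε0.ne', ctr, sub_add_eq_sub_sub_swap,
        ← map_sub]
      congr 2
      exact Prod.ext (sub_sub_cancel _ _) rfl
  · have e := add_cc' h z
    have m : (z.1, z.2.1, z.2.2 + Pm.cs 21 _ (h.ε⁻¹ • ctr h (qq h z))) ∈ (E1' h v).Z :=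
      (congrArg (· ∈ (E1' h v).Z) e).mp ⟨a.1.2.1, a.2⟩
    refine ⟨(cmp_O h t v z).2 ⟨a.1.1, (congrArg (· ≠ 0) (mn_cs _ _)).mp m.1.2⟩, fun i => ?_⟩
    have r : ‖h.ε • (z.2.2 i + h.ε⁻¹ • ctr h (qq h z)) - ctr h (qq h z)‖ ≤ h.ε * h.A * 2 ^ 24 :=
      (ze h v H1 m).2 i
    rw [smul_add, smul_inv_smul₀ h.ε0.ne', add_sub_cancel_right, norm_smul,
      Real.norm_of_nonneg h.ε0.le, mul_assoc] at r
    exact (le_of_mul_le_mul_left r h.ε0).trans_lt lt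

theorem E1_eq : E1 h = E1' h (Pm.av 21 _) := rfl
theorem P1_eq : P1 h t = P1' h t (Pm.av 21 _) := rfl

end Es
open Es

/-- **ESH** -/
theorem esh (H1 : ZE) (H2 : LM) (H3 : ZL) : ESH := by
  intro Φ h t
  rw [E1_eq, P1_eq]
  exact main h t _ Pm.av_cs (H1 Φ h t) H2 H3

end Crest.Agent.N218.D3

end
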