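import Crest.Agent.N218.K.Eun0
import Crest.Agent.N218.K.Cx1
import Crest.Agent.N218.Th.Fin
import Crest.Agent.N218.D3.Ev0
import Crest.Agent.N218.K.Cx
import Crest.Agent.N218.K.Eht
import Crest.Agent.N218.K.Kln
import Crest.Agent.N218.K.Unit
import Crest.Agent.N218.D7.Orb

-- ▼ part N218/K/Eun2
section

/-!
# N218/K/Eun2: indeterminacy of the defect class, any reduced class (helper94)
-/

set_option autoImplicit false

noncomputable section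

namespace Crest.Agent.N218.K.Pup

variable {Γ : Type} [Group Γ] [TopologicalSpace Γ] [CompactSpace Γ] {Y : GS Γ} {M T : LS Γ}

/-- the suspension of `F` kills reduced classes if `F` kills a universal Thom class -/
theorem sus_zero (F : H1 (Sb Y M) (Sb Y T)) {th : KS Y T} (hth : UT Y T th)
    (h0 : pull F.f th = 0) (G : C((Sb Y M.xr).E, (Sb Y T.xr).E))
    (hG : ∀ e t, G ((sd Y M).c (e, t)) = (sd Y T).c (F.f e, t)) {y : KS Y T.xr}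
    (hy : (Sb Y T.xr).Rd y) : pull G y = 0 := by
  obtain ⟨k, hk, rfl⟩ := hth.rel_l hy
  rw [sus_xm F G hG hth.1 hk, h0]
  exact (smd Y M _).zero_mul k


/-- **indeterminacy**, `l` arbitrary -/
theorem eun_ut (F : H1 (Sb Y M) (Sb Y T)) {th : KS Y T} (hth : UT Y T th) (h0 : pull F.f th = 0)
    {l : KS Y T} {ρ : KX Y.Q} {x x' : KS Y M.xr} (h : Ecl F (sd _ _) l ρ x)
    (h' : Ecl F (sd _ _) l ρ x') :
    ∃ y, (Sb Y M.xr).Rd y ∧ x - x' = ps _ y - (Sb Y M.xr).sm ρ y := by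
  obtain ⟨G, hG⟩ := exists_sus F (sd Y M) (sd Y T)
  obtain ⟨w, y, hw, hy, e⟩ := ecl_un F _ _ G hG h' h
  refine ⟨w, hw, ?_⟩
  rw [e, sus_zero F hth h0 G.f hG hy]
  ring

/-- **indeterminacy**, for a Thom class of a sum of characters -/
theorem eun' (hY : Gd Y) (hT : Cx T) (F : H1 (Sb Y M) (Sb Y T)) {th : KS Y T}
    (hth : (Sb Y T).Th th) (h0 : pull F.f th = 0) {l : KS Y T} {ρ : KX Y.Q} {x x' : KS Y M.xr}
    (h : Ecl F (sd _ _) l ρ x) (h' : Ecl F (sd _ _) l ρ x') :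
    ∃ y, (Sb Y M.xr).Rd y ∧ x - x' = ps _ y - (Sb Y M.xr).sm ρ y :=
  eun_ut F (ut_of_th thom hY hT hth) h0 h h'

end Crest.Agent.N218.K.Pup
end
end

-- ▼ part N218/D3/Evd

/-!
# Row 218, block D3 (helper76): the product formula
-/

set_option autoImplicit false
set_option linter.unusedVariables false

open Set Module Polynomial

noncomputable section

namespace Crest.Agent.N218.D3
open K

namespace Ev

theorem rank {Γ : Type} [Group Γ] [TopologicalSpace Γ] {m : ℕ} {X V : Rep Γ} (h : Adm m X V) :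
    finrank ℝ X.W = m + finrank ℝ V.W := by
  obtain ⟨A⟩ := h
  rw [A.e.toLinearEquiv.finrank_eq]
  change finrank ℝ ((Fin m → ℝ) × V.W) = _
  rw [finrank_prod, finrank_fin_fun]

/-- the defect of a composite -/
theorem comp {X : Type} [TopologicalSpace X] {A B T S : Ex X} (C : H1 A B) (Θ : H1 B T) (D : SD A S)
    {l : KX B.E} {lT : KX T.E} {a ρ ρT : KX X} {x x₀ : KX S.E} (hl : B.Th l)
    (e : ps _ l = B.sm ρ l) (eT : ps _ lT = T.sm ρT lT) (ha : pull Θ.f lT = B.sm a l)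
    (h : Ecl (C.cm Θ) D lT ρT x) (h0 : Ecl C D l ρ x₀) :
    ρT * a = ps _ a * ρ ∧ Ecl C D (B.sm a l) ρT x ∧ Ecl C D (B.sm a l) ρT (S.sm (ps _ a) x₀) := by
  have k : ρT * a = ps _ a * ρ := hl.eig e (by rw [← ha, ps_pull, eT, Pup.pull_sm])
  refine ⟨k, ?_, Pup.ecl_sm C D a k.symm h0⟩
  have := Orb.ecl_pull (Pup.idH A) Θ (Pup.idH S) (F := C.cm Θ) (F' := C) (fun _ => rfl) (D := D)
    (D' := D) (fun _ _ => rfl) h
  rwa [ha, pull_id, show (Pup.idH S).f = .id _ from rfl, pull_id] at this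

theorem val (ν : ℤ) (k : ℕ) (p q : ℤ[X]) : (3 : ℤ) ^ (k + 7) • ((Al.ph (iS (C ν * (1 + X + X ^ 2) ^ 7 * p +
    3 ^ k * (3 ^ 7 * expand ℤ 3 q - (1 + X + X ^ 2) ^ 7 * q))) / 3 ^ (k + 7) : ℚ) : QQ) =
    ν • ((Al.ph (Al.r ^ 7 * iS p) : ℚ) : QQ) := by
  have r : iS (1 + X + X ^ 2) = Al.r := by
    simp only [map_add, map_one, map_pow, iS, aeval_X, Al.L, Al.r]; ring
  have e : iS (C ν * (1 + X + X ^ 2) ^ 7 * p +
      3 ^ k * (3 ^ 7 * expand ℤ 3 q - (1 + X + X ^ 2) ^ 7 * q)) =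
      (ν : ℚ) • (Al.r ^ 7 * iS p) + (3 ^ k : ℚ) • (3 ^ 7 * Al.ps (iS q) - Al.r ^ 7 * iS q) := by
    simp only [map_add, map_mul, map_pow, map_sub, r, Ut.ps_iS, map_ofNat, Algebra.smul_def,
      eq_intCast, map_intCast]
    ring
  rw [← QuotientAddGroup.mk_zsmul, ← QuotientAddGroup.mk_zsmul, e, map_add, map_smul, map_smul,
    Al.key, QuotientAddGroup.eq]
  have : -((3 : ℤ) ^ (k + 7) • (((ν : ℚ) • Al.ph (Al.r ^ 7 * iS p) + (3 ^ k : ℚ) • Al.lc (iS q)) /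
      3 ^ (k + 7))) + ν • Al.ph (Al.r ^ 7 * iS p) = -(3 ^ k * Al.lc (iS q)) := by
    simp only [zsmul_eq_mul, smul_eq_mul]; push_cast; field_simp; ring
  rw [this]
  exact Al.O2.neg_mem (Al.O2.mul_mem (Al.O2.pow_mem (ofNat_mem _ 3) k) (Al.lc_mem (Ut.iS_mem q)))

theorem tor {x y : QQ} (h : 32 • x = 0) {n : ℕ} {ν : ℤ} (e : (3 : ℤ) ^ n • x = ν • y) :
    (3 : ℤ) ^ 14 • x = (3 ^ 14 * 11 ^ n * ν : ℤ) • y := by
  have h' : (32 : ℤ) • x = 0 := by exact_mod_cast h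
  obtain ⟨c, k⟩ : (32 : ℤ) ∣ 33 ^ n - 1 := by simpa using sub_dvd_pow_sub_pow (33 : ℤ) 1 n
  rw [mul_zsmul, ← e, ← mul_zsmul, mul_assoc, ← mul_pow, show (11 * 3 : ℤ) = 33 from rfl,
    show (33 : ℤ) ^ n = 1 + c * 32 by linear_combination k, mul_zsmul, add_zsmul, mul_zsmul, h',
    one_zsmul, zsmul_zero, add_zero]

end Ev

/-- **product formula** -/
theorem evd (h1 : CBD) (h2 : HTP) (h3 : PLB) : EVD := by
  intro I J hI hJ Γ _ _ _ _ χ A _ _ _ B _ _ _ M V q aE aD cV eA c Bx ok sc pr nu P fr lab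
  have L : Lab c Bx := ⟨ok, sc, pr⟩
  obtain ⟨fc, bd⟩ := h1 M V c Bx L P fr lab
  have rE := Ev.rank aE
  have rD := Ev.rank aD
  obtain ⟨P', k, H, fr', eO, H1, H2, H3, H4, lf⟩ := cle χ 7 (XT B M) V (by rw [rD]; omega) P fr
  have bE := bd P' H fr' eO H1 H2 H3 H4
  have bD : P.Bd P' := ⟨fr, fr', H, H2, H3, H4⟩
  obtain ⟨ξ, F, cut, rg, lf', ht⟩ := h2 χ (cc χ) 7 M V c Bx L P' k fr' (eO ▸ lab) bE.2.1 lf
  obtain ⟨o⟩ := ((oex thom χ (XT B M) V q cV).2 aD).1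
  have od : Odd (finrank ℝ B) := by
    change finrank ℝ (A × M.W) = _ at rE
    change finrank ℝ (B × M.W) = _ at rD
    rw [finrank_prod] at rE rD
    obtain ⟨n, e⟩ := eA
    exact ⟨n - 4, by omega⟩
  obtain ⟨j, ν, l', σ, oν, tl, eρ, pl, c0, k0⟩ :=
    h3 (Sp χ (cc χ) 7) M c eA od ok nu ξ F cut rg o.lS o.rS o.tS o.pS
  obtain ⟨sj, -, pe⟩ := kln χ 7 q.inj (by norm_num)
  have nm : 3 ^ j * σ * rU χ (cc χ) 7 = 3 ^ 3 * o.rT := eρ ▸ o.nm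
  let o' : OE χ (cc χ) (XT A M).ls V :=
    ⟨l', o.lT, 3 ^ (j + 4) * σ, o.rT, tl, o.tT, pl, o.pT, by linear_combination 3 ^ 4 * nm⟩
  obtain ⟨a, ha⟩ := o.tS.ex (o.tT.1.hm (Tc χ (cc χ) 7 P' k).hm)
  obtain ⟨p, rfl⟩ := sj a
  obtain ⟨x, hx⟩ := eex (F.cm (Tc χ (cc χ) 7 P' k).hm) (sd _ _) o.lT o.rT o.tT.1 (by
    change pull ((Tc χ (cc χ) 7 P' k).hm.f.comp F.f) _ = _
    rw [pull_cm, ha, Pup.pull_sm, c0, Ex.sm, mul_zero]) o.pT
  obtain ⟨e1, e2, e3⟩ := Ev.comp F _ _ o.tS o.pS o.pT ha hx k0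
  obtain ⟨y, hy, e4⟩ := Pup.eun' (gd_sp q.inj _ 7) (Adm.cx_odd (m := 2) aD cV) F o.tS c0 e2 e3
  obtain ⟨b, rfl⟩ := tl.ex hy
  obtain ⟨p', rfl⟩ := sj b
  rw [Ex.ps_sm, pl, Ex.sm_sm, Ex.sm_sm, Ex.sm_sm, sub_eq_iff_eq_add, ← Ex.sub_sm, ← Ex.add_sm] at e4
  obtain ⟨s, hs⟩ := hI χ _ V q aE cV o'
  obtain ⟨s', hs'⟩ := hJ χ _ V q aD cV o
  have v := hs (cmp c P) _ ⟨_, j + 7, C ν * (1 + X + X ^ 2) ^ 7 * p +
    3 ^ j * (3 ^ 7 * expand ℤ 3 p' - (1 + X + X ^ 2) ^ 7 * p'),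
    ⟨_, cl_hm bE lf', e4 ▸ eht _ _ _ _ _ _ ht.sy hx⟩, by
      have u : ev χ (cc χ) 7 ((1 + X + X ^ 2) ^ 7) = rU χ (cc χ) 7 := rfl
      rw [eρ] at e1
      simp only [map_add, map_mul, map_sub, u, ← pe, map_pow (ev χ (cc χ) 7) 3, map_ofNat,
        eq_intCast, map_intCast]
      change _ * (3 ^ (j + 4) * σ) = _
      linear_combination (ν * ev χ (cc χ) 7 p * 3 ^ 4 - 3 ^ (j + 4) * ev χ (cc χ) 7 p') * nm +
        3 ^ 7 * ν * e1, rfl⟩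
  have v' := hs' P _ ⟨p, ⟨_, cl_hm bD lf, ha⟩, rfl⟩
  refine ⟨fc, _, ?_, Ev.tor (I.den _ _ _ _) (n := j + 7) (ν := s * ν * s') ?_⟩
  · have u : ∀ s : ℤˣ, Odd (s : ℤ) := fun s => by
      rcases Int.units_eq_one_or s with rfl | rfl <;> decide
    exact ((Odd.pow (by decide)).mul (Odd.pow (by decide))).mul (((u s).mul oν).mul (u s'))
  · rw [v, v', Units.smul_def, Units.smul_def, smul_comm, Ev.val, smul_smul, smul_smul, mul_assoc _ _ (s' : ℤ),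
      Int.units_coe_mul_self]
    simp

end Crest.Agent.N218.D3

end
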