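import Crest.Agent.N218.Hf.Core
import Crest.Agent.N218.K.Defs
import Crest.Agent.N218.K.Col
import Crest.Agent.N218.D3.Defs

-- ▼ part N218/Hf/Sp
section

/-!
# Row 218, block D3, leaf HOPF (helper39): spheres
-/

set_option autoImplicit false
set_option linter.unusedVariables false
set_option linter.unusedSectionVars false

open scoped unitInterval Topology
open Set Function OnePoint Metric Filter Module

noncomputable section

namespace Crest.Agent.N218.Hf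

open Crest.Agent.R204 H472 Ex837 ExM515 HMain515

theorem kz_odd {n : ℕ} (hn : Odd n) {Y : Type} [TopologicalSpace Y] [T2Space Y] {y : Y}
    (c : Collapse (Fin n) Y y) (x : KC C(Y, ℂ)) (hx : ∀ p, kv p x = 0) : x = 0 := by
  have hb := KM_bij (R := C(Y, ℂ)) (S := SA (Fin n)) (c.equiv : C(Y, ℂ) →+* SA (Fin n))
    c.equiv.bijective
  apply hb.1
  rw [map_zero]
  refine Bt837.kodd n hn _ ?_
  refine Eq.trans ?_ (hx (c.p fun _ => 0))
  unfold kv
  exact KM_comp _ _ _ (by exact fun _ => rfl) x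

/-- one-point compactifications are collapsed cubes -/
theorem coll_op (n : ℕ) (E : Type) [NormedAddCommGroup E] [NormedSpace ℝ E]
    [FiniteDimensional ℝ E] (h : finrank ℝ E = n + 1) :
    Nonempty (Collapse (Fin (n + 1)) (OnePoint E) ∞) := by
  let φ : OnePoint E ≃ₜ Freu297.Sph (n + 1) := onePointEquivSphereOfFinrankEq (by simp [h])
  let a : EuclideanSpace ℝ (Fin (n + 1 + 1)) := (Freu297.pt (n + 1)).1
  let b : EuclideanSpace ℝ (Fin (n + 1 + 1)) := (φ ∞).1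
  have hab : ‖a‖ = ‖b‖ := by
    rw [norm_eq_of_mem_sphere (Freu297.pt (n + 1)), norm_eq_of_mem_sphere (φ ∞)]
  let R := (ℝ ∙ (a - b))ᗮ.reflection
  have hR : R a = b := Submodule.reflection_sub hab
  let r : C(Freu297.Sph (n + 1), Freu297.Sph (n + 1)) :=
    ⟨fun s => ⟨R s.1, by simp [norm_eq_of_mem_sphere s]⟩, by fun_prop⟩
  have hr : Bijective r := ⟨fun s t e => Subtype.ext (R.injective (congrArg Subtype.val e)),
    fun s => ⟨⟨R.symm s.1, by simp [norm_eq_of_mem_sphere s]⟩,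
      Subtype.ext (R.apply_symm_apply _)⟩⟩
  let k : C(Freu297.Sph (n + 1), OnePoint E) := (⟨φ.symm, φ.symm.continuous⟩ : C(_, _)).comp r
  have hk : k (Freu297.pt (n + 1)) = ∞ := by
    change φ.symm (r _) = ∞
    rw [show r (Freu297.pt (n + 1)) = φ ∞ from Subtype.ext hR, φ.symm_apply_apply]
  exact ⟨hk ▸ collMap (HopfGlue339.coll (HDeg160.sphCube n)) k (φ.symm.bijective.comp hr)⟩

/-- odd spheres of normed spaces -/
theorem kz_sphere (n : ℕ) (hn : Odd (n + 1)) (V : Type) [NormedAddCommGroup V] [NormedSpace ℝ V]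
    [FiniteDimensional ℝ V] (h : finrank ℝ V = n + 1 + 1) (x : KC C(sphere (0 : V) 1, ℂ))
    (hx : ∀ p, kv p x = 0) : x = 0 := by
  let L : EuclideanSpace ℝ (Fin (n + 1 + 1)) ≃L[ℝ] V :=
    ContinuousLinearEquiv.ofFinrankEq (by simp [h])
  have h1 : ∀ s : Freu297.Sph (n + 1), L s.1 ≠ 0 := fun s e =>
    ne_zero_of_mem_unit_sphere s (L.injective (e.trans (map_zero L).symm))
  have h2 : ∀ s : sphere (0 : V) 1, L.symm s.1 ≠ 0 := fun s e =>
    ne_zero_of_mem_unit_sphere s (L.symm.injective (e.trans (map_zero L.symm).symm))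
  let r : C(Freu297.Sph (n + 1), sphere (0 : V) 1) :=
    ⟨fun s => ⟨‖L s.1‖⁻¹ • L s.1, by simp [norm_smul, h1 s]⟩,
      by
        refine Continuous.subtype_mk ?_ _
        exact Continuous.smul (Continuous.inv₀ (by fun_prop)
          fun s => norm_ne_zero_iff.2 (h1 s)) (by fun_prop)⟩
  let r' : C(sphere (0 : V) 1, Freu297.Sph (n + 1)) :=
    ⟨fun s => ⟨‖L.symm s.1‖⁻¹ • L.symm s.1, by simp [norm_smul, h2 s]⟩,
      by
        refine Continuous.subtype_mk ?_ _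
        exact Continuous.smul (Continuous.inv₀ (by fun_prop)
          fun s => norm_ne_zero_iff.2 (h2 s)) (by fun_prop)⟩
  have e : ∀ s, r (r' s) = s := fun s => Subtype.ext (by
    change ‖L (‖L.symm s.1‖⁻¹ • L.symm s.1)‖⁻¹ • L (‖L.symm s.1‖⁻¹ • L.symm s.1) = s.1
    have := norm_ne_zero_iff.2 (h2 s)
    rw [_root_.map_smul, L.apply_symm_apply, norm_smul, norm_eq_of_mem_sphere s, smul_smul]
    simp [this])
  have h0 : kp r x = 0 := kz_odd hn (HopfGlue339.coll (HDeg160.sphCube n)) _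
    fun p => (kv_kp r p x).trans (hx _)
  rw [← kp_id (.id _) (fun _ => rfl) x, ← kp_kp r' r (.id _) e, h0, map_zero]

open Classical in
/-- division with values in the compactification -/
def dv {W : Type} [NormedAddCommGroup W] [NormedSpace ℝ W] (g : ℝ) (u : W) : OnePoint W :=
  if g = 0 then ∞ else ((g⁻¹ • u : W) : OnePoint W)

theorem dv_zero {W : Type} [NormedAddCommGroup W] [NormedSpace ℝ W] (u : W) : dv 0 u = ∞ :=
  if_pos rfl

theorem dv_ne {W : Type} [NormedAddCommGroup W] [NormedSpace ℝ W] {g : ℝ} (h : g ≠ 0) (u : W) :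
    dv g u = ((g⁻¹ • u : W) : OnePoint W) := if_neg h

theorem cont_dv {X W : Type} [TopologicalSpace X] [NormedAddCommGroup W] [NormedSpace ℝ W]
    {u : X → W} {g : X → ℝ} (hu : Continuous u) (hg : Continuous g)
    (h0 : ∀ x, g x = 0 → u x ≠ 0) : Continuous fun x => dv (g x) (u x) := by
  rw [continuous_iff_continuousAt]
  intro x
  by_cases hx : g x = 0
  · change Tendsto _ _ (𝓝 (dv (g x) (u x)))
    rw [hx, dv_zero, hasBasis_nhds_infty.tendsto_right_iff]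
    rintro K ⟨-, hK⟩
    obtain ⟨R, hR⟩ := hK.isBounded.exists_norm_le
    have : ∀ᶠ z in 𝓝 x, |g z| * R < ‖u z‖ :=
      (ContinuousAt.eventually_lt (by fun_prop) (by fun_prop)
        (by rw [hx, abs_zero, zero_mul]; exact norm_pos_iff.2 (h0 x hx)))
    filter_upwards [this] with z hz
    by_cases h : g z = 0
    · rw [h, dv_zero]; exact .inr rfl
    · rw [dv_ne h]
      refine .inl ⟨_, fun k => ?_, rfl⟩
      have h1 := hR _ k
      rw [norm_smul, norm_inv, Real.norm_eq_abs, inv_mul_le_iff₀ (abs_pos.2 h)] at h1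
      linarith
  · have h1 : ∀ᶠ z in 𝓝 x, g z ≠ 0 := hg.continuousAt.eventually_ne hx
    refine ContinuousAt.congr (f := fun z => (((g z)⁻¹ • u z : W) : OnePoint W)) ?_ ?_
    · exact continuous_coe.continuousAt.comp ((hg.continuousAt.inv₀ hx).smul hu.continuousAt)
    · filter_upwards [h1] with z hz
      rw [dv_ne hz]

end Crest.Agent.N218.Hf
end
end

-- ▼ part N218/Hf/T
section

/-!
# Row 218, block D3, leaf HOPF (helper39): the projective plane of a normed multiplication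
-/

set_option autoImplicit false
set_option linter.unusedVariables false
set_option linter.unusedSectionVars false

open scoped unitInterval Topology
open Set Function OnePoint Metric Filter Module

noncomputable section

namespace Crest.Agent.N218.Hf

open Crest.Agent.R204 H472 Ex837 ExM515 HMain515

variable {E : Type} [NormedAddCommGroup E] [NormedSpace ℝ E]

/-- the disc -/
abbrev DD (E : Type) [NormedAddCommGroup E] : Type := closedBall (0 : E) 1

theorem DD.le (x : DD E) : ‖x.1‖ ≤ 1 := mem_closedBall_zero_iff.1 x.2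

/-- the model map -/
def qq (m : E →L[ℝ] E →L[ℝ] E) (x y : E) : (E × E) × ℝ × ℝ × E :=
  ((1 - max ‖x‖ ‖y‖) • (x, y), max ‖x‖ ‖y‖, ‖y‖ - ‖x‖, m y x)

/-- the projective plane -/
def TP (m : E →L[ℝ] E →L[ℝ] E) : Type := range fun p : DD E × DD E => qq m p.1.1 p.2.1

variable (m : E →L[ℝ] E →L[ℝ] E)

theorem cont_qq : Continuous fun p : E × E => qq m p.1 p.2 := by
  unfold qq
  fun_prop

instance : TopologicalSpace (TP m) := inferInstanceAs (TopologicalSpace (range _))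
instance : T2Space (TP m) := inferInstanceAs (T2Space (range _))
instance [ProperSpace E] : CompactSpace (TP m) :=
  isCompact_iff_compactSpace.1 (isCompact_range ((cont_qq m).comp
    (f := fun p : DD E × DD E => (p.1.1, p.2.1)) (by fun_prop)))

/-- the characteristic map -/
def QP : C(DD E × DD E, TP m) :=
  ⟨fun p => ⟨qq m p.1.1 p.2.1, p, rfl⟩, ((cont_qq m).comp
    (f := fun p : DD E × DD E => (p.1.1, p.2.1)) (by fun_prop)).subtype_mk _⟩

theorem QP_surj : Surjective (QP m) := fun ⟨_, p, h⟩ => ⟨p, Subtype.ext h⟩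

variable {m}

theorem qq_one {x y : E} (h : max ‖x‖ ‖y‖ = 1) : qq m x y = (0, 1, ‖y‖ - ‖x‖, m y x) := by
  rw [qq, h, sub_self, zero_smul]

variable (hm : ∀ s x, ‖m s x‖ = ‖s‖ * ‖x‖) {e : E} (he : ‖e‖ = 1)
include hm he

theorem inj_l {x x' : E} (h : m e x = m e x') : x = x' := by
  have := hm e (x - x')
  rw [map_sub, h, sub_self, norm_zero, he, one_mul] at this
  exact sub_eq_zero.1 (norm_eq_zero.1 this.symm)

theorem inj_r {x x' : E} (h : m x e = m x' e) : x = x' := by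
  have := hm (x - x') e
  rw [map_sub, sub_apply, h, sub_self, norm_zero, he, mul_one] at this
  exact sub_eq_zero.1 (norm_eq_zero.1 this.symm)

variable [FiniteDimensional ℝ E]

theorem sur_l (w : E) : ∃ x, m e x = w ∧ ‖x‖ = ‖w‖ := by
  obtain ⟨x, hx⟩ := (LinearMap.injective_iff_surjective (f := (m e).toLinearMap)).1
    (fun _ _ h => inj_l hm he h) w
  refine ⟨x, hx, ?_⟩
  rw [← hx]; change _ = ‖m e x‖; rw [hm, he, one_mul]

theorem sur_r (w : E) : ∃ x, m x e = w ∧ ‖x‖ = ‖w‖ := by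
  obtain ⟨x, hx⟩ := (LinearMap.injective_iff_surjective (f := (m.flip e).toLinearMap)).1
    (fun _ _ h => inj_r hm he h) w
  refine ⟨x, hx, ?_⟩
  rw [← hx]; change _ = ‖m x e‖; rw [hm, he, mul_one]

theorem ex_p {t : ℝ} {w : E} (ht : 0 ≤ t) (h : t + ‖w‖ = 1) :
    ∃ x : DD E, qq m x.1 e = (0, 1, t, w) := by
  obtain ⟨x, hx, hn⟩ := sur_l hm he w
  refine ⟨⟨x, mem_closedBall_zero_iff.2 (by linarith)⟩, ?_⟩
  rw [qq_one (by rw [he]; exact max_eq_right (by change ‖x‖ ≤ 1; linarith)), he, hx]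
  change (_, _, 1 - ‖x‖, _) = _
  rw [show 1 - ‖x‖ = t by linarith]

theorem ex_m {t : ℝ} {w : E} (ht : t ≤ 0) (h : -t + ‖w‖ = 1) :
    ∃ x : DD E, qq m e x.1 = (0, 1, t, w) := by
  obtain ⟨x, hx, hn⟩ := sur_r hm he w
  refine ⟨⟨x, mem_closedBall_zero_iff.2 (by linarith)⟩, ?_⟩
  rw [qq_one (by rw [he]; exact max_eq_left (by change ‖x‖ ≤ 1; linarith)), he, hx]
  change (_, _, ‖x‖ - 1, _) = _
  rw [show ‖x‖ - 1 = t by linarith]

theorem mem_TP {t : ℝ} {w : E} (h : |t| + ‖w‖ = 1) :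
    ((0, 1, t, w) : (E × E) × ℝ × ℝ × E) ∈ range fun p : DD E × DD E => qq m p.1.1 p.2.1 := by
  have he' : e ∈ closedBall (0 : E) 1 := mem_closedBall_zero_iff.2 he.le
  rcases le_total 0 t with ht | ht
  · obtain ⟨x, hx⟩ := ex_p hm he ht (by rwa [abs_of_nonneg ht] at h)
    exact ⟨(x, ⟨e, he'⟩), hx⟩
  · obtain ⟨x, hx⟩ := ex_m hm he ht (by rwa [abs_of_nonpos ht] at h)
    exact ⟨(⟨e, he'⟩, x), hx⟩

omit he [FiniteDimensional ℝ E] in
theorem shape (z : TP m) (h : z.1.2.1 = 1) :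
    z.1 = (0, 1, z.1.2.2.1, z.1.2.2.2) ∧ |z.1.2.2.1| + ‖z.1.2.2.2‖ = 1 := by
  obtain ⟨_, ⟨x, y⟩, rfl⟩ := z
  change max ‖x.1‖ ‖y.1‖ = 1 at h
  refine ⟨qq_one h, ?_⟩
  change |‖y.1‖ - ‖x.1‖| + ‖m y.1 x.1‖ = 1
  rw [hm]
  rcases le_total ‖x.1‖ ‖y.1‖ with k | k
  · rw [max_eq_right k] at h
    rw [abs_of_nonneg (sub_nonneg.2 k), h]; ring
  · rw [max_eq_left k] at h
    rw [abs_of_nonpos (sub_nonpos.2 k), h]; ring

omit hm he [FiniteDimensional ℝ E] in
theorem jv_norm (v : E) : |(1 - ‖v‖) / max 1 ‖v‖| + ‖((max 1 ‖v‖) ^ 2)⁻¹ • v‖ = 1 := by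
  rcases le_total ‖v‖ 1 with k | k
  · rw [max_eq_left k, div_one, abs_of_nonneg (sub_nonneg.2 k)]; simp
  · have : 0 < ‖v‖ := by linarith
    rw [max_eq_right k, abs_div, abs_of_nonpos (sub_nonpos.2 k), abs_of_pos this, norm_smul,
      norm_inv, norm_pow, norm_norm]
    field_simp
    ring

/-- the line at infinity -/
def jP : C(OnePoint E, TP m) :=
  OnePoint.continuousMapMk
    ⟨fun v => ⟨(0, 1, (1 - ‖v‖) / max 1 ‖v‖, ((max 1 ‖v‖) ^ 2)⁻¹ • v), mem_TP hm he (jv_norm v)⟩,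
      by
        refine Continuous.subtype_mk ?_ _
        exact continuous_const.prodMk (continuous_const.prodMk
          ((Continuous.div (by fun_prop) (by fun_prop) fun v => by positivity).prodMk
          ((Continuous.inv₀ (by fun_prop) fun v => by positivity).smul continuous_id)))⟩
    ⟨(0, 1, -1, 0), mem_TP hm he (by simp)⟩ (by
      have : ProperSpace E := FiniteDimensional.proper_real E
      rw [coclosedCompact_eq_cocompact]
      refine tendsto_subtype_rng.2 (tendsto_const_nhds.prodMk_nhds (tendsto_const_nhds.prodMk_nhds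
        (Tendsto.prodMk_nhds ?_ ?_)))
      · have h1 : Tendsto (fun v : E => ‖v‖⁻¹ - 1) (cocompact E) (𝓝 (0 - 1)) :=
          (tendsto_norm_cocompact_atTop (E := E)).inv_tendsto_atTop.sub_const 1
        rw [zero_sub] at h1
        refine h1.congr' ?_
        filter_upwards [(tendsto_norm_cocompact_atTop (E := E)).eventually_ge_atTop 1] with v hv
        have : 0 < ‖v‖ := by linarith
        change _ = (1 - ‖v‖) / max 1 ‖v‖
        rw [max_eq_right hv]; field_simp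
      · rw [tendsto_zero_iff_norm_tendsto_zero]
        refine (tendsto_norm_cocompact_atTop (E := E)).inv_tendsto_atTop.congr' ?_
        filter_upwards [(tendsto_norm_cocompact_atTop (E := E)).eventually_ge_atTop 1] with v hv
        have : 0 < ‖v‖ := by linarith
        change ‖v‖⁻¹ = ‖((max 1 ‖v‖) ^ 2)⁻¹ • v‖
        rw [max_eq_right hv, norm_smul, norm_inv, norm_pow, norm_norm]; field_simp)

theorem jP_coe (v : E) : (jP hm he v).1 =
    (0, 1, (1 - ‖v‖) / max 1 ‖v‖, ((max 1 ‖v‖) ^ 2)⁻¹ • v) := rfl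

theorem jP_inf : (jP hm he ∞).1 = (0, 1, -1, 0) := rfl

omit hm he [FiniteDimensional ℝ E] in
theorem jv_min (v : E) : min 1 (1 + (1 - ‖v‖) / max 1 ‖v‖) = (max 1 ‖v‖)⁻¹ := by
  rcases le_total ‖v‖ 1 with k | k
  · rw [max_eq_left k, div_one, min_eq_left (by linarith), inv_one]
  · have : 0 < ‖v‖ := by linarith
    have e : 1 + (1 - ‖v‖) / ‖v‖ = ‖v‖⁻¹ := by field_simp; ring
    rw [max_eq_right k, e, min_eq_right (inv_le_one_of_one_le₀ k)]

theorem jP_inj : Injective (jP hm he) := by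
  have key : ∀ a, dv ((min 1 (1 + (jP hm he a).1.2.2.1)) ^ 2) (jP hm he a).1.2.2.2 = a := by
    intro a
    induction a using OnePoint.rec with
    | infty => rw [jP_inf]; simp [dv_zero]
    | coe v =>
      rw [jP_coe]
      have : 0 < max 1 ‖v‖ := by positivity
      dsimp only
      rw [jv_min, dv_ne (by positivity), smul_smul, inv_pow, inv_inv,
        mul_inv_cancel₀ (by positivity), one_smul]
  intro a b h
  rw [← key a, ← key b, h]

theorem jP_range : range (jP hm he) = {z | z.1.2.1 = 1} := by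
  ext z
  constructor
  · rintro ⟨a, rfl⟩
    induction a using OnePoint.rec <;> rfl
  · intro hz
    obtain ⟨h1, h2⟩ := shape hm z hz
    generalize z.1.2.2.1 = t at h1 h2
    generalize z.1.2.2.2 = w at h1 h2
    rcases le_total 0 t with ht | ht
    · rw [abs_of_nonneg ht] at h2
      refine ⟨w, Subtype.ext ?_⟩
      rw [jP_coe, h1, max_eq_left (by linarith), div_one, one_pow, inv_one, one_smul,
        show 1 - ‖w‖ = t by linarith]
    · rw [abs_of_nonpos ht] at h2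
      by_cases hw : w = 0
      · refine ⟨∞, Subtype.ext ?_⟩
        rw [hw, norm_zero] at h2
        rw [jP_inf, h1, hw, show t = -1 by linarith]
      · have h0 : 0 < ‖w‖ := norm_pos_iff.2 hw
        have hn : ‖(‖w‖ ^ 2)⁻¹ • w‖ = ‖w‖⁻¹ := by
          rw [norm_smul, norm_inv, norm_pow, norm_norm]; field_simp
        refine ⟨((‖w‖ ^ 2)⁻¹ • w : E), Subtype.ext ?_⟩
        rw [jP_coe, h1, hn, max_eq_right ((one_le_inv₀ h0).2 (by linarith)), smul_smul, inv_pow,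
          inv_inv, mul_inv_cancel₀ (by positivity), one_smul,
          show (1 - ‖w‖⁻¹) / ‖w‖⁻¹ = t by field_simp; linarith]

/-- slopes -/
theorem QP_slope (x y : DD E) (h : max ‖x.1‖ ‖y.1‖ = 1) :
    QP m (x, y) = jP hm he (dv (‖y.1‖ ^ 2) (m y.1 x.1)) := by
  apply Subtype.ext
  change qq m x.1 y.1 = _
  rw [qq_one h]
  by_cases hy : y.1 = 0
  · rw [hy, norm_zero, max_eq_left (norm_nonneg _)] at h
    rw [hy, norm_zero, h]; simp [dv_zero, jP_inf]
  · have h0 : 0 < ‖y.1‖ := norm_pos_iff.2 hy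
    have hn : ‖(‖y.1‖ ^ 2)⁻¹ • m y.1 x.1‖ = ‖x.1‖ / ‖y.1‖ := by
      rw [norm_smul, norm_inv, norm_pow, norm_norm, hm]; field_simp
    rw [dv_ne (by positivity), jP_coe, hn, smul_smul]
    rcases le_total ‖x.1‖ ‖y.1‖ with k | k
    · rw [max_eq_right k] at h
      rw [h] at k ⊢
      simp [max_eq_left k]
    · rw [max_eq_left k] at h
      rw [h] at k ⊢
      rw [max_eq_right ((one_le_div h0).2 k), show (1 - 1 / ‖y.1‖) / (1 / ‖y.1‖) = ‖y.1‖ - 1 by
        field_simp, show ((1 / ‖y.1‖) ^ 2)⁻¹ * (‖y.1‖ ^ 2)⁻¹ = 1 by field_simp, one_smul]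

/-- the data -/
def hd [ProperSpace E] : HD (DD E) (TP m) (OnePoint E) ∞ where
  SD := {x | ‖x.1‖ = 1}
  cSD := isClosed_eq (by fun_prop) continuous_const
  e := ⟨e, mem_closedBall_zero_iff.2 he.le⟩
  he := he
  C := ⟨fun p => ⟨(1 - p.1.1) • p.2.1 + p.1.1 • e, (convex_closedBall (0 : E) 1) p.2.2
    (mem_closedBall_zero_iff.2 he.le) (sub_nonneg.2 p.1.2.2) p.1.2.1 (by ring)⟩, by fun_prop⟩
  C0 x := Subtype.ext (by simp)
  C1 x := Subtype.ext (by simp)
  κ := ⟨fun x => dv (1 - ‖x.1‖) x.1, cont_dv (by fun_prop) (by fun_prop) fun x h k => by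
    rw [k, norm_zero] at h; norm_num at h⟩
  κs a := by
    induction a using OnePoint.rec with
    | infty => exact ⟨⟨e, mem_closedBall_zero_iff.2 he.le⟩, by simp [he, dv_zero]⟩
    | coe v =>
      have h0 : 0 < 1 + ‖v‖ := by positivity
      have hn : ‖(1 + ‖v‖)⁻¹ • v‖ = ‖v‖ / (1 + ‖v‖) := by
        rw [norm_smul, norm_inv, Real.norm_eq_abs, abs_of_pos h0]; field_simp
      have h1 : 1 - ‖v‖ / (1 + ‖v‖) = (1 + ‖v‖)⁻¹ := by field_simp; ring
      refine ⟨⟨(1 + ‖v‖)⁻¹ • v, mem_closedBall_zero_iff.2 ?_⟩, ?_⟩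
      · rw [hn, div_le_one h0]; linarith
      · change dv (1 - ‖(1 + ‖v‖)⁻¹ • v‖) ((1 + ‖v‖)⁻¹ • v) = _
        rw [hn, h1, dv_ne (by positivity), smul_smul, inv_inv, mul_inv_cancel₀ h0.ne', one_smul]
  κy x := by
    change dv (1 - ‖x.1‖) x.1 = ∞ ↔ ‖x.1‖ = 1
    by_cases h : 1 - ‖x.1‖ = 0
    · rw [h, dv_zero]; exact ⟨fun _ => by linarith, fun _ => rfl⟩
    · rw [dv_ne h]; exact ⟨fun k => absurd k (coe_ne_infty _), fun k => absurd (by linarith) h⟩
  κf x z h := by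
    change dv (1 - ‖x.1‖) x.1 = dv (1 - ‖z.1‖) z.1 at h
    by_cases hx : 1 - ‖x.1‖ = 0 <;> by_cases hz : 1 - ‖z.1‖ = 0
    · exact .inr ⟨show ‖x.1‖ = 1 by linarith, show ‖z.1‖ = 1 by linarith⟩
    · rw [hx, dv_zero, dv_ne hz] at h; exact absurd h (infty_ne_coe _)
    · rw [hz, dv_zero, dv_ne hx] at h; exact absurd h (coe_ne_infty _)
    · rw [dv_ne hx, dv_ne hz, coe_eq_coe] at h
      have h1 : 0 < 1 - ‖x.1‖ := lt_of_le_of_ne (sub_nonneg.2 (DD.le x)) (Ne.symm hx)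
      have h2 : 0 < 1 - ‖z.1‖ := lt_of_le_of_ne (sub_nonneg.2 (DD.le z)) (Ne.symm hz)
      have h3 := congrArg norm h
      rw [norm_smul, norm_smul, norm_inv, norm_inv, Real.norm_eq_abs, Real.norm_eq_abs,
        abs_of_pos h1, abs_of_pos h2] at h3
      have h4 : ‖x.1‖ = ‖z.1‖ := by field_simp at h3; linarith
      rw [h4] at h
      exact .inl (Subtype.ext (smul_right_injective E (inv_ne_zero hz) h))
  Q := QP m
  Qs := QP_surj m
  S := {z | z.1.2.1 = 1}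
  Bm := {z | z.1.2.1 = 1 ∧ z.1.2.2.1 ≤ 0}
  Bp := {z | z.1.2.1 = 1 ∧ 0 ≤ z.1.2.2.1}
  cm := (isClosed_eq (continuous_subtype_val.snd.fst) continuous_const).inter
    (isClosed_le (continuous_subtype_val.snd.snd.fst) continuous_const)
  cp := (isClosed_eq (continuous_subtype_val.snd.fst) continuous_const).inter
    (isClosed_le continuous_const (continuous_subtype_val.snd.snd.fst))
  hS := Set.ext fun z => ⟨fun h => (le_total z.1.2.2.1 0).imp (fun k => ⟨h, k⟩) fun k => ⟨h, k⟩,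
    fun h => h.elim (fun k => k.1) fun k => k.1⟩
  QS p h := by
    change max ‖p.1.1‖ ‖p.2.1‖ = 1 at h
    rcases max_choice ‖p.1.1‖ ‖p.2.1‖ with k | k
    · exact .inl (k.symm.trans h)
    · exact .inr (k.symm.trans h)
  Qf p q h := by
    have h1 : max ‖p.1.1‖ ‖p.2.1‖ = max ‖q.1.1‖ ‖q.2.1‖ := congrArg (fun z : TP m => z.1.2.1) h
    have h2 : (1 - max ‖p.1.1‖ ‖p.2.1‖) • (p.1.1, p.2.1) =
        (1 - max ‖q.1.1‖ ‖q.2.1‖) • (q.1.1, q.2.1) := congrArg (fun z : TP m => z.1.1) h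
    by_cases k : max ‖p.1.1‖ ‖p.2.1‖ = 1
    · refine .inr ⟨?_, ?_⟩
      · rcases max_choice ‖p.1.1‖ ‖p.2.1‖ with l | l
        · exact .inl (l.symm.trans k)
        · exact .inr (l.symm.trans k)
      · rcases max_choice ‖q.1.1‖ ‖q.2.1‖ with l | l
        · exact .inl (l.symm.trans (h1.symm.trans k))
        · exact .inr (l.symm.trans (h1.symm.trans k))
    · rw [← h1] at h2
      have h3 := smul_right_injective (E × E) (sub_ne_zero.2 (Ne.symm k)) h2
      exact .inl (Prod.ext (Subtype.ext (congrArg Prod.fst h3))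
        (Subtype.ext (congrArg Prod.snd h3)))
  Qm x hx z := ⟨(max_eq_left (hx.symm ▸ DD.le z)).trans hx,
    show ‖z.1‖ - ‖x.1‖ ≤ 0 from sub_nonpos.2 (hx.symm ▸ DD.le z)⟩
  Qp x z hz := ⟨(max_eq_right (hz.symm ▸ DD.le x)).trans hz,
    show 0 ≤ ‖z.1‖ - ‖x.1‖ from sub_nonneg.2 (hz.symm ▸ DD.le x)⟩
  i1 x x' h := Subtype.ext (inj_l hm he (congrArg (fun z : TP m => z.1.2.2.2) h))
  r1 z hz := by
    obtain ⟨h1, h2⟩ := shape hm z hz.1
    obtain ⟨x, hx⟩ := ex_p hm he hz.2 (by rwa [abs_of_nonneg hz.2] at h2)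
    exact ⟨x, Subtype.ext (hx.trans h1.symm)⟩
  m1 x h := by
    have h1 : ‖e‖ - ‖x.1‖ ≤ 0 := h.2
    exact le_antisymm (DD.le x) (by linarith)
  i2 x x' h := Subtype.ext (inj_r hm he (congrArg (fun z : TP m => z.1.2.2.2) h))
  r2 z hz := by
    obtain ⟨h1, h2⟩ := shape hm z hz.1
    obtain ⟨x, hx⟩ := ex_m hm he hz.2 (by rwa [abs_of_nonpos hz.2] at h2)
    exact ⟨x, Subtype.ext (hx.trans h1.symm)⟩
  m2 x h := by
    have h1 : 0 ≤ ‖x.1‖ - ‖e‖ := h.2
    exact le_antisymm (DD.le x) (by linarith)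
  j := jP hm he
  ji := jP_inj hm he
  jr := jP_range hm he

/-- **the projective plane has odd `ψ³`-defect** -/
theorem plane [ProperSpace E] (h8 : finrank ℝ E = 8) {b : KC C(OnePoint E, ℂ)}
    (hb : Gn (kv ∞) b) :
    ∃ (ξ : KC C(TP m, ℂ)) (η : KC (CR (TP m) {z | z.1.2.1 = 1})) (μ : ℤ), Odd μ ∧
      kp (jP hm he) ξ = b ∧ (∀ t, kv t ξ = 0) ∧ Gn (ke _ (jP hm he ∞)) η ∧
      pX 3 (TP m) ξ = (81 : ℤ) • ξ + μ • ki _ η := by
  obtain ⟨c⟩ := coll_op 7 E h8
  refine (hd hm he).core c (fun x hx => ?_) hb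
  let k : C(smashSet (hd hm he).SD (hd hm he).SD, sphere (0 : E × E) 1) :=
    ⟨fun p => ⟨(p.1.1.1, p.1.2.1), by
      rw [mem_sphere_zero_iff_norm, Prod.norm_def]
      rcases p.2 with h | h
      · exact (max_eq_left (h.symm ▸ DD.le p.1.2)).trans h
      · exact (max_eq_right (h.symm ▸ DD.le p.1.1)).trans h⟩, by fun_prop⟩
  have hk : Bijective k := by
    refine ⟨fun p q h => Subtype.ext (Prod.ext
      (Subtype.ext (congrArg (fun z : sphere (0 : E × E) 1 => z.1.1) h))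
      (Subtype.ext (congrArg (fun z : sphere (0 : E × E) 1 => z.1.2) h))), fun s => ?_⟩
    have h := mem_sphere_zero_iff_norm.1 s.2
    rw [Prod.norm_def] at h
    refine ⟨⟨(⟨s.1.1, mem_closedBall_zero_iff.2 ((le_max_left _ _).trans h.le)⟩,
      ⟨s.1.2, mem_closedBall_zero_iff.2 ((le_max_right _ _).trans h.le)⟩), ?_⟩, rfl⟩
    rcases max_choice ‖s.1.1‖ ‖s.1.2‖ with l | l
    · exact .inl (l.symm.trans h)
    · exact .inr (l.symm.trans h)
  have : CompactSpace (smashSet (hd hm he).SD (hd hm he).SD) :=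
    isCompact_iff_compactSpace.1 (hd hm he).cbd.isCompact
  obtain ⟨x', rfl⟩ := (kp_bij k hk).2 x
  rw [kz_sphere 14 (by decide) (E × E) (by simp [h8]) x' fun p => ?_, map_zero]
  obtain ⟨p, rfl⟩ := hk.2 p
  exact (kv_kp k p x').symm.trans (hx p)

end Crest.Agent.N218.Hf
end
end

-- ▼ part N218/Hf/G
section

/-!
# Row 218, block D3, leaf HOPF (helper39): the projective plane is a reduced mapping cone
-/

set_option autoImplicit false
set_option linter.unusedVariables false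
set_option linter.unusedSectionVars false

open scoped unitInterval Topology
open Set Function OnePoint Metric Filter Module

noncomputable section

namespace Crest.Agent.N218.Hf

open Crest.Agent.R204 H472 Ex837 ExM515 HMain515

theorem cont_ext {V T : Type} [TopologicalSpace V] [T2Space V] [TopologicalSpace T]
    {f : V × I → T} (hf : Continuous f) (t0 : T)
    (h : ∀ U ∈ 𝓝 t0, ∃ K, IsCompact K ∧ ∀ w ∉ K, ∀ t, f (w, t) ∈ U) :
    Continuous fun z : OnePoint V × I =>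
      (OnePoint.rec t0 (fun w => f (w, z.2)) z.1 : T) := by
  rw [continuous_iff_continuousAt]
  rintro ⟨w, t⟩
  induction w using OnePoint.rec with
  | coe w =>
    have e : Topology.IsOpenEmbedding (Prod.map (↑) id : V × I → OnePoint V × I) :=
      isOpenEmbedding_coe.prodMap Topology.IsOpenEmbedding.id
    exact (e.continuousAt_iff (x := (w, t))).1 hf.continuousAt
  | infty =>
    intro U hU
    obtain ⟨K, hK, k⟩ := h U hU
    have : ∀ᶠ z : OnePoint V × I in 𝓝 (∞, t), z.1 ∈ (↑) '' Kᶜ ∪ {∞} :=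
      continuous_fst.continuousAt.eventually (hasBasis_nhds_infty.mem_of_mem ⟨hK.isClosed, hK⟩)
    rw [mem_map]
    filter_upwards [this]
    rintro ⟨z, q⟩ (⟨w, hw, e⟩ | e)
    · obtain rfl : (w : OnePoint V) = z := e
      exact k w hw q
    · obtain rfl : z = ∞ := e
      exact (mem_of_mem_nhds (show U ∈ 𝓝 t0 from hU) : t0 ∈ U)

variable {E F : Type} [NormedAddCommGroup E] [NormedSpace ℝ E] [NormedAddCommGroup F]
  [NormedSpace ℝ F] (L : (ℝ × F) ≃L[ℝ] E)

/-- homogeneous coordinates -/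
def gP (w : E × F) (t : ℝ) : E × E :=
  ((1 - t + ((1 - t) * ‖w.1‖ + t)) • L ((1 - t) * ‖w.1‖ + t - (1 - t), (1 - t) • w.2),
    (1 - t) ^ 2 • w.1)

/-- the denominator -/
def gD (w : E × F) (t : ℝ) : ℝ := t * (1 - t) + ‖gP L w t‖

theorem gP_zero (w : E × F) : gP L w 0 = ((1 + ‖w.1‖) • L (‖w.1‖ - 1, w.2), w.1) := by
  simp [gP]

theorem gP_one (w : E × F) : gP L w 1 = (L (1, 0), 0) := by
  simp [gP]

theorem gD_pos (w : E × F) (t : I) : 0 < gD L w t := by
  rcases eq_or_lt_of_le t.2.1 with h | h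
  · rw [gD, ← h, gP_zero, zero_mul, zero_add, norm_pos_iff]
    intro e
    have h1 : w.1 = 0 := congrArg Prod.snd e
    have h2 : (1 + ‖w.1‖) • L (‖w.1‖ - 1, w.2) = 0 := congrArg Prod.fst e
    rw [h1, norm_zero, add_zero, one_smul, L.map_eq_zero_iff] at h2
    have := congrArg Prod.fst h2
    norm_num at this
  · rcases eq_or_lt_of_le t.2.2 with k | k
    · rw [gD, k, gP_one, sub_self, mul_zero, zero_add, norm_pos_iff]
      intro e
      have h2 : L (1, 0) = 0 := congrArg Prod.fst e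
      rw [L.map_eq_zero_iff] at h2
      have := congrArg Prod.fst h2
      norm_num at this
    · exact add_pos_of_pos_of_nonneg (mul_pos h (sub_pos.2 k)) (norm_nonneg _)

theorem gN_le (w : E × F) (t : I) : ‖(gD L w t)⁻¹ • gP L w t‖ ≤ 1 := by
  have h := gD_pos L w t
  rw [norm_smul, norm_inv, Real.norm_eq_abs, abs_of_pos h, inv_mul_le_iff₀ h, mul_one, gD]
  have := mul_nonneg t.2.1 (sub_nonneg.2 t.2.2)
  linarith

/-- the point of the bidisc -/
def gB (w : E × F) (t : I) : DD E × DD E :=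
  (⟨((gD L w t)⁻¹ • gP L w t).1, mem_closedBall_zero_iff.2 ((norm_fst_le _).trans (gN_le L w t))⟩,
   ⟨((gD L w t)⁻¹ • gP L w t).2, mem_closedBall_zero_iff.2 ((norm_snd_le _).trans (gN_le L w t))⟩)

theorem cont_gB : Continuous fun z : (E × F) × I => gB L z.1 z.2 := by
  have h1 : Continuous fun z : (E × F) × I => gP L z.1 z.2 := by unfold gP; fun_prop
  have h2 : Continuous fun z : (E × F) × I => (gD L z.1 z.2)⁻¹ • gP L z.1 z.2 := by
    refine Continuous.smul (Continuous.inv₀ ?_ fun z => (gD_pos L _ _).ne') h1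
    unfold gD; fun_prop
  exact (h2.fst.subtype_mk _).prodMk (h2.snd.subtype_mk _)

theorem gB_max (w : E × F) (t : I) :
    max ‖(gB L w t).1.1‖ ‖(gB L w t).2.1‖ = (gD L w t)⁻¹ * ‖gP L w t‖ := by
  change ‖(gD L w t)⁻¹ • gP L w t‖ = _
  rw [norm_smul, norm_inv, Real.norm_eq_abs, abs_of_pos (gD_pos L w t)]

theorem gB_one (w : E × F) (t : I) :
    max ‖(gB L w t).1.1‖ ‖(gB L w t).2.1‖ = 1 ↔ t = 0 ∨ t = 1 := by
  have h := gD_pos L w t
  rw [gB_max, inv_mul_eq_one₀ h.ne', gD, add_eq_right, mul_eq_zero, sub_eq_zero]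
  exact or_congr ⟨fun e => Subtype.ext e, fun e => congrArg Subtype.val e⟩
    ⟨fun e => Subtype.ext e.symm, fun e => (congrArg Subtype.val e).symm⟩

theorem g_est {ε κ : ℝ} (hε : 0 < ε) (hκ : ∀ w, ‖w‖ ≤ κ * ‖L w‖) (k0 : 0 < κ) (w : E × F)
    (hw : 1 + κ / ε ≤ ‖w‖) (t : I) :
    t * (1 - t) + ‖(gP L w t).2‖ ≤ ε * ‖(gP L w t).1‖ := by
  obtain ⟨t, t0, t1⟩ := t
  have s0 : 0 ≤ 1 - t := sub_nonneg.2 t1
  have hy := norm_nonneg w.1
  set s := 1 - t with hs
  set v := s * ‖w.1‖ + t with hv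
  have v0 : 0 ≤ v := by positivity
  have e1 : t * s + ‖(gP L w t).2‖ = s * v := by
    change t * s + ‖s ^ 2 • w.1‖ = _
    rw [norm_smul, norm_pow, Real.norm_eq_abs, abs_of_nonneg s0, hv]; ring
  have e2 : ‖(gP L w t).1‖ = (s + v) * ‖L (v - s, s • w.2)‖ := by
    change ‖(s + v) • L (v - s, s • w.2)‖ = _
    rw [norm_smul, Real.norm_eq_abs, abs_of_nonneg (by positivity)]
  have h1 := hκ (v - s, s • w.2)
  have h2 : s * (κ / ε) ≤ ‖((v - s, s • w.2) : ℝ × F)‖ := by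
    rw [Prod.norm_def] at hw ⊢
    rcases le_max_iff.1 hw with k | k
    · refine le_max_of_le_left (le_trans ?_ (le_abs_self _))
      change _ ≤ v - s
      rw [hv]; nlinarith
    · refine le_max_of_le_right ?_
      change _ ≤ ‖s • w.2‖
      rw [norm_smul, Real.norm_eq_abs, abs_of_nonneg s0]
      exact mul_le_mul_of_nonneg_left (by linarith) s0
  have h3 : s ≤ ε * ‖L (v - s, s • w.2)‖ := by
    have h4 := h2.trans h1
    rw [← mul_div_assoc, div_le_iff₀ hε] at h4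
    nlinarith
  change t * s + _ ≤ _
  rw [e1, e2]
  nlinarith [mul_le_mul_of_nonneg_left h3 (show 0 ≤ s + v by positivity)]

variable {m : E →L[ℝ] E →L[ℝ] E} (hm : ∀ s x, ‖m s x‖ = ‖s‖ * ‖x‖) {e : E} (he : ‖e‖ = 1)

include hm in
theorem near {x y : E} {ε : ℝ} (h1 : ‖x‖ ≤ 1) (h2 : 1 - ε ≤ ‖x‖) (h3 : ‖y‖ ≤ ε)
    (h4 : ‖y‖ ≤ ‖x‖) : dist (qq m x y) (0, 1, -1, 0) ≤ 2 * ε := by
  have := norm_nonneg x
  have := norm_nonneg y
  rw [qq, max_eq_left h4]
  simp only [Prod.dist_eq, max_le_iff, dist_zero_right, Real.dist_eq, abs_le]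
  refine ⟨?_, ⟨by linarith, by linarith⟩, ⟨by linarith, by linarith⟩, ?_⟩
  · rw [norm_smul, Real.norm_eq_abs, abs_of_nonneg (by linarith), Prod.norm_def, max_eq_left h4]
    nlinarith
  · rw [hm]; nlinarith

variable [FiniteDimensional ℝ E] [FiniteDimensional ℝ F]

/-- the characteristic map of the reduced cone -/
def GG : C(OnePoint (E × F) × I, TP m) :=
  ⟨fun z => OnePoint.rec (jP hm he ∞) (fun w => QP m (gB L w z.2)) z.1, by
    refine cont_ext (f := fun z => QP m (gB L z.1 z.2)) ((QP m).continuous.comp (cont_gB L)) _ ?_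
    intro U hU
    obtain ⟨U', hU', hs⟩ := (mem_nhds_subtype _ _ _).1 hU
    obtain ⟨δ, hδ, hb⟩ := Metric.nhds_basis_closedBall.mem_iff.1 hU'
    have : ProperSpace (E × F) := FiniteDimensional.proper_real _
    obtain ⟨κ, k0, hκ⟩ : ∃ κ, 0 < κ ∧ ∀ w, ‖w‖ ≤ κ * ‖L w‖ :=
      ⟨‖(L.symm : E →L[ℝ] ℝ × F)‖ + 1, by positivity, fun w => by
        have h := (L.symm : E →L[ℝ] ℝ × F).le_opNorm (L w)
        rw [ContinuousLinearEquiv.coe_coe, L.symm_apply_apply] at h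
        nlinarith [norm_nonneg (L w)]⟩
    have hε : 0 < min (δ / 2) 1 := by positivity
    have e1 := min_le_left (δ / 2) 1
    have e2 := min_le_right (δ / 2) 1
    generalize min (δ / 2) 1 = ε at hε e1 e2
    refine ⟨closedBall 0 (1 + κ / ε), isCompact_closedBall _ _, fun w hw t => hs (hb ?_)⟩
    have h := g_est L hε hκ k0 w (by
      rw [mem_closedBall_zero_iff, not_le] at hw; exact hw.le) t
    have hd := gD_pos L w t
    have ht := mul_nonneg t.2.1 (sub_nonneg.2 t.2.2)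
    have ha := norm_nonneg (gP L w t).1
    have hb := norm_nonneg (gP L w t).2
    have hle : ‖(gP L w t).2‖ ≤ ‖(gP L w t).1‖ := by nlinarith
    have hD : gD L w t = t * (1 - t) + ‖(gP L w t).1‖ := by
      rw [gD, Prod.norm_def, max_eq_left hle]
    have n1 : ‖(gB L w t).1.1‖ = (gD L w t)⁻¹ * ‖(gP L w t).1‖ := by
      change ‖(gD L w t)⁻¹ • (gP L w t).1‖ = _
      rw [norm_smul, norm_inv, Real.norm_eq_abs, abs_of_pos hd]
    have n2 : ‖(gB L w t).2.1‖ = (gD L w t)⁻¹ * ‖(gP L w t).2‖ := by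
      change ‖(gD L w t)⁻¹ • (gP L w t).2‖ = _
      rw [norm_smul, norm_inv, Real.norm_eq_abs, abs_of_pos hd]
    refine (near hm (ε := ε) (DD.le _) ?_ ?_ ?_).trans (by linarith)
    · rw [n1, le_inv_mul_iff₀ hd, hD]; nlinarith
    · rw [n2, inv_mul_le_iff₀ hd, hD]; nlinarith
    · rw [n1, n2]; exact mul_le_mul_of_nonneg_left hle (inv_pos.2 hd).le⟩


theorem GG_coe (w : E × F) (t : I) : GG L hm he (w, t) = QP m (gB L w t) := rfl

/-- the desuspended Hopf map -/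
def f0 (m : E →L[ℝ] E →L[ℝ] E) (a : OnePoint (E × F)) : OnePoint E :=
  OnePoint.rec ∞ (fun w => dv (‖w.1‖ ^ 2 / (1 + ‖w.1‖)) (m w.1 (L (‖w.1‖ - 1, w.2)))) a

theorem GG_zero (a : OnePoint (E × F)) : GG L hm he (a, 0) = jP hm he (f0 L m a) := by
  induction a using OnePoint.rec with
  | infty => rfl
  | coe w =>
    rw [GG_coe, QP_slope hm he _ _ ((gB_one L w 0).2 (.inl rfl))]
    congr 1
    have hd := gD_pos L w 0
    change dv (‖(gD L w 0)⁻¹ • (gP L w 0).2‖ ^ 2) (m ((gD L w 0)⁻¹ • (gP L w 0).2)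
      ((gD L w 0)⁻¹ • (gP L w 0).1)) = dv _ _
    change 0 < gD L w 0 at hd
    rw [gP_zero, norm_smul, norm_inv, Real.norm_eq_abs, abs_of_pos hd]
    by_cases hy : w.1 = 0
    · simp [hy, dv_zero]
    · have h0 : 0 < ‖w.1‖ := norm_pos_iff.2 hy
      rw [dv_ne (by positivity), dv_ne (by positivity)]
      simp only [_root_.map_smul, smul_apply, smul_smul]
      congr 2
      field_simp

theorem GG_one (a : OnePoint (E × F)) : GG L hm he (a, 1) = jP hm he ∞ := by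
  induction a using OnePoint.rec with
  | infty => rfl
  | coe w =>
    rw [GG_coe, QP_slope hm he _ _ ((gB_one L w 1).2 (.inr rfl))]
    congr 1
    change dv (‖(gD L w 1)⁻¹ • (gP L w 1).2‖ ^ 2) _ = _
    rw [gP_one]
    simp [dv_zero]

/-- the collapsed part of the cylinder -/
def BD (V : Type) : Set (OnePoint V × I) := {z | z.2 = 0 ∨ z.2 = 1 ∨ z.1 = ∞}

theorem jP_mem (a : OnePoint E) : (jP hm he a).1.2.1 = 1 :=
  (Set.ext_iff.1 (jP_range hm he) _).1 (mem_range_self a)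

theorem GG_maps : MapsTo (GG L hm he) (BD (E × F)) {z | z.1.2.1 = 1} := by
  rintro ⟨a, t⟩ (h | h | h)
  · obtain rfl : t = 0 := h
    rw [GG_zero]; exact jP_mem hm he _
  · obtain rfl : t = 1 := h
    rw [GG_one]; exact jP_mem hm he _
  · obtain rfl : a = ∞ := h
    exact jP_mem hm he _

theorem GG_bd (z : OnePoint (E × F) × I) (h : (GG L hm he z).1.2.1 = 1) : z ∈ BD (E × F) := by
  obtain ⟨a, t⟩ := z
  induction a using OnePoint.rec with
  | infty => exact .inr (.inr rfl)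
  | coe w => exact ((gB_one L w t).1 h).imp id .inl

omit [FiniteDimensional ℝ E] [FiniteDimensional ℝ F] in
theorem gP_aff (w : E × F) {t τ : ℝ} (h0 : 0 < τ) (ht : t = τ / (1 + τ)) :
    gP L w t = (t * (1 - t)) • (L (((‖w.1‖ + τ) ^ 2 - 1) / τ, ((1 + (‖w.1‖ + τ)) / τ) • w.2),
      τ⁻¹ • w.1) := by
  have hs : 1 - t = 1 / (1 + τ) := by rw [ht]; field_simp; ring
  unfold gP
  rw [hs, ht, Prod.smul_mk, ← _root_.map_smul, ← _root_.map_smul, Prod.smul_mk, Prod.smul_mk,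
    smul_smul, smul_smul, smul_smul, smul_eq_mul, smul_eq_mul]
  congr 3
  · field_simp; ring
  · congr 1; field_simp
  · field_simp

omit [FiniteDimensional ℝ E] [FiniteDimensional ℝ F] in
theorem gB_aff (w : E × F) (t : I) {τ : ℝ} (h0 : 0 < τ) (ht : t.1 = τ / (1 + τ)) {R : E × E}
    (hR : R = (L (((‖w.1‖ + τ) ^ 2 - 1) / τ, ((1 + (‖w.1‖ + τ)) / τ) • w.2), τ⁻¹ • w.1)) :
    ((gB L w t).1.1, (gB L w t).2.1) = (1 + ‖R‖)⁻¹ • R := by
  change (gD L w t)⁻¹ • gP L w t = _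
  have hs : 1 - t.1 = 1 / (1 + τ) := by rw [ht]; field_simp; ring
  have hc : 0 < t.1 * (1 - t.1) := by rw [hs, ht]; positivity
  rw [gD, gP_aff L w h0 ht, ← hR, norm_smul, Real.norm_eq_abs, abs_of_pos hc, smul_smul]
  congr 1
  have := norm_nonneg R
  generalize t.1 * (1 - t.1) = c at hc
  field_simp

theorem tau_of {t : I} (h0 : t ≠ 0) (h1 : t ≠ 1) : ∃ τ : ℝ, 0 < τ ∧ t.1 = τ / (1 + τ) := by
  have a0 : 0 < t.1 := lt_of_le_of_ne t.2.1 fun e => h0 (Subtype.ext e.symm)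
  have a1 : 0 < 1 - t.1 := sub_pos.2 (lt_of_le_of_ne t.2.2 fun e => h1 (Subtype.ext e))
  exact ⟨t.1 / (1 - t.1), by positivity, by field_simp; ring⟩

omit [FiniteDimensional ℝ E] in
theorem aff_inj {R R' : E} (h : (1 + ‖R‖)⁻¹ • R = (1 + ‖R'‖)⁻¹ • R') : R = R' := by
  have a := norm_nonneg R
  have b := norm_nonneg R'
  have h3 := congrArg norm h
  rw [norm_smul, norm_smul, norm_inv, norm_inv, Real.norm_eq_abs, Real.norm_eq_abs,
    abs_of_pos (by positivity), abs_of_pos (by positivity)] at h3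
  have h4 : ‖R‖ = ‖R'‖ := by field_simp at h3; linarith
  rw [h4] at h
  exact smul_right_injective E (inv_ne_zero (by positivity)) h

theorem GG_fib [ProperSpace E] (z z' : OnePoint (E × F) × I)
    (h : GG L hm he z = GG L hm he z') : z = z' ∨ (z ∈ BD (E × F) ∧ z' ∈ BD (E × F)) := by
  by_cases hz : z ∈ BD (E × F)
  · exact .inr ⟨hz, GG_bd L hm he z' (h ▸ GG_maps L hm he hz)⟩
  have hz' : z' ∉ BD (E × F) := fun k => hz (GG_bd L hm he z (h ▸ GG_maps L hm he k))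
  left
  obtain ⟨a, t⟩ := z
  obtain ⟨a', t'⟩ := z'
  induction a using OnePoint.rec with
  | infty => exact absurd (.inr (.inr rfl)) hz
  | coe w =>
  induction a' using OnePoint.rec with
  | infty => exact absurd (.inr (.inr rfl)) hz'
  | coe w' =>
  obtain ⟨τ, h0, ht⟩ := tau_of (t := t) (fun k => hz (.inl k)) fun k => hz (.inr (.inl k))
  obtain ⟨τ', h0', ht'⟩ := tau_of (t := t') (fun k => hz' (.inl k)) fun k => hz' (.inr (.inl k))
  have hB : gB L w t = gB L w' t' := by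
    refine ((hd hm he).Qf _ _ h).resolve_right fun k => hz ?_
    exact GG_bd L hm he _ ((hd hm he).QS' k.1)
  have hR := aff_inj ((gB_aff L w t h0 ht rfl).symm.trans
    (hB ▸ gB_aff L w' t' h0' ht' rfl))
  have h1 : τ⁻¹ • w.1 = τ'⁻¹ • w'.1 := congrArg Prod.snd hR
  have h2 := L.injective (congrArg Prod.fst hR)
  have h3 : ((‖w.1‖ + τ) ^ 2 - 1) / τ = ((‖w'.1‖ + τ') ^ 2 - 1) / τ' := congrArg Prod.fst h2
  have h4 : ((1 + (‖w.1‖ + τ)) / τ) • w.2 = ((1 + (‖w'.1‖ + τ')) / τ') • w'.2 :=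
    congrArg Prod.snd h2
  have h5 := congrArg norm h1
  rw [norm_smul, norm_smul, norm_inv, norm_inv, Real.norm_eq_abs, Real.norm_eq_abs,
    abs_of_pos h0, abs_of_pos h0'] at h5
  obtain ⟨n, n0, e1, e2⟩ : ∃ n, 0 ≤ n ∧ ‖w.1‖ = τ * n ∧ ‖w'.1‖ = τ' * n :=
    ⟨τ⁻¹ * ‖w.1‖, by positivity, by field_simp, by rw [h5]; field_simp⟩
  have hτ : τ = τ' := by
    rw [e1, e2, div_eq_div_iff h0.ne' h0'.ne'] at h3
    have : (τ - τ') * (τ * τ' * (n + 1) ^ 2 + 1) = 0 := by linear_combination h3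
    exact sub_eq_zero.1 ((mul_eq_zero.1 this).resolve_right (by positivity))
  subst hτ
  have hy : w.1 = w'.1 := smul_right_injective E (inv_ne_zero h0.ne') h1
  rw [hy] at h4
  have hz : w.2 = w'.2 := smul_right_injective F (by positivity) h4
  rw [Prod.ext hy hz, Subtype.ext (ht.trans ht'.symm)]

theorem GG_sur (z : TP m) : z.1.2.1 = 1 ∨ z ∈ range (GG L hm he) := by
  obtain ⟨p, rfl⟩ := QP_surj m z
  by_cases hN : max ‖p.1.1‖ ‖p.2.1‖ = 1
  · exact .inl hN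
  right
  have h1 : 0 < 1 - ‖(p.1.1, p.2.1)‖ :=
    sub_pos.2 (lt_of_le_of_ne (max_le (DD.le _) (DD.le _)) hN)
  obtain ⟨R, hR⟩ : ∃ R : E × E, (p.1.1, p.2.1) = (1 + ‖R‖)⁻¹ • R := by
    refine ⟨(1 - ‖(p.1.1, p.2.1)‖)⁻¹ • (p.1.1, p.2.1), ?_⟩
    rw [norm_smul, norm_inv, Real.norm_eq_abs, abs_of_pos h1, smul_smul,
      show (1 + (1 - ‖(p.1.1, p.2.1)‖)⁻¹ * ‖(p.1.1, p.2.1)‖)⁻¹ * (1 - ‖(p.1.1, p.2.1)‖)⁻¹ = 1 by
        field_simp; ring, one_smul]
  have n0 := norm_nonneg R.2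
  obtain ⟨u, u0, hu⟩ : ∃ u : ℝ, 0 < u ∧ u ^ 2 - 1 = (L.symm R.1).1 / (1 + ‖R.2‖) * u := by
    generalize (L.symm R.1).1 / (1 + ‖R.2‖) = c
    have h2 := Real.sq_sqrt (show 0 ≤ c ^ 2 + 4 by positivity)
    have h3 : |c| < √(c ^ 2 + 4) := Real.lt_sqrt_of_sq_lt (by rw [sq_abs]; linarith)
    exact ⟨(c + √(c ^ 2 + 4)) / 2, by linarith [neg_abs_le c], by linear_combination h2 / 4⟩
  have h0 : 0 < u / (1 + ‖R.2‖) := by positivity
  generalize hτ : u / (1 + ‖R.2‖) = τ at h0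
  have e0 : u = τ * ‖R.2‖ + τ := by rw [← hτ]; field_simp; ring
  have e1 : ‖τ • R.2‖ + τ = u := by rw [norm_smul, Real.norm_eq_abs, abs_of_pos h0, e0]
  refine ⟨(((τ • R.2, (τ / (1 + u)) • (L.symm R.1).2) : E × F), ⟨τ / (1 + τ), by positivity,
    (div_le_one (by positivity)).2 (by linarith)⟩), ?_⟩
  rw [GG_coe]
  congr 1
  have := (gB_aff L (τ • R.2, (τ / (1 + u)) • (L.symm R.1).2) ⟨τ / (1 + τ), by positivity,
    (div_le_one (by positivity)).2 (by linarith)⟩ h0 rfl (R := R) (by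
      dsimp only
      rw [e1, smul_smul, smul_smul, inv_mul_cancel₀ h0.ne', one_smul,
        show (1 + u) / τ * (τ / (1 + u)) = 1 by field_simp, one_smul, hu,
        show (L.symm R.1).1 / (1 + ‖R.2‖) * u / τ = (L.symm R.1).1 by
          rw [← hτ]; field_simp, Prod.mk.eta, L.apply_symm_apply])).trans hR.symm
  exact Prod.ext (Subtype.ext (congrArg Prod.fst this)) (Subtype.ext (congrArg Prod.snd this))


end Crest.Agent.N218.Hf
end
end

-- ▼ part N218/Hf/Ecl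
section

/-!
# Row 218, block D3, leaf HOPF (helper39): from a model of the mapping cone to `Ecl`
-/

set_option autoImplicit false
set_option linter.unusedVariables false
set_option linter.unusedSectionVars false

open scoped unitInterval Topology
open Set Function

noncomputable section

namespace Crest.Agent.N218.Hf

open Crest.Agent.R204 H472 Ex837 ExM515 HMain515
open K (Ex H1 SD Cn Ecl pull KA)

variable {X : Type} [TopologicalSpace X] {A B S : Ex X}


theorem rd_iff {x0 : X} (hX : ∀ x, x = x0) (x : KC C(A.E, ℂ)) :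
    A.Rd x ↔ kv (A.s x0) x = 0 := by
  have e : pull A.s x = kk X (kv (A.s x0) x) :=
    kp_const A.s _ (fun y => by rw [hX y]) x
  refine ⟨fun h => ?_, fun h => ?_⟩
  · have h2 : kp A.s x = 0 := h
    rw [← kv_kp, h2, map_zero]
  · change pull A.s x = 0
    rw [e, h, map_zero]

theorem int_mul {R : Type} [CommRing R] (r : ℤ) (x : R) : (r : R) * x = r • x := by
  rw [zsmul_eq_mul]

theorem KA_KA {R₁ R₂ R₃ : Type} [CommRing R₁] [CommRing R₂] [CommRing R₃] [Algebra ℂ R₁]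
    [Algebra ℂ R₂] [Algebra ℂ R₃] (φ : R₁ →ₐ[ℂ] R₂) (ψ : R₂ →ₐ[ℂ] R₃) (χ : R₁ →ₐ[ℂ] R₃)
    (h : ∀ a, ψ (φ a) = χ a) (x : KC R₁) : KA ψ (KA φ x) = KA χ x :=
  KM_comp (φ : R₁ →+* R₂) (ψ : R₂ →+* R₃) (χ : R₁ →+* R₃) h x

theorem KA_sq {R₁ R₂ R₃ R₄ R₅ : Type} [CommRing R₁] [CommRing R₂] [CommRing R₃] [CommRing R₄]
    [CommRing R₅] [Algebra ℂ R₂] [Algebra ℂ R₄] [Algebra ℂ R₅] (φ : R₁ →+* R₂) (θ : R₂ →ₐ[ℂ] R₅)
    (Ψ : R₁ →+* R₃) (v : R₃ →+* R₄) (i : R₄ →ₐ[ℂ] R₅) (h : ∀ a, θ (φ a) = i (v (Ψ a)))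
    (x : KC R₁) : KA θ (KM φ x) = KA i (KM v (KM Ψ x)) := by
  rw [KM_comp Ψ v (v.comp Ψ) (fun _ => rfl)]
  exact KM_eq φ (θ : R₂ →+* R₅) (v.comp Ψ) (i : R₄ →+* R₅) h x

theorem ps_KA {R₁ R₂ : Type} [CommRing R₁] [CommRing R₂] [Algebra ℂ R₁] [Algebra ℂ R₂]
    (φ : R₁ →ₐ[ℂ] R₂) (x : KC R₁) : K.ps R₂ (KA φ x) = KA φ (K.ps R₁ x) := K357.psi_map φ x

theorem pX_ps (U : Type) [TopologicalSpace U] (x : KC C(U, ℂ)) : pX 3 U x = K.ps C(U, ℂ) x := rfl

theorem ecl_of (F : H1 A B) (D : SD A S) {x0 : X} (hX : ∀ x, x = x0)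
    {T : Type} [TopologicalSpace T] [CompactSpace T] [T2Space T] {Z : Set T} (hZ : IsClosed Z)
    (G : C(A.E × I, T)) (j : C(B.E, T)) (G0 : ∀ e, G (e, 0) = j (F.f e))
    (G1 : ∀ e, G (e, 1) = j (B.s x0)) (Gs : ∀ t, G (A.s x0, t) = j (B.s x0))
    (jZ : ∀ b, j b ∈ Z) (hs : ∀ y, y ∈ Z ∨ y ∈ range G) (hA : ∀ z, G z ∈ Z → A.Bd z)
    (hf : ∀ z z', G z = G z' → z = z' ∨ (A.Bd z ∧ A.Bd z'))
    {ξ : KC C(T, ℂ)} {η : KC (CR T Z)} (hη : Gn (ke Z (j (B.s x0))) η) {r μ : ℤ}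
    (h : pX 3 T ξ = r • ξ + μ • ki Z η) :
    ∃ t, Gn (kv (S.s x0)) t ∧ Ecl F D (pull j ξ) (r : K.KX X) (μ • t) := by
  have mG : MapsTo G {z | A.Bd z} Z := by
    rintro ⟨e, t⟩ (k | k | k)
    · obtain rfl : t = 0 := k
      rw [G0]; exact jZ _
    · obtain rfl : t = 1 := k
      rw [G1]; exact jZ _
    · have k' : e = A.s x0 := k.trans (by rw [hX (A.p _)])
      rw [k', Gs]; exact jZ _
  have mc : MapsTo D.c {z | A.Bd z} {S.s x0} := fun z hz => (D.bd z hz).trans (by rw [hX (A.p _)])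
  have a0 : (A.s x0, (0 : I)) ∈ {z | A.Bd z} := .inl rfl
  have bc := comap_bij D.c mc isClosed_singleton a0 (fun y => .inr (D.surj y))
    (fun z hz => by
      rcases D.inj z _ (hz.trans (mc a0).symm) with k | k
      · rw [k]; exact a0
      · exact k.1) D.inj
  have bG := kc_bij G mG hZ a0 hs hA hf
  let ε := RingEquiv.ofBijective (CR.comap D.c mc).toRingHom bc
  let Ψ : CR T Z →+* CR S.E {S.s x0} := ε.symm.toRingHom.comp (CR.comap G mG).toRingHom
  have hΨ : ∀ u z, (Ψ u).1 (D.c z) = u.1 (G z) := fun u z =>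
    congrArg (fun v : CR (A.E × I) {z | A.Bd z} => v.1 z) (ε.apply_symm_apply (CR.comap G mG u))
  have e1 : kc D.c mc (KM Ψ η) = kc G mG η :=
    KM_comp _ _ _ (by exact fun u => ε.apply_symm_apply (CR.comap G mG u)) η
  have g1 : Gn (ke {z | A.Bd z} (A.s x0, 0)) (kc G mG η) :=
    hη.map (kc G mG).toAddMonoidHom bG fun x => (ke_kc G mG _ x).trans (by rw [Gs])
  have g2 : Gn (ke {S.s x0} (S.s x0)) (KM Ψ η) :=
    Gn.of_map (kc D.c mc).toAddMonoidHom (KM_bij _ bc)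
      (fun x => (ke_kc D.c mc (A.s x0, 0) x).trans (by rw [mc a0])) (e1.symm ▸ g1)
  have g3 : Gn (kv (S.s x0)) (ki {S.s x0} (KM Ψ η)) :=
    g2.map (ki {S.s x0}).toAddMonoidHom (ki_bij _) fun x => kv_ki _ x
  obtain ⟨θ, hθ⟩ : ∃ θ : C(T, ℂ) →ₐ[ℂ] Cn F, ∀ a, (θ a).1 = (a.comp G, a.comp j) :=
    ⟨((ContinuousMap.compRightAlgHom ℂ ℂ G).prod
      (ContinuousMap.compRightAlgHom ℂ ℂ j)).codRestrict (Cn F) fun a =>
        ⟨fun e => congrArg a (G0 e), fun e => congrArg a ((G1 e).trans (by rw [hX (A.p _)])),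
        fun x t => congrArg a (by rw [hX x, Gs])⟩, fun _ => rfl⟩
  have e4 : KA (A := Cn F) (B := C(B.E, ℂ)) (Cn.res F) (KA (A := C(T, ℂ)) (B := Cn F) θ ξ) = pull j ξ := by
    have k : ∀ a, Cn.res F (θ a) = ContinuousMap.compRightAlgHom ℂ ℂ j a :=
      fun a => congrArg Prod.snd (hθ a)
    exact KA_KA (R₁ := C(T, ℂ)) (R₂ := Cn F) (R₃ := C(B.E, ℂ)) _ _ _ k ξ
  have e2 : K.ps _ (KA (A := C(T, ℂ)) (B := Cn F) θ ξ) = KA (A := C(T, ℂ)) (B := Cn F) θ (pX 3 T ξ) := by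
    rw [pX_ps]
    have := ps_KA (R₁ := C(T, ℂ)) (R₂ := Cn F) θ ξ
    exact this
  have e3 : KA (A := C(T, ℂ)) (B := Cn F) θ (ki Z η) = KA (A := C(S.E, ℂ)) (B := Cn F) (Cn.inc F D) (ki {S.s x0} (KM Ψ η)) := by
    have k : ∀ u : CR T Z, θ ((CR T Z).val.toRingHom u) =
        Cn.inc F D ((CR S.E {S.s x0}).val.toRingHom (Ψ u)) := fun u => by
      refine Subtype.ext ((hθ _).trans (Prod.ext
        (ContinuousMap.ext fun z => (hΨ u z).symm) (ContinuousMap.ext fun b => ?_)))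
      change u.1 (j b) = (Ψ u).1 (S.s (B.p b))
      have k2 := hΨ u (A.s x0, 0)
      rw [mc a0] at k2
      rw [hX (B.p b), k2]
      exact u.2 _ (jZ b) _ (mG a0)
    have := KA_sq (R₁ := CR T Z) (R₂ := C(T, ℂ)) (R₃ := CR S.E {S.s x0}) (R₄ := C(S.E, ℂ))
      (R₅ := Cn F) _ θ Ψ _ (Cn.inc F D) k η
    exact this
  refine ⟨_, g3, (rd_iff hX _).2 (by rw [map_zsmul, g3.1, smul_zero]), KA (A := C(T, ℂ)) (B := Cn F) θ ξ, e4, ?_⟩
  rw [e2, h, map_add, map_zsmul, map_zsmul, map_zsmul, map_intCast, int_mul, e3,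
    add_sub_cancel_left]

end Crest.Agent.N218.Hf
end
end

-- ▼ part N218/Hf/Nu0
section

/-!
# Row 218, block D3, leaf HOPF (helper39): the desuspended Hopf problem has odd `e`-invariant
-/

set_option autoImplicit false
set_option linter.unusedVariables false
set_option linter.unusedSectionVars false

open scoped unitInterval Topology
open Set Function OnePoint Metric Filter Module

noncomputable section

namespace Crest.Agent.N218.Hf

open K D3

/-- projection to the fibre -/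
def prj (M : LS Unit) : C((Sb P0 M).E, OnePoint M.Z) :=
  (P0.prod M.sph).lift ContinuousMap.snd fun g z => M.sph.one z.2


theorem prj_bij (M : LS Unit) : Bijective (prj M) := by
  refine ⟨fun a b h => ?_, fun w => ⟨pt P0 M () w, rfl⟩⟩
  obtain ⟨y, w, rfl⟩ := pt_surj a
  obtain ⟨y', w', rfl⟩ := pt_surj b
  obtain rfl : w = w' := h
  rfl

theorem p0_eq (x : P0.Q) : x = P0.pr () := by
  obtain ⟨y, rfl⟩ := P0.pr_surj x
  rfl

section plain
variable {A B : Type} [NormedAddCommGroup A] [NormedSpace ℝ A] [FiniteDimensional ℝ A]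
  [NormedAddCommGroup B] [NormedSpace ℝ B] [FiniteDimensional ℝ B]

theorem gn_th (h : SPH) {k : ℕ} (hk : finrank ℝ A = 2 * k) :
    (∃ g, Gn (kv ((sp A).s (P0.pr ()))) g) ∧ ∀ g, Gn (kv ((sp A).s (P0.pr ()))) g →
      (sp A).Th g ∧ ps _ g = (3 : ℤ) ^ k • g := by
  obtain ⟨g, a, b, c, d, e⟩ := h k hk
  have hg : Gn (kv ((sp A).s (P0.pr ()))) g :=
    ⟨(rd_iff p0_eq g).1 a.1, fun x hx => c x ((rd_iff p0_eq x).2 hx), d⟩
  refine ⟨⟨g, hg⟩, fun g' h' => ?_⟩
  obtain ⟨n, hn, rfl⟩ := hg.sign h'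
  refine ⟨(e _).2 ?_, by rw [map_zsmul, b, smul_comm]⟩
  rcases Int.isUnit_iff.1 hn with rfl | rfl
  · exact .inl (one_smul _ _)
  · exact .inr (neg_one_smul _ _)

theorem ok_fp {p : Pp A B} (h : Okp p) : (fp p).Ok := by
  refine ⟨h.op.preimage continuous_snd, fun _ _ o => o,
    h.ct.comp continuous_snd.continuousOn fun _ o => o, fun _ _ _ => rfl, ?_⟩
  have e : {x ∈ (fp p).O | (fp p).f x = 0} = univ ×ˢ {a | a ∈ p.1 ∧ p.2 a = 0} :=
    Set.ext fun x => ⟨fun o => ⟨trivial, o⟩, fun o => o.2⟩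
  rw [e]
  exact (isCompact_univ (X := Unit)).prod h.cp

theorem pm_of {f : OnePoint A → OnePoint B} (hf : Continuous f) (h0 : f ∞ = ∞) :
    Pm P0 (tv A) (tv B) fun x => f (OnePoint.some x.2) := by
  refine ⟨hf.comp (continuous_coe.comp continuous_snd), fun (K' : Set B) hK' => ?_, fun γ y w => ?_⟩
  · have h1 : IsClosed (f ⁻¹' (OnePoint.some '' K')) :=
      (hK'.image continuous_coe).isClosed.preimage hf
    refine ⟨OnePoint.some ⁻¹' (f ⁻¹' (OnePoint.some '' K')), ((isClosed_iff_of_notMem ?_).1 h1).2,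
      fun p w w' n e k => n ⟨w', k, e.symm⟩⟩
    rintro ⟨w, -, e⟩
    exact coe_ne_infty _ (e.trans h0)
  · exact ((tv B).sph.one _).symm
end plain

theorem cast81 {R : Type} [CommRing R] : ((81 : ℤ) : R) = 3 ^ 4 := by norm_num

variable {E F : Type} [NormedAddCommGroup E] [NormedSpace ℝ E] [NormedAddCommGroup F]
  [NormedSpace ℝ F] [FiniteDimensional ℝ E] [FiniteDimensional ℝ F] (L : (ℝ × F) ≃L[ℝ] E)

/-- the desuspended Hopf problem -/
def p0 (m : E →L[ℝ] E →L[ℝ] E) : Pp (E × F) E :=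
  ({w | w.1 ≠ 0}, fun w => (‖w.1‖ ^ 2 / (1 + ‖w.1‖))⁻¹ • m w.1 (L (‖w.1‖ - 1, w.2)))

variable {m : E →L[ℝ] E →L[ℝ] E} (hm : ∀ s x, ‖m s x‖ = ‖s‖ * ‖x‖) {e : E} (he : ‖e‖ = 1)
include hm

theorem m_zero {y x : E} (hy : y ≠ 0) (h : m y x = 0) : x = 0 := by
  have := hm y x
  rw [h, norm_zero, eq_comm, mul_eq_zero, norm_eq_zero, norm_eq_zero] at this
  exact this.resolve_left hy

theorem ok_p0 : Okp (p0 L m) := by
  have : ProperSpace E := FiniteDimensional.proper_real E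
  refine ⟨isOpen_ne_fun continuous_fst continuous_const, ContinuousOn.smul (ContinuousOn.inv₀
    (Continuous.continuousOn (Continuous.div (by fun_prop) (by fun_prop) fun w => by positivity))
    fun w hw => ?_) (by fun_prop), ?_⟩
  · have := norm_pos_iff.2 hw
    positivity
  · convert (isCompact_sphere (0 : E) 1).prod (isCompact_singleton (x := (0 : F))) using 1
    ext w
    refine ⟨fun ⟨h1, h2⟩ => ?_, fun ⟨h1, h2⟩ => ?_⟩
    · have := norm_pos_iff.2 h1
      have h3 := m_zero hm h1 ((smul_eq_zero.1 h2).resolve_left (by positivity))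
      rw [L.map_eq_zero_iff] at h3
      exact ⟨mem_sphere_zero_iff_norm.2 (sub_eq_zero.1 (congrArg Prod.fst h3)),
        congrArg Prod.snd h3⟩
    · have h3 := mem_sphere_zero_iff_norm.1 h1
      have h4 : w.2 = 0 := h2
      refine ⟨norm_ne_zero_iff.1 (by rw [h3]; exact one_ne_zero), ?_⟩
      change _ • m w.1 (L (‖w.1‖ - 1, w.2)) = 0
      rw [h3, h4, sub_self, Prod.mk_zero_zero, map_zero, map_zero, smul_zero]

include he

theorem cont_f0 : Continuous (f0 L m) := by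
  have h := ((jP hm he).continuous.isClosedEmbedding (jP_inj hm he)).isEmbedding
  rw [h.continuous_iff]
  exact ((GG L hm he).continuous.comp (continuous_id.prodMk continuous_const)).congr
    fun a => GG_zero L hm he a

theorem nu_p0 (hS : SPH) (hE : EHT) (h8 : finrank ℝ E = 8) (h7 : finrank ℝ F = 7) :
    Nu (p0 L m) := by
  have : ProperSpace E := FiniteDimensional.proper_real E
  have : ProperSpace F := FiniteDimensional.proper_real F
  have pm := pm_of (cont_f0 L hm he) rfl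
  obtain ⟨F0, r⟩ := pm.exists_rg
  have ht : (fp (p0 L m)).hm.Ht F0 := (ok_fp (ok_p0 L hm)).proper pm (fun x o => by
      have := norm_pos_iff.2 (show x.2.1 ≠ 0 from o)
      exact dv_ne (div_ne_zero (pow_ne_zero 2 this.ne') (add_pos one_pos this).ne') _) (fun x o => by
      have h : x.2.1 = 0 := not_not.1 o
      change dv (‖x.2.1‖ ^ 2 / _) _ = _
      rw [h, norm_zero, zero_pow two_ne_zero, zero_div, dv_zero]
      rfl) r
  obtain ⟨⟨g, hg⟩, k8⟩ := gn_th (A := E) hS (k := 4) h8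
  have k16 := (gn_th (A := (E × F) × ℝ) hS (k := 8) (by simp [h8, h7])).2
  let ι : C(OnePoint E, (sp E).E) :=
    ⟨fun w => pt P0 (tv E) () w, (cont_pt (Y := P0) (M := tv E)).comp
      (f := fun w => ((), w)) (continuous_const.prodMk continuous_id)⟩
  have ιp : ∀ x, ι (prj (tv E) x) = x := fun x => (prj_bij (tv E)).1 rfl
  have hb : Gn (kv ∞) (kp ι g) := hg.map (kp ι).toAddMonoidHom
    (kp_bij ι ⟨fun a b h => congrArg (prj (tv E)) h, fun x => ⟨_, ιp x⟩⟩) fun x => kv_kp ι ∞ x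
  obtain ⟨ξ, η, μ, h1, h2, -, h3, h4⟩ := plane hm he h8 hb
  have hp := prj_bij (tv (E × F))
  have bd : ∀ z : (sp (E × F)).E × I, (prj (tv (E × F)) z.1, z.2) ∈ BD (E × F) →
      (sp (E × F)).Bd z := fun z h => h.imp id (Or.imp id fun k => hp.1 (by
        rw [p0_eq ((sp (E × F)).p _)]; exact k))
  have cm : ∀ a, prj (tv E) (F0.f a) = f0 L m (prj (tv (E × F)) a) :=
    sb_ind (fun y => congrArg (prj (tv E)) (F0.f_inf y)) fun y w => congrArg (prj (tv E)) (r y w)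
  obtain ⟨t, ht1, ht2⟩ := ecl_of F0 (sd P0 (tv (E × F))) p0_eq (hd hm he).cS
    ((GG L hm he).comp ((prj (tv (E × F))).prodMap (.id I))) ((jP hm he).comp (prj (tv E)))
    (fun a => (GG_zero L hm he _).trans (congrArg (jP hm he) (cm a).symm))
    (fun a => GG_one L hm he _) (fun t => rfl) (fun b => jP_mem hm he _)
    (fun y => (GG_sur L hm he y).imp id fun ⟨z, hz⟩ => ⟨(pt P0 (tv (E × F)) () z.1, z.2), hz⟩)
    (fun z h => bd z (GG_bd L hm he _ h))
    (fun z z' h => by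
      rcases GG_fib L hm he _ _ h with k | k
      · exact .inl (Prod.ext (hp.1 (congrArg Prod.fst k)) (congrArg Prod.snd k :))
      · exact .inr ⟨bd z k.1, bd z' k.2⟩) h3 h4
  have e1 : pull ((jP hm he).comp (prj (tv E))) ξ = g :=
    ((kp_kp (Y := OnePoint E) (prj (tv E)) (jP hm he) _ (fun _ => rfl) ξ).symm.trans
      (congrArg _ h2)).trans ((kp_kp (Y := OnePoint E) (prj (tv E)) ι (.id _) ιp g).trans
        (kp_id _ (fun _ => rfl) g))
  rw [e1, cast81] at ht2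
  exact ⟨4, g, t, μ, (k8 g hg).1, (k16 t ht1).1, h1, (k16 t ht1).2, hE _ _ _ _ _ _ ht.sy ht2⟩

end Crest.Agent.N218.Hf
end
end

-- ▼ part N218/D3/Hopf

/-!
# Row 218, block D3, leaf HOPF (helper39): Hopf invariant one
-/

set_option autoImplicit false
set_option linter.unusedVariables false
set_option linter.unusedSectionVars false

open Set Function Metric Module

noncomputable section

namespace Crest.Agent.N218.Hf

open K D3 Sh

section ok
variable {A A' B B' C : Type} [TopologicalSpace A] [TopologicalSpace A'] [NormedAddCommGroup B]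
  [NormedSpace ℝ B] [NormedAddCommGroup B'] [NormedSpace ℝ B'] [NormedAddCommGroup C]

theorem ok_st {p : Pp A B} (h : Okp p) : Okp (st p C) := by
  refine ⟨h.op.preimage continuous_fst, (h.ct.comp continuous_fst.continuousOn fun _ o => o).prodMk
    continuous_snd.continuousOn, ?_⟩
  have e : {a | a ∈ (st p C).1 ∧ (st p C).2 a = 0} = {a | a ∈ p.1 ∧ p.2 a = 0} ×ˢ {(0 : C)} :=
    Set.ext fun z => ⟨fun o => ⟨⟨o.1, congrArg Prod.fst o.2⟩, congrArg Prod.snd o.2⟩,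
      fun o => ⟨o.1.1, Prod.ext o.1.2 o.2⟩⟩
  rw [e]
  exact h.cp.prod isCompact_singleton

theorem ok_tg {p : Pp A B} (h : Okp p) (L : B ≃L[ℝ] B') : Okp (tg p L) := by
  refine ⟨h.op, L.continuous.comp_continuousOn h.ct, ?_⟩
  have e : {a | a ∈ (tg p L).1 ∧ (tg p L).2 a = 0} = {a | a ∈ p.1 ∧ p.2 a = 0} :=
    Set.ext fun z => and_congr Iff.rfl L.map_eq_zero_iff
  rw [e]
  exact h.cp

theorem ok_cm {p : Pp A B} (h : Okp p) (e : A' ≃ₜ A) : Okp (cm p univ e) := by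
  refine ⟨isOpen_univ.inter (h.op.preimage e.continuous),
    h.ct.comp e.continuous.continuousOn fun _ o => o.2, ?_⟩
  have k : {a | a ∈ (cm p univ e).1 ∧ (cm p univ e).2 a = 0} = e ⁻¹' {a | a ∈ p.1 ∧ p.2 a = 0} :=
    Set.ext fun z => ⟨fun o => ⟨o.1.2, o.2⟩, fun o => ⟨⟨trivial, o.1⟩, o.2⟩⟩
  rw [k]
  exact e.isClosedEmbedding.isCompact_preimage h.cp
end ok

variable (L : (ℝ × E 7) ≃L[ℝ] E 8)

/-- the change of coordinates -/
def chg : ((E 8 × E 3) × E 8) ≃ₜ ((E 8 × E 7) × (ℝ × E 3)) where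
  toFun a := ((a.2, (L.symm a.1.1).2), (-(L.symm a.1.1).1, a.1.2))
  invFun z := ((L (-z.2.1, z.1.2), z.2.2), z.1.1)
  left_inv a := by simp
  right_inv z := by simp
  continuous_toFun := by fun_prop
  continuous_invFun := by fun_prop

/-- the rotation -/
def rot (m : E 8 →L[ℝ] E 8 →L[ℝ] E 8) (z : ℝ × ((E 8 × E 3) × E 8)) : (ℝ × E 3) × E 8 :=
  (((1 - z.1) * -(L.symm z.2.1.1).1 + z.1 * (‖z.2.2‖ - 1), z.2.1.2),
    ((1 - z.1) * (‖z.2.2‖ ^ 2 / (1 + ‖z.2.2‖))⁻¹ + z.1) • m z.2.2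
      (L ((1 - z.1) * (‖z.2.2‖ - 1) + z.1 * (L.symm z.2.1.1).1, (L.symm z.2.1.1).2)))

variable {m : E 8 →L[ℝ] E 8 →L[ℝ] E 8} (hm : ∀ s x, ‖m s x‖ = ‖s‖ * ‖x‖)
include hm

theorem rot_cp : IsCompact {z : ℝ × ((E 8 × E 3) × E 8) | z ∈ {z | z.2.2 ≠ 0} ∧
    z.1 ∈ Icc (0 : ℝ) 1 ∧ rot L m z = 0} := by
  convert (isCompact_Icc (a := (0 : ℝ)) (b := 1)).prod
    ((isCompact_singleton (x := (0 : E 8 × E 3))).prod (isCompact_sphere (0 : E 8) 1)) using 1
  ext ⟨s, ⟨x, u⟩, y⟩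
  obtain ⟨⟨a, x⟩, rfl⟩ := L.surjective x
  simp only [rot, mem_ofPred_eq, L.symm_apply_apply, Prod.mk_eq_zero, mem_prod, mem_singleton_iff,
    mem_sphere_zero_iff_norm, L.map_eq_zero_iff]
  refine ⟨fun ⟨h1, h2, ⟨h3, h4⟩, h5⟩ => ?_, fun ⟨h1, ⟨⟨h2, h3⟩, h4⟩, h5⟩ => ?_⟩
  · have := norm_pos_iff.2 h1
    have c : 0 < (‖y‖ ^ 2 / (1 + ‖y‖))⁻¹ := by positivity
    have c' : 0 < (1 - s) * (‖y‖ ^ 2 / (1 + ‖y‖))⁻¹ + s := by
      rcases h2.1.eq_or_lt with k | k
      · rw [← k]; simpa using c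
      · exact add_pos_of_nonneg_of_pos (mul_nonneg (sub_nonneg.2 h2.2) c.le) k
    have h6 := m_zero hm h1 ((smul_eq_zero.1 h5).resolve_left c'.ne')
    rw [L.map_eq_zero_iff, Prod.mk_eq_zero] at h6
    have d : 0 < (1 - s) ^ 2 + s ^ 2 := by nlinarith [sq_nonneg (1 - 2 * s)]
    have e1 : ((1 - s) ^ 2 + s ^ 2) * a = 0 := by linear_combination s * h6.1 - (1 - s) * h3
    have e2 : ((1 - s) ^ 2 + s ^ 2) * (‖y‖ - 1) = 0 := by
      linear_combination (1 - s) * h6.1 + s * h3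
    exact ⟨h2, ⟨⟨(mul_eq_zero.1 e1).resolve_left d.ne', h6.2⟩, h4⟩,
      sub_eq_zero.1 ((mul_eq_zero.1 e2).resolve_left d.ne')⟩
  · refine ⟨norm_ne_zero_iff.1 (by rw [h5]; exact one_ne_zero), h1, ⟨by simp [h2, h5], h4⟩, ?_⟩
    simp [h2, h3, h5, Prod.mk_zero_zero]

theorem rot_ct : ContinuousOn (rot L m) {z | z.2.2 ≠ 0} := by
  have c : ContinuousOn (fun z : ℝ × ((E 8 × E 3) × E 8) => (‖z.2.2‖ ^ 2 / (1 + ‖z.2.2‖))⁻¹)
      {z | z.2.2 ≠ 0} := ContinuousOn.inv₀ (Continuous.continuousOn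
        (Continuous.div (by fun_prop) (by fun_prop) fun w => by positivity)) fun w hw => by
    have := norm_pos_iff.2 hw
    positivity
  unfold rot
  fun_prop

theorem ok_hopf : Okp (hopf m) := by
  refine ⟨isOpen_ne_fun continuous_snd continuous_const, by unfold hopf; fun_prop, ?_⟩
  convert (isCompact_singleton (x := (0 : E 8 × E 3))).prod (isCompact_sphere (0 : E 8) 1) using 1
  ext ⟨⟨x, u⟩, y⟩
  simp only [hopf, mem_ofPred_eq, Prod.mk_eq_zero, mem_prod, mem_singleton_iff,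
    mem_sphere_zero_iff_norm]
  exact ⟨fun ⟨h1, ⟨h2, h3⟩, h4⟩ => ⟨⟨m_zero hm h1 h4, h3⟩, sub_eq_zero.1 h2⟩,
    fun ⟨⟨h1, h2⟩, h3⟩ => ⟨norm_ne_zero_iff.1 (by rw [h3]; exact one_ne_zero),
      ⟨sub_eq_zero.2 h3, h2⟩, by rw [h1, map_zero]⟩⟩

theorem rot_hb : Hb (cm (tg (st (p0 L m) (ℝ × E 3)) (ContinuousLinearEquiv.prodComm ℝ _ _)) univ
    (chg L)) (hopf m) :=
  ⟨{z | z.2.2 ≠ 0}, rot L m, isOpen_ne_fun (by fun_prop) continuous_const, rot_ct L hm,
    rot_cp L hm, fun a o => ⟨⟨trivial, o⟩, by simp [rot, cm, tg, st, p0, chg]⟩,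
    fun a o _ => o.2, fun a o => ⟨o, by simp [rot, hopf]⟩, fun a o _ => o⟩

end Crest.Agent.N218.Hf

namespace Crest.Agent.N218.D3
open K Hf Sh

/-- **HOPF** -/
theorem hopf (hS : SPH) (hE : EHT) (hN : NUK) : HOPF := by
  intro m hm
  let L : (ℝ × E 7) ≃L[ℝ] E 8 := ContinuousLinearEquiv.ofFinrankEq (by simp)
  have o0 := ok_p0 L hm
  have n0 := nu_p0 L hm (e := EuclideanSpace.single 0 1) (by simp) hS hE (by simp) (by simp)
  have o1 := ok_st (C := ℝ × E 3) o0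
  have n1 := hN.st (C := ℝ × E 3) _ (by simp; decide) (by simp; decide) (by simp; decide) o0 n0
  have o2 := ok_tg o1 (ContinuousLinearEquiv.prodComm ℝ _ _)
  have n2 := hN.tg (ContinuousLinearEquiv.prodComm ℝ _ _) _ o1 n1
  have n3 := hN.emb (chg L).symm univ (chg L) _ ⟨(chg L).symm.continuous, isOpen_univ,
    (chg L).continuous.continuousOn, fun _ => trivial, (chg L).apply_symm_apply,
    fun a _ => (chg L).symm_apply_apply a⟩ (by simp) (by simp; decide) o2 n2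
  exact (hN.hb _ _ (.single (rot_hb L hm)) (ok_cm o2 (chg L)) (ok_hopf hm)).1 n3

end Crest.Agent.N218.D3
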