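import Crest.Agent.N218.D3.Defs
import Crest.Agent.N218.K.Cx1
import Crest.Agent.N218.D7.Orb

-- ▼ part N218/D3/Deg
section

/-!
# Row 218, block D3 (helper58): the degree kit
-/

set_option autoImplicit false
set_option linter.unusedVariables false
set_option linter.unusedSectionVars false

open Set Module OnePoint unitInterval

noncomputable section

namespace Crest.Agent.N218.D3
open K

namespace Dgk

section plain
variable {A B C : Type} [NormedAddCommGroup A] [NormedSpace ℝ A] [FiniteDimensional ℝ A]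
  [NormedAddCommGroup B] [NormedSpace ℝ B] [FiniteDimensional ℝ B]
  [NormedAddCommGroup C] [NormedSpace ℝ C] [FiniteDimensional ℝ C]

theorem cp_pt {T : Type} [TopologicalSpace T] {K : Set T} (h : IsCompact K) :
    IsCompact {z : Unit × T | z.2 ∈ K} := by
  have : {z : Unit × T | z.2 ∈ K} = univ ×ˢ K := by ext z; simp
  rw [this]; exact isCompact_univ.prod h

theorem fp_ok {p : Pp A B} (h : Okp p) : (fp p).Ok :=
  ⟨h.op.preimage continuous_snd, fun _ _ o => o,
    h.ct.comp continuous_snd.continuousOn fun _ o => o, fun _ _ _ => rfl, cp_pt h.cp⟩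


theorem ok_st {p : Pp A B} (h : Okp p) : Okp (st p C) := by
  refine ⟨h.op.preimage continuous_fst,
    (h.ct.comp continuous_fst.continuousOn fun _ o => o).prodMk continuous_snd.continuousOn, ?_⟩
  have e : {a | a ∈ (st p C).1 ∧ (st p C).2 a = 0} = {a | a ∈ p.1 ∧ p.2 a = 0} ×ˢ {0} := by
    ext z; simp [st, and_assoc]
  rw [e]; exact h.cp.prod isCompact_singleton

theorem ok_tg {p : Pp A B} (h : Okp p) (L : B ≃L[ℝ] C) : Okp (tg p L) := by
  refine ⟨h.op, L.continuous.comp_continuousOn h.ct, ?_⟩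
  have e : {a | a ∈ (tg p L).1 ∧ (tg p L).2 a = 0} = {a | a ∈ p.1 ∧ p.2 a = 0} := by
    ext z; simp [tg]
  rw [e]; exact h.cp

theorem ok_cm {p : Pp A B} (h : Okp p) {e : C → A} {U : Set A} {e' : A → C} (o : Oe e U e')
    (z : ∀ a ∈ p.1, p.2 a = 0 → a ∈ U) : Okp (cm p univ e) := by
  refine ⟨?_, h.ct.comp o.ct.continuousOn fun _ m => m.2, ?_⟩
  · have : (cm p univ e).1 = e ⁻¹' p.1 := by ext a; simp [cm]
    rw [this]; exact h.op.preimage o.ct
  · have : {a | a ∈ (cm p univ e).1 ∧ (cm p univ e).2 a = 0} =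
        e' '' {a | a ∈ p.1 ∧ p.2 a = 0} := by
      ext a
      refine ⟨fun m => ⟨e a, ⟨m.1.2, m.2⟩, o.li a⟩, ?_⟩
      rintro ⟨a, m, rfl⟩
      have := o.ri a (z a m.1 m.2)
      exact ⟨⟨trivial, by rw [this]; exact m.1⟩, by change p.2 _ = 0; rw [this]; exact m.2⟩
    rw [this]
    exact h.cp.image_of_continuousOn (o.ct'.mono fun a m => z a m.1 m.2)

/-- linear isomorphisms -/
def lis (L : B ≃L[ℝ] C) : (tv B).Iso (tv C) := ⟨L.toHomeomorph, fun _ _ => rfl⟩

/-- a change of the target composes with the linear map -/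
theorem tg_ht {p : Pp A B} (h : Okp p) (L : B ≃L[ℝ] C) :
    (fp (tg p L)).hm.Ht ((fp p).hm.cm ((lis L).h1 P0)) := by
  obtain ⟨χ, c, e⟩ := (fp_ok h).rp_hm
  refine FP.Rp.ht_hm (fp_ok (ok_tg h L)) ⟨χ, ⟨c.ct, c.nn, c.cp, c.sub,
    fun x o z => c.pos x o (L.injective (z.trans (map_zero L).symm)), c.inv⟩, fun y w => ?_⟩
  change ((lis L).h1 P0).f ((fp p).hm.f _) = _
  rw [e, LS.Iso.h1_pt]
  congr 1
  unfold FP.col
  split_ifs
  · rfl
  · exact congrArg OnePoint.some (map_smul L _ _)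

/-- the product as one space -/
def pis : (tv (A × C)).Iso ((tv A).prod (tv C)) := ⟨.refl _, fun _ _ => rfl⟩

/-- **stabilisation is the smash with the identity** -/
theorem st_ht {p : Pp A B} (h : Okp p) : ∃ (E : EqM P0 (tv A) P0 (tv B) id (.id _))
    (F' : H1 (sp (A × C)) (sp (B × C))),
    (∀ y w, (fp p).hm.f (pt P0 (tv A) y w) = pt P0 (tv B) y (E.f (y, w))) ∧
    (∀ y (w : OnePoint A) (u : OnePoint C), F'.f (pt P0 (tv (A × C)) y (wdg (w, u))) =
      pt P0 (tv (B × C)) y (wdg ((E.f (y, w) : OnePoint B), u))) ∧ (fp (st p C)).hm.Ht F' := by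
  have ok := fp_ok h
  obtain ⟨χ, c, e⟩ := ok.rp_hm
  have m := c.pm ok
  have r : Rg (fp p).hm ((fp p).col χ) := e
  let col : Unit × A → OnePoint B := (fp p).col χ
  have cc : Continuous col := m.ct
  let g : P0.Z × (tv (A × C)).Z → OnePoint (tv (B × C)).Z := fun x =>
    wdg (col (x.1, (x.2 : A × C).1), (((x.2 : A × C).2 : C) : OnePoint C))
  have c1 : Continuous fun x : Unit × (A × C) => (x.1, x.2.1) := by fun_prop
  have m' : Pm P0 (tv (A × C)) (tv (B × C)) g := by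
    refine ⟨continuous_wdg.comp ((cc.comp c1).prodMk
      (continuous_coe.comp continuous_snd.snd)), fun K' k => ?_, fun γ y w => ?_⟩
    · obtain ⟨K, k1, k2⟩ := m.pr _ (k.image continuous_fst)
      refine ⟨K ×ˢ (Prod.snd '' K'), k1.prod (k.image continuous_snd), fun q w w' n s i => n ?_⟩
      obtain ⟨s1, s2⟩ := wdg_eq_coe s
      exact ⟨by_contra fun n' => k2 q w.1 w'.1 n' s1 ⟨w', i, rfl⟩,
        ⟨w', i, (coe_injective s2).symm⟩⟩
    · change g (y, w) = _
      induction g (y, w) using OnePoint.rec <;> rfl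
  obtain ⟨F', r'⟩ := m'.exists_rg
  let E : EqM P0 (tv A) P0 (tv B) id (.id _) :=
    { f := ⟨opx col, continuous_opx m.ct m.pr⟩
      hg := fun _ _ => rfl
      hf := fun γ y w => by
        have a : ∀ w : OnePoint A, (tv A).sph.act γ w = w := fun w => by
          induction w using OnePoint.rec <;> rfl
        have b : ∀ w : OnePoint B, (tv B).sph.act γ w = w := fun w => by
          induction w using OnePoint.rec <;> rfl
        rw [a, id, b]; rfl
      hi := fun _ => rfl }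
  refine ⟨E, F', fun y w => r.opx y w, fun y w u => ?_, ?_⟩
  · induction w using OnePoint.rec with
    | infty => exact F'.f_inf y
    | coe w =>
      induction u using OnePoint.rec with
      | infty => rw [wdg_r, wdg_r]; exact F'.f_inf y
      | coe u => exact r' y (w, u)
  · let ψ : Unit × (A × C) → ℝ := fun x => χ (x.1, x.2.1)
    have cψ : Continuous ψ := c.ct.comp c1
    have mem : ∀ x, ψ x ≠ 0 → x.2.1 ∈ p.1 := fun x o => c.mem o
    let P1 : FP P0 (tv (A × C)) (Rep.triv Unit (B × C)) :=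
      ⟨{x | ψ x ≠ 0}, fun x => ((ψ x)⁻¹ • p.2 (x.2 : A × C).1, (x.2 : A × C).2)⟩
    let P2 : FP P0 (tv (A × C)) (Rep.triv Unit (B × C)) :=
      ⟨{x | ψ x ≠ 0}, fun x => (p.2 (x.2 : A × C).1, (x.2 : A × C).2)⟩
    have ok' := fp_ok (ok_st (C := C) h)
    have cf : ContinuousOn (fun z : I × (Unit × (A × C)) => p.2 z.2.2.1) {z | ψ z.2 ≠ 0} :=
      h.ct.comp continuous_snd.snd.fst.continuousOn fun z o => mem _ o
    obtain ⟨o1, o2, H⟩ := FP.ht_of P1 P2 {z | ψ z.2 ≠ 0}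
      (fun z => ((((1 - (z.1 : ℝ)) * (ψ z.2)⁻¹ + z.1) • p.2 (z.2.2 : A × C).1,
        (z.2.2 : A × C).2) : B × C))
      (isOpen_ne_fun (cψ.comp continuous_snd) continuous_const) (fun _ _ _ o => o)
      (((((continuous_const.sub (continuous_subtype_val.comp continuous_fst)).continuousOn.mul
        ((cψ.comp continuous_snd).continuousOn.inv₀ fun _ o => o)).add
        (continuous_subtype_val.comp continuous_fst).continuousOn).smul cf).prodMk
        continuous_snd.snd.snd.continuousOn) (fun _ _ _ _ => rfl) (by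
        have e : {z ∈ {z : I × (Unit × (A × C)) | ψ z.2 ≠ 0} |
            ((((1 - (z.1 : ℝ)) * (ψ z.2)⁻¹ + z.1) • p.2 z.2.2.1, z.2.2.2) : B × C) = 0} =
            univ ×ˢ {x ∈ (fp (st p C)).O | (fp (st p C)).f x = 0} := by
          ext z
          refine ⟨fun ⟨o, a⟩ => ⟨trivial, mem _ o, Prod.ext ?_ (congrArg Prod.snd a :)⟩,
            fun ⟨_, o, a⟩ => ⟨(c.pos (z.2.1, z.2.2.1) o (congrArg Prod.fst a)).ne',
              Prod.ext ?_ (congrArg Prod.snd a :)⟩⟩
          · have p0 : 0 < (ψ z.2)⁻¹ := inv_pos.2 (lt_of_le_of_ne (c.nn _) (Ne.symm o))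
            refine (smul_eq_zero.1 (congrArg Prod.fst a)).resolve_left (ne_of_gt ?_)
            have t0 := z.1.2.1
            have t1 := z.1.2.2
            rcases t1.eq_or_lt with t | t
            · rw [t]; simp
            · nlinarith [mul_pos (sub_pos.2 t) p0]
          · have : p.2 z.2.2.1 = 0 := congrArg Prod.fst a
            change _ • p.2 z.2.2.1 = 0
            rw [this, smul_zero]
        exact e ▸ isCompact_univ.prod ok'.cp)
      (fun _ => Iff.rfl) (fun x _ => by simp [P1]) (fun _ => Iff.rfl) (fun x _ => by simp [P2])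
    refine (ok'.exc o2 (fun x o => mem x o) (fun _ _ => rfl) fun x o a =>
      (c.pos (x.1, x.2.1) o (congrArg Prod.fst a)).ne').tr (H.sy.tr
        (o1.proper m' (fun x o => ?_) (fun x o => ?_) r'))
    · have : col (x.1, x.2.1) = (((ψ x)⁻¹ • p.2 x.2.1 : B) : OnePoint B) := if_neg o
      change wdg (col _, _) = _
      rw [this]; rfl
    · have : col (x.1, x.2.1) = ∞ := if_pos (not_not.1 o)
      change wdg (col _, _) = _
      rw [this]; rfl

/-- the external product on plain spheres -/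
def xp (x : KX (sp A).E) (y : KX (sp C).E) : KX (sp (A × C)).E :=
  pull ((pis (A := A) (C := C)).h1 P0).f (xm x y)

theorem th_xp (T : THOM1) (hC : Even (finrank ℝ C)) {x : KX (sp A).E} {y : KX (sp C).E}
    (hx : (sp A).Th x) (hy : (sp C).Th y) : (sp (A × C)).Th (xp x y) := by
  obtain ⟨k, hk⟩ := hC
  obtain ⟨l, u, -⟩ := ut_even T P0 C k (by omega)
  exact th_iso pis (fun _ _ => rfl) ((u.of_th hy).th_r hx)

theorem xm_zsmul {Γ : Type} [Group Γ] [TopologicalSpace Γ] [CompactSpace Γ] {Y : GS Γ}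
    {V U : LS Γ} (n : ℤ) (x : KS Y V) (y : KS Y U) : xm (n • x) y = n • xm x y := by
  have a : ∀ (M : LS Γ) (z : KS Y M), n • z = (Sb Y M).sm n z := fun M z => by
    unfold Ex.sm; rw [map_intCast, zsmul_eq_mul]
  rw [a, a]; exact (smd Y V U).sm_mul _ _ _

theorem pb_st {p : Pp A B} (h : Okp p) {x : KX (sp B).E} {y : KX (sp C).E} (hx : (sp B).Rd x)
    (hy : (sp C).Rd y) : (fp (st p C)).pb (xp x y) = xp ((fp p).pb x) y := by
  obtain ⟨E, F', e1, e2, H⟩ := st_ht (C := C) h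
  let G := ((pis (A := A) (C := C)).symm.h1 P0).cm (F'.cm ((pis (A := B) (C := C)).h1 P0))
  have n := E.xm_nat ((LS.Iso.refl (tv C)).eqm P0) G.f (fun y w u => by
    have a : ∀ {S : Type} (z : OnePoint S), OnePoint.map id z = z := fun z => by
      induction z using OnePoint.rec <;> rfl
    change ((pis (A := B) (C := C)).h1 P0).f (F'.f (pt P0 _ y (OnePoint.map id (wdg (w, u))))) =
      pt P0 _ y (wdg (E.f (y, w), OnePoint.map id u))
    rw [a, a, e2]
    exact congrArg (pt P0 _ y) (a _)) hx hy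
  have a1 : pull E.hm.f x = (fp p).pb x := pull_congr (fun z => by
    obtain ⟨y, w, rfl⟩ := pt_surj z
    exact (e1 y w).symm) x
  have a2 : pull ((LS.Iso.refl (tv C)).eqm P0).hm.f y = y := by
    refine (pull_congr (g := .id _) (fun z => ?_) y).trans (pull_id y)
    obtain ⟨y, w, rfl⟩ := pt_surj z
    induction w using OnePoint.rec <;> rfl
  rw [a1, a2] at n
  unfold xp
  rw [← n]
  refine (DFunLike.congr_fun H.pull_eq _).trans ?_
  refine pull_sq _ _ _ _ (fun z => ?_) _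
  exact congrArg (fun z => ((pis (A := B) (C := C)).h1 P0).f (F'.f z))
    ((pis (A := A) (C := C)).h1_symm z).symm

end plain
end Dgk

open Dgk in
/-- **the degree kit** -/
theorem deg (T : THOM1) (hS : SPH) (hH : HBT) (hC : CMP) (hO : OPN) : DEG where
  ex := fun {A} _ _ _ {B} _ _ _ p ⟨a, ha⟩ ⟨b, hb⟩ => by
    obtain ⟨g', t', -, e', -⟩ := hS (A := A) a (by omega)
    obtain ⟨g, t, -⟩ := hS (A := B) b (by omega)
    obtain ⟨n, e⟩ := e' _ (t.1.hm (fp p).hm)
    exact ⟨n, g, g', t, t', e⟩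
  un := fun {A} _ _ _ {B} _ _ _ p n n' ⟨a, ha⟩ ⟨b, hb⟩ ⟨g1, g1', s1, t1, e1⟩
      ⟨g2, g2', s2, t2, e2⟩ => by
    obtain ⟨g', -, -, -, f', u'⟩ := hS (A := A) a (by omega)
    obtain ⟨g, -, -, -, -, u⟩ := hS (A := B) b (by omega)
    have k : n' • g2' = n • g1' ∨ n' • g2' = -(n • g1') := by
      rw [← e1, ← e2]
      rcases (u _).1 s1 with rfl | rfl <;> rcases (u _).1 s2 with h | h <;> rw [h] <;> simp
    have q1 : ∀ {x y : ℤ}, x • g' = y • g' → x = y := fun h =>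
      sub_eq_zero.1 (f' _ (by rw [sub_smul, h, sub_self]))
    rcases (u' _).1 t1 with rfl | rfl <;> rcases (u' _).1 t2 with h | h <;> rw [h] at k <;>
      simp only [smul_neg, neg_neg, ← neg_smul] at k <;> rcases k with k | k <;>
      have := q1 k <;> omega
  hb := fun {A} _ _ _ {B} _ _ _ p q n hp hq h ⟨g, g', s, t, e⟩ =>
    ⟨g, g', s, t, by rw [← FP.pb_eq (hH p q (.single h) hp hq), e]⟩
  emb := fun {A} _ _ _ {A'} _ _ _ {B} _ _ _ e U e' p n o hd he hp z ⟨g, g', s, t, k⟩ => by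
    obtain ⟨c, F, -, m, r, hc, -, th, -⟩ := hO e U e' o hd
    obtain ⟨ok, H⟩ := hC P0 (tv A) (tv A') (Rep.triv Unit B) c F (fp (cm p univ e))
      (fp (p.1 ∩ U, p.2)) m r (fp_ok (ok_cm hp o z))
      (fun x => ⟨fun h => ⟨e' x.2, (hc x _).2 ⟨h.2, rfl⟩, trivial,
          by change e (e' x.2) ∈ p.1; rw [o.ri _ h.2]; exact h.1⟩,
        fun ⟨a, h1, h2⟩ => by
          obtain ⟨u, rfl⟩ := (hc x a).1 h1
          exact ⟨(o.ri _ u) ▸ h2.2, u⟩⟩)
      (fun x a h1 h2 => by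
        obtain ⟨u, rfl⟩ := (hc x a).1 h1
        exact congrArg p.2 (o.ri _ u).symm)
    have H' := ((fp_ok hp).exc ok (fun _ h => h.1) (fun _ _ => rfl)
      fun x h a => ⟨h, z _ h a⟩).tr H
    refine ⟨g, pull F.f g', s, th he _ t, ?_⟩
    refine (DFunLike.congr_fun H'.pull_eq g).trans ((pull_cm _ _ g).trans ?_)
    rw [← map_zsmul, ← k]; rfl
  st := fun {A} _ _ _ {B} _ _ _ {C} _ _ _ p n ha hb ⟨c, hc⟩ hp ⟨g, g', s, t, k⟩ => by
    obtain ⟨y, u, -⟩ := hS (A := C) c (by omega)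
    refine ⟨xp g y, xp g' y, th_xp T ⟨c, hc⟩ s u, th_xp T ⟨c, hc⟩ t u, ?_⟩
    rw [pb_st hp s.1 u.1, k, xp, xm_zsmul, map_zsmul]; rfl
  tg := fun {A} _ _ _ {B} _ _ _ {B'} _ _ _ L p n hp ⟨g, g', s, t, k⟩ => by
    refine ⟨pull ((lis L).symm.h1 P0).f g, g', th_iso (lis L).symm (fun _ _ => rfl) s, t, ?_⟩
    refine (DFunLike.congr_fun (tg_ht hp L).pull_eq _).trans ((pull_cm _ _ _).trans ?_)
    rw [pull_pull_id _ _ (lis L).h1_symm]; exact k

end Crest.Agent.N218.D3

end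
end

-- ▼ part N218/D3/Stb
section

/-!
# Row 218, block D3 (helper12): stabilisation of the `ψ³`-defect
-/

set_option autoImplicit false
set_option linter.unusedVariables false

open Set OnePoint

noncomputable section

namespace Crest.Agent.N218.D3
open K

section ex
variable {X : Type} [TopologicalSpace X] {A B U SA SB S S' SS : Ex X} {DA : SmD A U SA}
  {DB : SmD B U SB} {F : H1 A B} {F' : H1 SA SB}

/-- the inclusion of the suspension commutes with stabilisation -/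
theorem inc_stab (T : Stab DA DB F F') (D : SD A S) (D' : SD SA S') (DS : SmD S U SS)
    (D'' : SD DA.P DS.P) (R : H1 S' SS) (h1 : ∀ z t, DS.q (D''.c (z, t)) = D.c (DA.q z, t))
    (h3 : ∀ z t, DS.c (D''.c (z, t)) = R.f (D'.c (DA.c z, t))) {x : KX S.E} {y : KX U.E}
    (hx : S.Rd x) (hy : U.Rd y) :
    KA (Cn.inc F' D') (pull R.f (DS.mul x y)) = T.pd.mul (KA (Cn.inc F D) x) y := by
  have k : (Cn.ev F).comp (Cn.inc F D) = cR S.s := AlgHom.ext fun a =>
    ContinuousMap.ext fun z => congrArg a (congrArg S.s (B.ps z))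
  have hx' : KA (A := Cn F) (Cn.ev F) (KA (B := Cn F) (Cn.inc F D) x) = 0 := by
    rw [← ka_comp, k, ← pull_ka]; exact hx
  have := DS.pd.natural T.pd (Cn.inc F D) (AlgHom.id ℂ _) (Cn.inc T.G D'')
    ((Cn.inc F' D').comp (cR R.f))
    (fun b => Cn.ext' (fun z t => congrArg b (h1 z t))
      fun e => congrArg b ((DS.qs _).trans (congrArg S.s (DB.pq e).symm)))
    (fun b => Cn.ext' (fun z t => congrArg b (D''.hp (z, t))) fun e => congrArg b (DS.P.ps _))
    (fun s => Cn.ext' (fun z t => congrArg s (h3 z t)) fun e => congrArg s ((DS.cs _).trans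
      ((congrArg SS.s ((DB.pc e).trans (DB.pq e)).symm).trans (R.hs _).symm)))
    hx hy hx' ((congrArg _ (ka_id y)).trans hy)
  rw [ka_id, ka_comp] at this
  exact this

/-- **stabilisation of the defect**, abstract form -/
theorem ecl_stab0 (T : Stab DA DB F F') (D : SD A S) (D' : SD SA S') (DS : SmD S U SS)
    (D'' : SD DA.P DS.P) (R : H1 S' SS) (h1 : ∀ z t, DS.q (D''.c (z, t)) = D.c (DA.q z, t))
    (h3 : ∀ z t, DS.c (D''.c (z, t)) = R.f (D'.c (DA.c z, t))) {l : KX B.E} {ρ ρ' : KX X}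
    {x : KX S.E} {y : KX U.E} (k : Ecl F D l ρ x) (hl : B.Rd l) (hy : U.Rd y)
    (e : ps _ y = U.sm ρ' y) :
    Ecl F' D' (DB.mul l y) (ρ * ρ') (pull R.f (DS.mul x (ps _ y))) := by
  obtain ⟨hx, μ, e1, e2⟩ := k
  have hμ : KA (Cn.ev F) μ = 0 := (ka_comp _ _ _).trans ((congrArg _ e1).trans hl)
  refine ⟨(DS.rd_mul _ _).hm R, T.pd.mul μ y, by rw [T.res_mul hμ hy, e1], ?_⟩
  have a : ps _ (T.pd.mul μ y) = T.pd.mul (ps _ μ) (ps _ y) := T.pd.psi_mul 3 μ y
  have b : T.pd.mul (KA (Cn.bas F) ρ * μ) (U.sm ρ' y) =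
      KA (Cn.bas F') ρ * T.pd.mul μ (U.sm ρ' y) := T.pd.smul_mul ρ μ _
  have c : T.pd.mul μ (U.sm ρ' y) = KA (Cn.bas F') ρ' * T.pd.mul μ y := T.pd.mul_smul ρ' μ y
  rw [inc_stab T D D' DS D'' R h1 h3 hx hy.ps, ← e2, T.pd.sub_mul, a, e, b, c, map_mul, mul_assoc]

end ex

variable {Γ : Type} [Group Γ] [TopologicalSpace Γ] [CompactSpace Γ] {Y : GS Γ} {M N : LS Γ}

theorem wdg_rc {A B C : Type} (f : (A × B) × C → (A × C) × B) (hf : ∀ a b c, f ((a, b), c) = ((a, c), b))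
    (a : OnePoint A) (b : OnePoint B) (c : OnePoint C) :
    OnePoint.map f (wdg (wdg (a, b), c)) = wdg (wdg (a, c), b) := by
  induction a using OnePoint.rec <;> induction b using OnePoint.rec <;>
    induction c using OnePoint.rec <;> first | rfl | exact congrArg OnePoint.some (hf _ _ _)

/-- the reordering `(M × U) × ℝ → (M × ℝ) × U` -/
abbrev rord (Y : GS Γ) (M U : LS Γ) : H1 (Sb Y (M.prod U).xr) (Sb Y (M.xr.prod U)) :=
  (rcomm M U (LS.triv Γ ℝ)).h1 Y

/-- **stabilisation of the defect** for sphere bundles -/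
theorem ecl_stab (U : LS Γ) (E : EqM Y M Y N id (.id _)) (F : H1 (Sb Y M) (Sb Y N))
    (hF : ∀ y w, F.f (pt Y M y w) = pt Y N y (E.f (y, w)))
    (F' : H1 (Sb Y (M.prod U)) (Sb Y (N.prod U)))
    (hF' : ∀ y w u, F'.f (pt Y _ y (wdg (w, u))) = pt Y _ y (wdg (E.f (y, w), u)))
    {l : KS Y N} {ρ ρ' : KX Y.Q} {x : KS Y M.xr} {y : KS Y U} (k : Ecl F (sd Y M) l ρ x)
    (hl : (Sb Y N).Rd l) (hy : (Sb Y U).Rd y) (e : ps _ y = (Sb Y U).sm ρ' y) :
    Ecl F' (sd Y (M.prod U)) (xm l y) (ρ * ρ') (pull (rord Y M U).f (xm x (ps _ y))) :=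
  ecl_stab0 (stab U E F hF F' hF') (sd Y M) (sd Y (M.prod U)) (smd Y M.xr U)
    (sd (Y.prod U.sph) M) (rord Y M U)
    (fun z t => by obtain ⟨⟨y, u⟩, w, rfl⟩ := pt_surj z; rfl)
    (fun z t => by
      obtain ⟨⟨y, u⟩, w, rfl⟩ := pt_surj z
      exact congrArg (pt Y (M.xr.prod U) y) (wdg_rc _ (fun _ _ _ => rfl) w u (thI t)).symm)
    k hl hy e

/-- the fibrewise map of a pointed fibre map -/
def Pm.eqm {g : Y.Z × M.Z → OnePoint N.Z} (h : Pm Y M N g) : EqM Y M Y N id (.id _) where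
  f := ⟨opx g, continuous_opx h.ct h.pr⟩
  hg _ _ := rfl
  hf γ y w := by
    induction w using OnePoint.rec with
    | infty => rfl
    | coe w => exact h.eq γ y w
  hi _ := rfl

/-- the stabilisation of a pointed fibre map -/
def stg (U : LS Γ) (g : Y.Z × M.Z → OnePoint N.Z) (x : Y.Z × (M.prod U).Z) :
    OnePoint (N.prod U).Z := wdg (g (x.1, x.2.1), (x.2.2 : OnePoint U.Z))

theorem pm_stg (U : LS Γ) {g : Y.Z × M.Z → OnePoint N.Z} (h : Pm Y M N g) :
    Pm Y (M.prod U) (N.prod U) (stg U g) := by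
  refine ⟨continuous_wdg.comp ((h.ct.comp (continuous_fst.prodMk continuous_snd.fst)).prodMk
    (continuous_coe.comp continuous_snd.snd)), fun K' k' => ?_, fun γ y w => ?_⟩
  · obtain ⟨K, k, hK⟩ := h.pr _ (k'.image continuous_fst)
    refine ⟨K ×ˢ (Prod.snd '' K'), k.prod (k'.image continuous_snd), fun p w w' n e i => ?_⟩
    obtain ⟨a, b⟩ := wdg_eq_coe e
    refine hK p w.1 w'.1 (fun j => n ⟨j, w', i, ?_⟩) a ⟨w', i, rfl⟩
    exact (coe_injective b).symm
  · refine Eq.trans ?_ (wdg_act2 N U γ _ _).symm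
    exact congrArg (fun a => wdg (a, _)) (h.eq γ y w.1)

theorem rg_stg (U : LS Γ) {g : Y.Z × M.Z → OnePoint N.Z}
    {F' : H1 (Sb Y (M.prod U)) (Sb Y (N.prod U))} (r : Rg F' (stg U g)) (y : Y.Z)
    (w : OnePoint M.Z) (u : OnePoint U.Z) :
    F'.f (pt Y _ y (wdg (w, u))) = pt Y _ y (wdg (opx g (y, w), u)) := by
  induction u using OnePoint.rec with
  | infty => rw [wdg_r, wdg_r]; exact F'.f_inf y
  | coe u =>
    induction w using OnePoint.rec with
    | infty => exact F'.f_inf y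
    | coe w => exact r y (w, u)

/-- **stabilisation of the defect** for pointed fibre maps -/
theorem ecl_stg (U : LS Γ) {g : Y.Z × M.Z → OnePoint N.Z} (h : Pm Y M N g)
    {F : H1 (Sb Y M) (Sb Y N)} (r : Rg F g) {F' : H1 (Sb Y (M.prod U)) (Sb Y (N.prod U))}
    (r' : Rg F' (stg U g)) {l : KS Y N} {ρ ρ' : KX Y.Q} {x : KS Y M.xr} {y : KS Y U}
    (k : Ecl F (sd Y M) l ρ x) (hl : (Sb Y N).Rd l) (hy : (Sb Y U).Rd y)
    (e : ps _ y = (Sb Y U).sm ρ' y) :
    Ecl F' (sd Y (M.prod U)) (xm l y) (ρ * ρ') (pull (rord Y M U).f (xm x (ps _ y))) :=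
  ecl_stab U (Pm.eqm h) F r.opx F' (rg_stg U r') k hl hy e

end Crest.Agent.N218.D3

end
end

-- ▼ part N218/D3/Nuk

/-!
# Row 218, block D3 (helper12): the kit for odd `e`-invariants
-/

set_option autoImplicit false
set_option linter.unusedVariables false

open Set Module OnePoint

noncomputable section

namespace Crest.Agent.N218.D3
open K Dgk

namespace Nk

theorem sm_z {X : Type} [TopologicalSpace X] (A : Ex X) (n : ℤ) (x : KX A.E) :
    n • x = A.sm n x := by rw [Ex.sm, map_intCast, zsmul_eq_mul]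

theorem xm_zsmul' {Γ : Type} [Group Γ] [TopologicalSpace Γ] [CompactSpace Γ] {Y : GS Γ}
    {V U : LS Γ} (n : ℤ) (x : KS Y V) (y : KS Y U) : xm x (n • y) = n • xm x y := by
  rw [sm_z, sm_z]; exact (smd Y V U).mul_sm _ _ _

/-- the identity -/
def idm {X : Type} [TopologicalSpace X] (A : Ex X) : H1 A A := ⟨.id _, fun _ => rfl, fun _ => rfl⟩

/-- naturality over the identity -/
theorem ecl_h1 {X : Type} [TopologicalSpace X] {A B S A' B' S' : Ex X} (a : H1 A' A) (b : H1 B' B)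
    (c : H1 S' S) {F : H1 A B} {F' : H1 A' B'} (h : ∀ e, b.f (F'.f e) = F.f (a.f e)) {D : SD A S}
    {D' : SD A' S'} (hD : ∀ e t, c.f (D'.c (e, t)) = D.c (a.f e, t)) {l : KX B.E} {ρ : KX X}
    {x : KX S.E} (k : Ecl F D l ρ x) : Ecl F' D' (pull b.f l) ρ (pull c.f x) := by
  have := Orb.ecl_pull a b c h hD k
  rwa [pull_id] at this

/-- isomorphisms commute with the suspension coordinate -/
theorem iso_sd {Γ : Type} [Group Γ] [TopologicalSpace Γ] [CompactSpace Γ] {Y : GS Γ}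
    {V W : LS Γ} (I : V.Iso W) (e : (Sb Y V).E) (t : unitInterval) :
    ((I.prod (.refl (LS.triv Γ ℝ))).h1 Y).f ((sd Y V).c (e, t)) = (sd Y W).c ((I.h1 Y).f e, t) := by
  obtain ⟨y, w, rfl⟩ := pt_surj e
  refine congrArg (pt Y W.xr y) ((wdg_map I.e id w (thI t)).trans ?_)
  induction thI t using OnePoint.rec <;> rfl

end Nk

open Nk in
/-- **the kit for `Nu`** -/
theorem nuk (T : THOM1) (hS : SPH) (hH : HBT) (hC : CMP) (hO : OPN) (hE : EHT) : NUK where
  hb := fun {A} _ _ _ {B} _ _ _ p q h hp hq =>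
    ⟨fun ⟨k, g, t, ν, a, b, c, d, e⟩ => ⟨k, g, t, ν, a, b, c, d, hE _ _ _ _ _ _ (hH p q h hp hq) e⟩,
      fun ⟨k, g, t, ν, a, b, c, d, e⟩ =>
        ⟨k, g, t, ν, a, b, c, d, hE _ _ _ _ _ _ (hH p q h hp hq).sy e⟩⟩
  emb := fun {A} _ _ _ {A'} _ _ _ {B} _ _ _ e U e' p o hd he hp ⟨k, g, t, ν, a, b, c, d, x⟩ => by
    obtain ⟨γ, F, F', m, r, hc, hD, -, th⟩ := hO e U e' o hd
    obtain ⟨-, H⟩ := hC P0 (tv A) (tv A') (Rep.triv Unit B) γ F (fp p) (fp (cm p U e')) m r
      (fp_ok hp)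
      (fun x => ⟨fun h => ⟨e' x.2, (hc x _).2 ⟨h.1, rfl⟩, h.2⟩, fun ⟨a, h1, h2⟩ => by
        obtain ⟨u, rfl⟩ := (hc x a).1 h1
        exact ⟨u, h2⟩⟩)
      (fun x a h1 h2 => by
        obtain ⟨u, rfl⟩ := (hc x a).1 h1
        rfl)
    have z := ecl_h1 F (idm _) F' (F' := F.cm (fp p).hm) (fun _ => rfl) hD x
    rw [map_zsmul, show pull (idm (sp B)).f g = g from pull_id g] at z
    exact ⟨k, g, pull F'.f t, ν, a, th he t b, c, by rw [ps_pull, d, map_zsmul],
      hE _ _ _ _ _ _ H.sy z⟩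
  st := fun {A} _ _ _ {B} _ _ _ {C} _ _ _ p hA hB ⟨n, hn⟩ hp ⟨k, g, t, ν, a, b, c, d, x⟩ => by
    obtain ⟨y, u, ey, -⟩ := hS (A := C) n (by omega)
    obtain ⟨l, ul, -⟩ := ut_even T P0 C n (by omega)
    obtain ⟨E, F', e1, e2, H⟩ := st_ht (C := C) hp
    let G := ((pis (A := A) (C := C)).symm.h1 P0).cm (F'.cm ((pis (A := B) (C := C)).h1 P0))
    have z := ecl_stab (tv C) E (fp p).hm e1 G (fun y w u => by
      have a : ∀ {S : Type} (z : OnePoint S), OnePoint.map id z = z := fun z => by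
        induction z using OnePoint.rec <;> rfl
      exact (congrArg (fun z => ((pis (A := B) (C := C)).h1 P0).f (F'.f (pt P0 (tv (A × C)) y z)))
        (a _)).trans ((congrArg ((pis (A := B) (C := C)).h1 P0).f (e2 y w u)).trans
          (congrArg (pt P0 _ y) (a _)))) (ρ' := 3 ^ n) x a.1 u.1
        (by rw [ey, sm_z]; push_cast; rfl)
    have z' := ecl_h1 ((pis (A := A) (C := C)).h1 P0) ((pis (A := B) (C := C)).h1 P0)
      (((pis (A := A) (C := C)).prod (.refl (LS.triv Unit ℝ))).h1 P0) (F' := F')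
      (fun e => congrArg (fun z => ((pis (A := B) (C := C)).h1 P0).f (F'.f z))
        ((pis (A := A) (C := C)).h1_symm e).symm) (iso_sd _) z
    rw [ey, xm_zsmul, xm_zsmul', ← mul_smul, map_zsmul, map_zsmul, ← pow_add] at z'
    refine ⟨k + n, xp g y, _, ν * 3 ^ n, th_xp T ⟨n, hn⟩ a u, th_iso _ (LS.Iso.mp _ P0)
      (th_iso _ (LS.Iso.mp _ P0) ((ul.of_th u).th_r b)), c.mul (Odd.pow (by decide)), ?_,
      hE _ _ _ _ _ _ H.sy z'⟩
    have w : ps _ (xm t y) = xm (ps _ t) (ps _ y) := (smd P0 _ _).ps_mul t y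
    rw [ps_pull, ps_pull, w, d, ey, xm_zsmul, xm_zsmul', ← mul_smul, map_zsmul, map_zsmul,
      ← pow_add, show k + 4 + n = k + n + 4 by ring]
  tg := fun {A} _ _ _ {B} _ _ _ {B'} _ _ _ L p hp ⟨k, g, t, ν, a, b, c, d, x⟩ => by
    have z := ecl_h1 (idm _) ((lis L).symm.h1 P0) (idm _) (F' := (fp p).hm.cm ((lis L).h1 P0))
      (fun e => (lis L).h1_symm _) (D' := sd P0 (tv A)) (fun _ _ => rfl) x
    rw [show pull (idm (Sb P0 (tv A).xr)).f (ν • t) = ν • t from pull_id _] at z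
    exact ⟨k, _, t, ν, th_iso (lis L).symm (fun _ _ => rfl) a, b, c, d,
      hE _ _ _ _ _ _ (tg_ht hp L).sy z⟩

end Crest.Agent.N218.D3

end
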