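import Crest.Agent.N218.D3.Ev0
import Crest.Agent.N218.D3.Defs
import Crest.Agent.N218.K.Cx0
import Crest.Agent.N218.K.Ln1
import Crest.Agent.N218.D3.Hbt
import Crest.Agent.N218.K.Cx1
import Crest.Agent.N218.K.Clu
import Crest.Agent.N218.K.Unit

-- ▼ part N218/D3/Cbd
section

/-!
# Row 218, block D3 (helper37): pull-back of free problems and bordisms along a label map
-/

set_option autoImplicit false
set_option linter.unusedVariables false
set_option linter.unusedSectionVars false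

open Set unitInterval

noncomputable section

namespace Crest.Agent.N218.D3
open K

namespace Cb
variable {A B N W : Type} [NormedAddCommGroup A] [NormedSpace ℝ A] [FiniteDimensional ℝ A]
  [NormedAddCommGroup B] [NormedSpace ℝ B] [FiniteDimensional ℝ B] [TopologicalSpace N]
  [T2Space N] [TopologicalSpace W] {c : Pp A B} {Bx : Set B}

theorem con (h : Lab c Bx) : ContinuousOn (fun x : A × N => (c.2 x.1, x.2)) {x | x.1 ∈ c.1} :=
  (h.ok.ct.comp continuousOn_fst fun _ a => a).prodMk continuousOn_snd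

theorem opn (h : Lab c Bx) {O : Set (B × N)} (hO : IsOpen O) :
    IsOpen {x : A × N | x.1 ∈ c.1 ∧ (c.2 x.1, x.2) ∈ O} :=
  (con h).isOpen_inter_preimage (h.ok.op.preimage continuous_fst) hO

theorem cpt (h : Lab c Bx) {Z : Set (B × N)} (hZ : IsCompact Z) (hB : ∀ x ∈ Z, x.1 ∈ Bx) :
    IsCompact {x : A × N | x.1 ∈ c.1 ∧ (c.2 x.1, x.2) ∈ Z} := by
  have k := (h.pr (Prod.fst '' Z) (by rintro _ ⟨x, a, rfl⟩; exact hB x a)
    (hZ.image continuous_fst)).prod (hZ.image continuous_snd)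
  convert k.of_isClosed_subset (((con h).mono fun x a => a.1.1).preimage_isClosed_of_isClosed
    k.isClosed hZ.isClosed) inter_subset_left using 1
  exact Set.ext fun x => ⟨fun a => ⟨⟨⟨a.1, _, a.2, rfl⟩, _, a.2, rfl⟩, a.2⟩, fun a => ⟨a.1.1.1, a.2⟩⟩

variable {Γ : Type} [Group Γ] [TopologicalSpace Γ] {M V : Rep Γ}

theorem fr (h : Lab c Bx) {P : PB (XT B M).ls V} (hP : P.Fr) (hB : ∀ x ∈ P.O, x.1 ∈ Bx) :
    (cmp c P).Fr :=
  ⟨opn h hP.op, fun g x a => ⟨a.1, hP.inv g _ a.2⟩, hP.ct.comp ((con h).mono fun _ a => a.1)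
    fun _ a => a.2, fun g x a => hP.eq g _ a.2,
    (congrArg IsCompact (Set.ext fun x => and_assoc)).mpr (cpt h hP.cp fun x a => hB x a.1),
    fun x a g e => hP.fr ⟨a.1.2, a.2⟩ g (Prod.ext rfl (congrArg Prod.snd e :))⟩
end Cb

open Cb in
theorem cbd : CBD := by
  intro Γ _ _ A _ _ _ B _ _ _ M V c Bx h P hP hB
  refine ⟨fr h hP hB, fun P' H hP' e eH hH l0 l1 => ⟨fr h hP hB, fr h hP' (e ▸ hB),
    ⟨{x : (A × M.W) × I | x.1.1 ∈ c.1 ∧ ((c.2 x.1.1, x.1.2), x.2) ∈ H.O},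
      fun x : (A × M.W) × I => H.f ((c.2 x.1.1, x.1.2), x.2)⟩, ?_,
    ⟨fun x a => ⟨a.1, l0.sub a.2⟩, fun x a => l0.eq _ a.2, fun x a => ⟨a.1.1, l0.z ⟨a.1.2, a.2⟩⟩⟩,
    ⟨fun x a => ⟨a.1, l1.sub a.2⟩, fun x a => l1.eq _ a.2, fun x a => ⟨a.1.1, l1.z ⟨a.1.2, a.2⟩⟩⟩⟩⟩
  let a := Homeomorph.prodAssoc A M.W I
  let b := (Homeomorph.prodAssoc B M.W I).symm
  have ct : ContinuousOn (fun x : (A × M.W) × I => ((c.2 x.1.1, x.1.2), x.2)) {x | x.1.1 ∈ c.1} :=
    ((con h).comp continuousOn_fst fun _ a => a).prodMk continuousOn_snd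
  refine ⟨(opn h (hH.op.preimage b.continuous)).preimage a.continuous,
    fun g x u => ⟨u.1, hH.inv g _ u.2⟩, hH.ct.comp (ct.mono fun _ u => u.1) fun _ u => u.2,
    fun g x u => hH.eq g _ u.2, ?_,
    fun x u g k => hH.fr ⟨u.1.2, u.2⟩ g (Prod.ext rfl (congrArg Prod.snd k :))⟩
  exact (congrArg IsCompact (Set.ext fun x => and_assoc)).mpr (a.isCompact_preimage.2 (cpt h
    (b.isCompact_preimage.2 hH.cp) fun x u => hB (b x).1 (by have := u.1; rwa [eH] at this)))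

end Crest.Agent.N218.D3

end
end

-- ▼ part N218/D3/Sph
section

/-!
# Row 218, block D3 (helper59): the K-theory of even spheres
-/

set_option autoImplicit false

open Set Module OnePoint

noncomputable section

namespace Crest.Agent.N218.D3
open K

section
variable {A : Type} [NormedAddCommGroup A] [NormedSpace ℝ A] [FiniteDimensional ℝ A]

theorem sph_zero [Subsingleton A] : ∃ g, (sp A).Th g ∧ ps _ g = (sp A).sm 1 g := by
  classical
  let z : C(P0.Q, (sp A).E) := .const _ (pt P0 (tv A) () ((0 : A) : OnePoint A))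
  have h : ∀ e, e ∈ range (sp A).s ∨ e ∈ range z := fun e => by
    refine sb_ind (P := fun e => e ∈ range (sp A).s ∨ e ∈ range z)
      (fun y => .inl ⟨P0.pr y, rfl⟩) (fun y w => .inr ⟨P0.pr y, ?_⟩) e
    rw [Subsingleton.elim (α := A) w 0]; rfl
  have : Finite (sp A).E := Finite.of_surjective (Sum.elim (sp A).s z) fun e =>
    (h e).elim (fun ⟨x, k⟩ => ⟨.inl x, k⟩) fun ⟨x, k⟩ => ⟨.inr x, k⟩
  let f : C((sp A).E, ℂ) := ⟨fun e => if e ∈ range (sp A).s then 0 else 1,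
    continuous_of_discreteTopology⟩
  let e : Matrix Unit Unit C((sp A).E, ℂ) := Matrix.of fun _ _ => f
  have he : e * e = e := by
    ext i j x
    simp only [e, f, Matrix.mul_apply, Matrix.of_apply, Finset.univ_unique, Finset.sum_singleton,
      ContinuousMap.mul_apply, ContinuousMap.coe_mk]
    split_ifs <;> simp
  refine ⟨kc e, Ex.th_pt z (fun _ => Subsingleton.elim _ _) h ?_ ?_⟩
  · refine (pull_kc _ he).trans ?_
    rw [show (Matrix.of fun i j => (e i j).comp (sp A).s) = 0 from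
      Matrix.ext fun _ _ => ContinuousMap.ext fun x => if_pos ⟨x, rfl⟩]
    exact R204.K357.K0.cls_zero
  · refine (pull_kc _ he).trans (Eq.trans (congrArg kc ?_) kc_one)
    refine Matrix.ext fun i j => ContinuousMap.ext fun x => ?_
    rw [Subsingleton.elim i j, Matrix.one_apply_eq]
    refine if_neg fun ⟨y, k⟩ => ?_
    obtain ⟨y, rfl⟩ := P0.pr_surj y
    obtain ⟨_, -, k⟩ := pt_iff.1 (k : pt P0 (tv A) y ∞ = pt P0 (tv A) () ((0 : A) : OnePoint A))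
    exact infty_ne_coe _ k
end

theorem sph_ex (T : THOM1) (k : ℕ) : ∀ {A : Type} [NormedAddCommGroup A] [NormedSpace ℝ A]
    [FiniteDimensional ℝ A], finrank ℝ A = 2 * k →
    ∃ g, (sp A).Th g ∧ ps _ g = (sp A).sm (3 ^ k) g := by
  induction k with
  | zero =>
    intro A _ _ _ h
    have : Subsingleton A := finrank_zero_iff.1 h
    exact sph_zero
  | succ k ih =>
    intro A _ _ _ h
    obtain ⟨g, h1, h2⟩ := ih (A := Fin (2 * k) → ℝ) (by simp)
    have c : Continuous (1 : Unit →* Circle) := continuous_const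
    let e : A ≃L[ℝ] ℂ × (Fin (2 * k) → ℝ) := ContinuousLinearEquiv.ofFinrankEq (by
      rw [h, finrank_prod, Complex.finrank_real_complex]; simp; omega)
    let I : (tv A).Iso ((ch 1 c).prod (tv (Fin (2 * k) → ℝ))) :=
      ⟨e.toHomeomorph, fun _ x => Prod.ext (one_mul (e x).1).symm rfl⟩
    refine ⟨_, th_iso I (I.mp P0) ((smd P0 (ch 1 c) (tv _)).th (T _ P0 1 c ⟨.one _⟩) ?_ h1), ?_⟩
    · exact (pull_lam1 (Y' := P0.prod (tv (Fin (2 * k) → ℝ)).sph) c c ⟨.one _⟩ (f := .fst)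
        (fun g _ => ⟨g, rfl, rfl⟩) (smd P0 (ch 1 c) (tv _)).q fun _ _ => rfl).symm ▸
        T _ _ 1 c ⟨.one _⟩
    · refine (eig_iso I (I.mp P0) (eig_xm (ps_lam1 c) h2)).trans ?_
      rw [Lc_one, show rho3 (1 : KX P0.Q) * 3 ^ k = 3 ^ (k + 1) by rw [rho3]; ring]
      rfl

theorem sm_int {X : Type} [TopologicalSpace X] (A : Ex X) (n : ℤ) (x : KX A.E) :
    A.sm n x = n • x := by rw [Ex.sm, map_intCast, zsmul_eq_mul]

theorem sph (T : THOM1) : SPH := fun {A} _ _ _ k h => by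
  obtain ⟨g, h1, h2⟩ := sph_ex T k h
  have s : ∀ a : KX P0.Q, ∃ n : ℤ, (n : KX P0.Q) = a := kx_pt.2
  have i : ∀ m n : ℤ, (m : KX P0.Q) = n → m = n := fun _ _ e => kx_pt.1 e
  refine ⟨g, h1, ?_, fun x hx => ?_, fun n e => ?_, fun g' => ⟨fun h' => ?_, ?_⟩⟩
  · rw [h2, ← sm_int]; push_cast; rfl
  · obtain ⟨a, rfl⟩ := h1.ex hx
    obtain ⟨n, rfl⟩ := s a
    exact ⟨n, sm_int _ n g⟩
  · exact i n 0 (h1.inj (by rw [sm_int, sm_int, e, zero_smul]))
  · obtain ⟨u, v, a, rfl, -⟩ := h1.unit h'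
    obtain ⟨m, rfl⟩ := s u
    obtain ⟨n, rfl⟩ := s v
    rcases Int.eq_one_or_neg_one_of_mul_eq_one (i (m * n) 1 (by push_cast; exact a)) with rfl | rfl
    · exact .inl (by rw [sm_int, one_smul])
    · exact .inr (by rw [sm_int, neg_one_smul])
  · rintro (rfl | rfl)
    · exact h1
    · have := h1.sm_unit (u := ((-1 : ℤ) : KX P0.Q)) (by simp)
      rwa [sm_int, neg_one_smul] at this

end Crest.Agent.N218.D3

end
end

-- ▼ part N218/D3/Dval
section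

/-! # Row 218, block D3 (helper54): the `d`-value of a cycle in `S(3 χ)` is a degree -/

set_option autoImplicit false
set_option linter.unusedSectionVars false

open Set Module OnePoint Polynomial

noncomputable section

namespace Crest.Agent.N218.D3
open K

namespace Dv

theorem th_pm {A : Ex P0.Q} {g g' : KX A.E} (h : A.Th g) (h' : A.Th g') :
    ∃ s : ℤ, (s = 1 ∨ s = -1) ∧ g' = s • g := by
  obtain ⟨u, v, a, rfl, -⟩ := h.unit h'
  obtain ⟨m, rfl⟩ : ∃ n : ℤ, (n : KX P0.Q) = u := kx_pt.2 u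
  obtain ⟨n, rfl⟩ : ∃ n : ℤ, (n : KX P0.Q) = v := kx_pt.2 v
  exact ⟨m, Int.eq_one_or_neg_one_of_mul_eq_one (kx_pt (W := P0.Q).1
    (show ((m * n : ℤ) : KX P0.Q) = (1 : ℤ) by push_cast; exact a)), sm_int _ _ _⟩

theorem mid {A : Type} [TopologicalSpace A] (w : OnePoint A) :
    OnePoint.map (Homeomorph.refl A) w = w := by induction w using OnePoint.rec <;> rfl

theorem dg_un {A B : Type} [NormedAddCommGroup A] [NormedSpace ℝ A] [FiniteDimensional ℝ A]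
    [NormedAddCommGroup B] [NormedSpace ℝ B] [FiniteDimensional ℝ B] {p : Pp A B} {n m : ℤ}
    (h : Dg0 p n) (h' : Dg0 p m) : m = n ∨ m = -n := by
  obtain ⟨g, k, a, b, e⟩ := h
  obtain ⟨g', k', a', b', e'⟩ := h'
  obtain ⟨s, hs, rfl⟩ := th_pm a a'
  obtain ⟨t, ht, rfl⟩ := th_pm b b'
  rw [map_zsmul, e, smul_smul, smul_smul, ← sm_int, ← sm_int] at e'
  have : s * n = m * t := kx_pt (W := P0.Q).1 (b.inj e')
  rcases hs with rfl | rfl <;> rcases ht with rfl | rfl <;> omega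

theorem val (p : ℤ[X]) : ((Al.ph (Al.r ^ 7 * iS ((1 - X) ^ 4 * p)) : ℚ) : QQ) = p.eval 1 • c4 := by
  obtain ⟨d, e⟩ := X_sub_C_dvd_sub_C_eval (p := p) (a := 1)
  have e1 : iS (1 - X) = Al.t := by simp [iS, Al.L]
  have e2 : iS p = PowerSeries.C ((p.eval 1 : ℤ) : ℚ) - Al.t * iS d := by
    have := congrArg iS e
    rw [map_sub, map_mul, C_1, ← neg_sub 1, map_neg, e1] at this
    rw [eq_add_of_sub_eq this]
    simp [iS, add_comm, sub_eq_add_neg]
  have e3 : Al.r ^ 7 * iS ((1 - X) ^ 4 * p) = PowerSeries.C ((p.eval 1 : ℤ) : ℚ) *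
      (Al.r ^ 7 * Al.t ^ 4) - Al.t ^ 5 * (Al.r ^ 7 * iS d) := by
    rw [map_mul, map_pow, e1, e2]; ring
  rw [e3, map_sub, Al.ph_C, QuotientAddGroup.mk_sub, (QuotientAddGroup.eq_zero_iff (Al.ph (Al.t ^ 5 * _))).2
    (Al.ph_t5 (Al.OS.mul_mem (Al.OS.pow_mem Al.r_mem 7) (Ut.iS_mem d))), sub_zero, c4,
    ← QuotientAddGroup.mk_zsmul, zsmul_eq_mul]

variable {Γ : Type} [Group Γ] [Fintype Γ] [TopologicalSpace Γ] [DiscreteTopology Γ]
  {χ : Γ →* Circle}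

theorem gd (h : Function.Injective χ) (r : ℕ) : Gd (Sp χ (cc χ) r) := fun ψ _ => by
  have : IsCyclic Γ := isCyclic_of_injective_ringHom (R := ℂ) (Circle.coeHom.comp χ)
    (Circle.coe_injective.comp h)
  obtain ⟨g, hg⟩ := IsCyclic.exists_monoid_generator (α := Γ)
  have : ψ g ∈ χ.range := by
    rw [range_eq_ker h]
    change ψ g ^ _ = 1
    rw [← map_pow, pow_card_eq_one, map_one]
  obtain ⟨a, ha⟩ := this
  obtain ⟨m, rfl⟩ := hg a
  obtain rfl : ψ = χ ^ m := MonoidHom.ext fun x => by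
    obtain ⟨j, rfl⟩ := hg x
    simp only [MonoidHom.pow_apply, map_pow] at ha ⊢
    rw [← ha, ← pow_mul, mul_comm, pow_mul]
  exact sec_pow ⟨Cp.spS0 _ _ _⟩ m

theorem unit_ev (hK : KLN) (h : Function.Injective χ) {r : ℕ} (hr : 0 < r) {u : ℤ[X]}
    (hu : IsUnit (ev χ (cc χ) r u)) : u.eval 1 = 1 ∨ u.eval 1 = -1 := by
  obtain ⟨s, k, -⟩ := hK χ r h hr
  obtain ⟨v, e⟩ := hu.exists_right_inv
  obtain ⟨v, rfl⟩ := s v
  obtain ⟨a, b, e⟩ := Ideal.mem_span_pair.1 ((k (u * v - 1)).1 (by rw [map_sub, map_mul, e, map_one, sub_self]))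
  have := congrArg (eval 1) e
  simp [hr.ne'] at this
  exact Int.eq_one_or_neg_one_of_mul_eq_one (sub_eq_zero.1 this.symm)

/-- the point `u` of the sphere -/
def jp (χ : Γ →* Circle) {r : ℕ} (u : US r) : C(P0.Z, (Sp χ (cc χ) r).Z) := .const _ u

theorem fib (T : THOM1) (h : Function.Injective χ) {r : ℕ} (u : US r) {M : LS Γ} (hM : Cx M)
    {A : Type} [NormedAddCommGroup A] [NormedSpace ℝ A] [FiniteDimensional ℝ A] (e : A ≃ₜ M.Z) :
    ∃ G : C((sp A).E, (Sb (Sp χ (cc χ) r) M).E), Mp (jp χ u) (.map e) G ∧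
      ∀ l, (Sb _ M).Th l → (sp A).Th (pull G l) := by
  have q : Eqv (1 : Unit →* Γ) (jp χ u) := fun _ _ => ((Sp χ (cc χ) r).one u).symm
  let I : (tv A).Iso (M.res 1 continuous_const) := ⟨e, fun _ x => (M.one (e x)).symm⟩
  refine ⟨(q.eqm continuous_const M).hm.f.comp (I.h1 P0).f, fun _ _ => rfl, fun l t => ?_⟩
  rw [pull_cm]
  exact th_iso I (I.mp P0) ((ut_of_th T (gd h r) hM t).2 Unit 1 continuous_const P0 _ q _
    (q.mp continuous_const M))

theorem deg (T : THOM1) (h : Function.Injective χ) {X V : Rep Γ} (hX : Cx X.ls.xr) (hV : Cx V.ls)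
    {P : PB X.ls V} {k : X.W → Fin 3 → ℂ} (u : US 3) (f : P.Fr) (l : P.Lift (UU χ (cc χ) 3) k)
    {lS lT} (tS : (Sb _ _).Th lS) (tT : (Sb _ _).Th lT) {a : ℤ[X]}
    (e : pull (Tc χ (cc χ) 3 P k).hm.f lT = (Sb _ _).sm (ev χ (cc χ) 3 a) lS) :
    Dg0 (th P k u.1) (a.eval 1) := by
  obtain ⟨G, mG, tG⟩ := fib T h u hX (A := X.W × ℝ) (.refl _)
  obtain ⟨H, mH, tH⟩ := fib T h u (cx_tt χ (cc χ) 3 hV) (A := V.W × (Fin 3 → ℂ)) (.refl _)
  have ok := Tc_ok χ (cc χ) 3 f l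
  obtain ⟨c, cut, rp⟩ := ok.rp_hm
  have ce : Topology.IsClosedEmbedding fun z : P0.Z × (X.W × ℝ) => ((u, z.2) : US 3 × (X.W × ℝ)) :=
    Function.LeftInverse.isClosedEmbedding (f := fun z => ((), z.2)) (fun _ => rfl) (by fun_prop)
      (by fun_prop)
  have ok' : (fp (th P k u.1)).Ok := ⟨ok.op.preimage ce.continuous, fun _ _ m => m,
    ok.ct.comp ce.continuous.continuousOn fun _ m => m, fun _ _ _ => rfl,
    ce.isCompact_preimage ok.cp⟩
  have sub := tsupport_comp_subset_preimage c ce.continuous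
  have cut' : (fp (th P k u.1)).Cut fun z => c (u, z.2) := ⟨cut.ct.comp ce.continuous,
    fun _ => cut.nn _, (ce.isCompact_preimage cut.cp).of_isClosed_subset (isClosed_tsupport _) sub,
    fun _ m => cut.sub (sub m), fun _ m z => cut.pos _ m z, fun _ _ => rfl⟩
  obtain ⟨F, rg, rp'⟩ := cut'.rp ok'
  have sq : ∀ x, H (F.f x) = (Tc χ (cc χ) 3 P k).hm.f (G x) := fun x => by
    refine sb_ind (P := fun x => H (F.f x) = (Tc χ (cc χ) 3 P k).hm.f (G x)) (fun y => ?_)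
      (fun y w => ?_) x
    · rw [Hm.f_inf, mH, mG]; exact (Hm.f_inf _ _).symm
    · rw [rg, mG]
      refine (mH y _).trans (Eq.trans (congrArg (pt (Sp χ (cc χ) 3) (TT χ (cc χ) 3 V) u) ?_) (rp u w).symm)
      exact mid _
  refine ⟨_, _, tH _ tT, tG _ tS, ?_⟩
  have b : pull (bse G) (ev χ (cc χ) 3 a) = (a.eval 1 : ℤ) := by
    have : pull (bse G) (LL χ (cc χ) 3) = 1 := by
      rw [show LL χ (cc χ) 3 = Lc _ χ from (Lc_eq (Cp.spS0 _ _ _)).symm,
        pull_Lc ⟨Cp.spS0 _ _ _⟩ (f := jp χ u) (χ' := 1)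
          (fun _ _ => ⟨1, ((Sp χ (cc χ) 3).one u).symm, map_one _⟩) _ mG.bse, Lc_one]
    rw [ev, ← RingHom.toIntAlgHom_apply, ← aeval_algHom_apply, RingHom.toIntAlgHom_apply, this,
      ← map_one (algebraMap ℤ _), aeval_algebraMap_apply_eq_algebraMap_eval]
    rfl
  rw [FP.pb, (FP.Rp.ht_hm ok' rp').pull_eq, pull_sq _ _ _ _ sq, e]
  exact ((mG.hm rfl _ mG.bse).pull_sm _ _).trans (by rw [b, sm_int]; rfl)

end Dv

open Dv in
theorem dval (T : THOM1) (hK : KLN) (hD : DENL) (hO : OEX) : DVAL := by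
  intro J hJ Γ _ _ _ _ χ X V g a c P k u n f l d
  have hX : Cx X.ls.xr := Adm.cx_odd (m := 2) a c
  obtain ⟨o⟩ := ((hO χ X V g c).2 a).1
  obtain ⟨s, hs⟩ := hJ χ X V g a c o
  have ex : ∀ r, ∃ lS lT, (Sb (Sp χ (cc χ) r) X.ls.xr).Th lS ∧
      (Sb (Sp χ (cc χ) r) (TT χ (cc χ) r V)).Th lT := fun r =>
    let ⟨_, a⟩ := hX.ut T (gd g.inj r); let ⟨_, b⟩ := (cx_tt χ (cc χ) r c).ut T (gd g.inj r)
    ⟨_, _, a.th, b.th⟩
  choose lS lT tS tT using ex
  obtain ⟨b, e⟩ := (tS 3).ex ((tT 3).1.hm (Tc χ (cc χ) 3 P k).hm)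
  obtain ⟨b, rfl⟩ := (hK χ 3 g.inj (by omega)).1 b
  have d0 := dg_un d (deg T g.inj hX c u f l (tS 3) (tT 3) e)
  obtain ⟨u1, i1, h1⟩ := hD χ 3 X V g.inj (by omega) hX c _ _ _ _ (tS 3) (tT 3) (tS 4) (tT 4)
  obtain ⟨u2, i2, h2⟩ := hD χ 4 X V g.inj (by omega) hX c _ _ _ _ (tS 4) (tT 4) (tS 5) (tT 5)
  obtain ⟨u3, i3, h3⟩ := hD χ 5 X V g.inj (by omega) hX c _ _ _ _ (tS 5) (tT 5) (tS 6) (tT 6)
  obtain ⟨u4, i4, h4⟩ := hD χ 6 X V g.inj (by omega) hX c _ _ _ _ (tS 6) (tT 6) o.tS o.tT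
  have k7 := h4 P _ (h3 P _ (h2 P _ (h1 P b ⟨_, cl_hm f.hb l, e⟩)))
  rw [hs P _ ⟨_, k7, rfl⟩, show (1 - Polynomial.X) * ((1 - Polynomial.X) * ((1 - Polynomial.X) *
    ((1 - Polynomial.X) * b * u1) * u2) * u3) * u4 =
      (1 - Polynomial.X) ^ 4 * (b * u1 * u2 * u3 * u4) by ring, val]
  simp only [eval_mul]
  rcases Int.units_eq_one_or s with rfl | rfl <;> rcases d0 with e0 | e0 <;>
    rcases unit_ev hK g.inj (by omega) i1 with e1 | e1 <;>
    rcases unit_ev hK g.inj (by omega) i2 with e2 | e2 <;>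
    rcases unit_ev hK g.inj (by omega) i3 with e3 | e3 <;>
    rcases unit_ev hK g.inj (by omega) i4 with e4 | e4 <;> simp [e0, e1, e2, e3, e4]

end Crest.Agent.N218.D3

end
end

-- ▼ part N218/D3/Pert
section

/-!
# Row 218, block D3 (helper16): pushing the zeros off a thin set
-/

set_option autoImplicit false

open Set Module

noncomputable section

namespace Crest.Agent.N218.D3

namespace Pert

theorem glob {E W : Type} [NormedAddCommGroup E] [NormedSpace ℝ E] [FiniteDimensional ℝ E]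
    [NormedAddCommGroup W] [NormedSpace ℝ W] [FiniteDimensional ℝ W]
    (h : finrank ℝ E < finrank ℝ W) {B : Set E} (c : IsClosed B) {f : E → W}
    (hf : ContinuousOn f B) {ε : ℝ} (hε : 0 < ε) :
    ∃ u : E → W, Continuous u ∧ (∀ y, ‖u y‖ < ε) ∧ ∀ y ∈ B, f y + u y ≠ 0 := by
  have := TietzeExtension.of_tvs ℝ (E := W)
  obtain ⟨F, hF⟩ := ContinuousMap.exists_restrict_eq c ⟨B.domRestrict f, hf.domRestrict⟩
  obtain ⟨p, p1, p2, -⟩ := F.continuous.exists_contDiff_approx 1 (ε := fun _ => ε / 2)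
    continuous_const fun _ => half_pos hε
  obtain ⟨w, w1, w2⟩ := (ContDiff.dense_compl_range_of_finrank_lt_finrank p1 h).exists_mem_open
    Metric.isOpen_ball (Metric.nonempty_ball.2 (half_pos hε) : (Metric.ball (0 : W) _).Nonempty)
  refine ⟨fun y => p y - F y - w, (p1.continuous.sub F.continuous).sub continuous_const,
    fun y => ?_, fun y hy e => w1 ⟨y, ?_⟩⟩
  · have a := p2 y
    rw [dist_eq_norm] at a
    exact (norm_sub_le _ _).trans_lt (by linarith [mem_ball_zero_iff.1 w2])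
  · have k : F y = f y := congrArg (fun u : C(B, W) => u ⟨y, hy⟩) hF
    rw [← sub_eq_zero, ← e, ← k]; beta_reduce; abel

end Pert

theorem pert : PERT := by
  intro A _ _ _ B _ _ _ E _ _ _ p U δ' δ hd hp hU c' c hδ
  have := FiniteDimensional.proper_real A
  obtain ⟨K0, k1, k2, k3⟩ := exists_compact_between hp.cp hp.op fun _ h => h.1
  obtain ⟨φ, φ1, φ2, φ3, φ4⟩ := exists_continuousMap_one_of_isCompact_subset_isOpen k1 hp.op k3
  have KO : K0 ⊆ tsupport φ := fun y hy => subset_tsupport _ (by simp [φ1 hy])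
  obtain ⟨m, m0, hm⟩ : ∃ m > 0, ∀ x ∈ tsupport φ \ interior K0, m ≤ ‖p.2 x‖ := by
    rcases (tsupport φ \ interior K0).eq_empty_or_nonempty with e | ne
    · exact ⟨1, one_pos, by simp [e]⟩
    · obtain ⟨x, hx, k⟩ := (φ2.diff isOpen_interior).exists_isMinOn ne
        (hp.ct.mono fun _ h => φ3 h.1).norm
      exact ⟨_, norm_pos_iff.2 fun e => hx.2 (k2 ⟨φ3 hx.1, e⟩), fun y hy => k hy⟩
  have s : tsupport φ \ U ⊆ p.1 \ U := diff_subset_diff_left φ3
  obtain ⟨u, u1, u2, u3⟩ := Pert.glob hd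
    ((φ2.diff hU).image_of_continuousOn (c'.mono fun _ h => φ3 h.1)).isClosed (f := p.2 ∘ δ)
    (hp.ct.comp (c.mono (image_mono s)) (by
      rintro _ ⟨a, ha, rfl⟩
      rw [hδ a (s ha)]; exact φ3 ha.1)) m0
  have z : ∀ a ∉ tsupport φ, p.2 a + φ a • u (δ' a) = p.2 a := fun a ha => by
    simp [image_eq_zero_of_notMem_tsupport ha]
  refine ⟨fun a => p.2 a + φ a • u (δ' a), tsupport φ, φ2, φ3,
    hp.ct.add (φ.continuous.continuousOn.smul (u1.comp_continuousOn c')),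
    fun a ha e => KO (interior_subset (k2 ⟨ha, e⟩)), z, fun a ha e => by_contra fun n => ?_⟩
  beta_reduce at e
  by_cases k : a ∈ tsupport φ
  · by_cases k' : a ∈ interior K0
    · refine u3 _ ⟨a, ⟨k, n⟩, rfl⟩ ?_
      rw [φ1 (interior_subset k'), Pi.one_apply, one_smul] at e
      rwa [Function.comp_apply, hδ a ⟨ha, n⟩]
    · have b := hm a ⟨k, k'⟩
      rw [eq_neg_of_add_eq_zero_left e, norm_neg, norm_smul, Real.norm_of_nonneg (φ4 a).1] at b
      exact (u2 _).not_ge (b.trans (mul_le_of_le_one_left (norm_nonneg _) (φ4 a).2))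
  · exact k (KO (interior_subset (k2 ⟨ha, (z a k).symm.trans e⟩)))

end Crest.Agent.N218.D3

end
end

-- ▼ part N218/D3/Push

/-!
# Row 218, block D3 (helper5): the push-forward of the `d`-invariant
-/

set_option autoImplicit false
set_option linter.unusedVariables false
set_option linter.unusedSectionVars false

open Set Module unitInterval Topology

noncomputable section

namespace Crest.Agent.N218.D3
open K

namespace Pu

section plain
variable {A B : Type} [TopologicalSpace A] [T2Space A] [TopologicalSpace B] [T1Space B] [Zero B]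

/-- a homotopy on a fixed open set with zeros in a fixed compact set -/
theorem hb_fam {p q : Pp A B} (h : ℝ × A → B) {K : Set A} (op : IsOpen p.1) (e : q.1 = p.1)
    (ct : ContinuousOn h (Prod.snd ⁻¹' p.1)) (k : IsCompact K) (s : K ⊆ p.1)
    (z : ∀ t, ∀ a ∈ p.1, h (t, a) = 0 → a ∈ K) (h0 : ∀ a ∈ p.1, h (0, a) = p.2 a)
    (h1 : ∀ a ∈ p.1, h (1, a) = q.2 a) : Okp p ∧ Okp q ∧ Sh.Hb p q := by
  have c : ∀ t, ContinuousOn (fun a => h (t, a)) p.1 := fun t =>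
    ct.comp (continuous_const.prodMk continuous_id).continuousOn fun _ i => i
  have c0 : ContinuousOn p.2 p.1 := (c 0).congr fun a i => (h0 a i).symm
  have c1 : ContinuousOn q.2 p.1 := (c 1).congr fun a i => (h1 a i).symm
  refine ⟨⟨op, c0, cp_of_sub k s c0 fun a i j => z 0 a i ((h0 a i).trans j)⟩,
    ⟨e ▸ op, e ▸ c1, e ▸ cp_of_sub k s c1 fun a i j => z 1 a i ((h1 a i).trans j)⟩,
    Prod.snd ⁻¹' p.1, h, op.preimage continuous_snd, ct, ?_, fun a i => ⟨i, h0 a i⟩,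
    fun a i _ => i, fun a i => ⟨e ▸ i, h1 a i⟩, fun a i _ => (e ▸ i : a ∈ p.1)⟩
  have := cp_of_sub (O := {w : ℝ × A | w.2 ∈ p.1 ∧ w.1 ∈ Icc (0 : ℝ) 1}) (f := h)
    (isCompact_Icc.prod k) (fun w i => ⟨s i.2, i.1⟩) (ct.mono fun w i => i.1)
    fun w i j => ⟨i.2, z w.1 w.2 i.1 j⟩
  simpa only [mem_ofPred_eq, mem_preimage, and_assoc] using this

end plain

variable {Γ : Type} [Group Γ] [TopologicalSpace Γ] {X₁ V₁ Z X₂ V₂ : Rep Γ} (T : Tp X₁ V₁ Z X₂ V₂)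

theorem G_zero {x : X₁.W} (h : x ∈ T.U₁) {v : V₁.W} {z : Z.W} (e : T.G x (v, z) = 0) :
    v = 0 ∧ z = 0 := Prod.mk_eq_zero.1 ((T.bG x h).1 (e.trans (map_zero _).symm))

section fam
variable {S : Type} [TopologicalSpace S]

theorem op_tr {O : Set (X₁.W × S)} (h : IsOpen O) :
    IsOpen {z : X₂.W × S | z.1 ∈ T.U₂ ∧ ((T.i z.1).1, z.2) ∈ O} :=
  ((T.ci.comp continuousOn_fst fun _ i => i).fst.prodMk continuousOn_snd).isOpen_inter_preimage
    (s := Prod.fst ⁻¹' T.U₂) (T.o₂.preimage continuous_fst) h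

theorem ct_i : ContinuousOn (fun z : X₂.W × S => T.i z.1) {z | z.1 ∈ T.U₂} :=
  T.ci.comp continuousOn_fst fun _ i => i

theorem ct_pl {E : Type} [TopologicalSpace E] {O : Set (X₁.W × S)} {f : X₁.W × S → E}
    (h : ContinuousOn f O) : ContinuousOn (fun z : X₂.W × S => f ((T.i z.1).1, z.2))
      {z : X₂.W × S | z.1 ∈ T.U₂ ∧ ((T.i z.1).1, z.2) ∈ O} :=
  h.comp (((ct_i T).mono fun _ i => i.1).fst.prodMk continuousOn_snd) fun _ i => i.2

theorem ct_tr {O : Set (X₁.W × S)} {f : X₁.W × S → V₁.W} (h : ContinuousOn f O) :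
    ContinuousOn (fun z : X₂.W × S => T.G (T.i z.1).1 (f ((T.i z.1).1, z.2), (T.i z.1).2))
      {z : X₂.W × S | z.1 ∈ T.U₂ ∧ ((T.i z.1).1, z.2) ∈ O} :=
  (T.cG.comp ((ct_i T).mono fun _ i => i.1).fst fun z i => (T.mi _ i.1).1).clm_apply
    ((ct_pl T h).prodMk ((ct_i T).mono fun _ i => i.1).snd)

/-- the zero section over a set -/
def zs (K : Set (X₁.W × S)) : Set (X₂.W × S) := (fun z => (T.j (z.1, 0), z.2)) '' K

theorem zs_cp {K : Set (X₁.W × S)} (h : IsCompact K) (s : ∀ z ∈ K, z.1 ∈ T.U₁) :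
    IsCompact (zs T K) :=
  h.image_of_continuousOn ((T.cj.comp (continuousOn_fst.prodMk continuousOn_const)
    fun z i => ⟨s z i, trivial⟩).prodMk continuousOn_snd)

theorem zs_sub {K O : Set (X₁.W × S)} (h : K ⊆ O) (s : ∀ z ∈ O, z.1 ∈ T.U₁) :
    zs T K ⊆ {z : X₂.W × S | z.1 ∈ T.U₂ ∧ ((T.i z.1).1, z.2) ∈ O} := by
  rintro _ ⟨z, i, rfl⟩
  obtain ⟨a, b⟩ := T.mj (z.1, 0) (s z (h i))
  refine ⟨a, ?_⟩
  change ((T.i (T.j (z.1, 0))).1, z.2) ∈ O
  rw [b]; exact h i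

theorem mem_zs {K : Set (X₁.W × S)} {z : X₂.W × S} (h : z.1 ∈ T.U₂) (e : (T.i z.1).2 = 0)
    (k : ((T.i z.1).1, z.2) ∈ K) : z ∈ zs T K :=
  ⟨_, k, Prod.ext (by rw [← e]; exact (T.mi _ h).2) rfl⟩

variable [LocallyCompactSpace S] [T2Space S]

/-- transport of a family -/
def trf (H : PB (X₁.ls.prod (LS.triv Γ S)) V₁) : PB (X₂.ls.prod (LS.triv Γ S)) V₂ :=
  PB.fam (X := X₂.ls) {z : X₂.W × S | z.1 ∈ T.U₂ ∧ ((T.i z.1).1, z.2) ∈ H.O}
    fun z => T.G (T.i z.1).1 (H.f ((T.i z.1).1, z.2), (T.i z.1).2)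

theorem trf_ok {H : PB (X₁.ls.prod (LS.triv Γ S)) V₁} (h : H.Ok (Prod.fst ⁻¹' X₁.ls.fr))
    (s : ∀ z ∈ H.O, z.1 ∈ T.U₁) : (trf T H).Ok (Prod.fst ⁻¹' X₂.ls.fr) := by
  refine PB.fam_ok (op_tr T h.op) (fun g x t i => ⟨(T.ei g x i.1).1, ?_⟩) (ct_tr T h.ct)
    (fun g x t i => ?_) (cp_of_sub (zs_cp T h.cp fun z i => s z i.1) (zs_sub T (fun _ i => i.1) s)
      (ct_tr T h.ct) fun z i e => ?_) fun x t i e g k => ?_
  · change ((T.i (X₂.ρ g x)).1, t) ∈ H.O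
    rw [(T.ei g x i.1).2]
    exact h.inv g _ i.2
  · change T.G (T.i (X₂.ρ g x)).1 (H.f ((T.i (X₂.ρ g x)).1, t), (T.i (X₂.ρ g x)).2) = _
    rw [(T.ei g x i.1).2, ← T.eG g _ (T.mi x i.1).1]
    exact congrArg (fun v => T.G _ (v, _)) (h.eq g _ i.2)
  · have := G_zero T (T.mi _ i.1).1 e
    exact mem_zs T i.1 this.2 ⟨i.2, this.1⟩
  · have a := (T.ei g x i.1).2
    rw [show X₂.ρ g x = x from k] at a
    exact h.fr (a := ((T.i x).1, t)) ⟨i.2, (G_zero T (T.mi _ i.1).1 e).1⟩ g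
      (congrArg Prod.fst a).symm

end fam

theorem tr_fr {P : PB X₁.ls V₁} (h : P.Fr) (s : P.O ⊆ T.U₁) : (T.tr P).Fr :=
  (trf_ok T (S := Unit) (H := PB.fam (Prod.fst ⁻¹' P.O) fun z => P.f z.1)
    (PB.fam_ok (h.op.preimage continuous_fst) (fun g x _ => h.inv g x)
      (h.ct.comp continuousOn_fst fun _ a => a) (fun g x _ => h.eq g x)
      ((h.cp.prod isCompact_univ).of_isClosed_subset (h.cp.isClosed.preimage continuous_fst)
        fun _ a => ⟨a, trivial⟩) fun x _ o z => h.fr ⟨o, z⟩) fun z i => s i).sl ()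

theorem tr_le {P Q : PB X₁.ls V₁} (h : P.Le Q) : (T.tr P).Le (T.tr Q) :=
  ⟨fun x i => ⟨i.1, h.sub i.2⟩, fun x i => congrArg (fun v => T.G _ (v, _)) (h.eq _ i.2),
    fun x i => ⟨i.1.1, h.z ⟨i.1.2, (G_zero T (T.mi _ i.1.1).1 i.2).1⟩⟩⟩

theorem tr_lift {P : PB X₁.ls V₁} {U : Rep Γ} {k : X₁.W → U.W} (l : P.Lift U k) :
    (T.tr P).Lift U fun x => k (T.i x).1 :=
  ⟨l.ct.comp (T.ci.mono fun _ i => i.1).fst fun _ i => i.2, fun g x i => by
    change k (T.i (X₂.ρ g x)).1 = _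
    rw [(T.ei g x i.1).2]
    exact l.eq g _ i.2,
    fun x i => l.nz _ ⟨i.1.2, (G_zero T (T.mi _ i.1.1).1 i.2).1⟩⟩

variable {C : Type} [NormedAddCommGroup C] [NormedSpace ℝ C] [FiniteDimensional ℝ C]

/-- transport of plain problems -/
def tq (p : Pp (X₁.W × ℝ) (V₁.W × C)) : Pp (X₂.W × ℝ) (V₂.W × C) :=
  ({z | z.1 ∈ T.U₂ ∧ ((T.i z.1).1, z.2) ∈ p.1}, fun z =>
    (T.G (T.i z.1).1 ((p.2 ((T.i z.1).1, z.2)).1, (T.i z.1).2), (p.2 ((T.i z.1).1, z.2)).2))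

theorem tq_zero {p : Pp (X₁.W × ℝ) (V₁.W × C)} {z : X₂.W × ℝ} (i : z.1 ∈ T.U₂)
    (e : (tq T p).2 z = 0) : p.2 ((T.i z.1).1, z.2) = 0 ∧ (T.i z.1).2 = 0 :=
  have := G_zero T (T.mi _ i).1 (congrArg Prod.fst e)
  ⟨Prod.ext this.1 (congrArg Prod.snd e :), this.2⟩

/-- the straight-line homotopy and its transport -/
theorem tq_hb {O K : Set (X₁.W × ℝ)} {f g : X₁.W × ℝ → V₁.W × C} (op : IsOpen O)
    (s : ∀ z ∈ O, z.1 ∈ T.U₁) (cf : ContinuousOn f O) (cg : ContinuousOn g O) (k : IsCompact K)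
    (sK : K ⊆ O) (z : ∀ a ∈ O, g a = 0 → a ∈ K) (e : ∀ a ∉ K, f a = g a) :
    (Okp (O, f) ∧ Okp (O, g) ∧ Sh.Hb (O, f) (O, g)) ∧
      Okp (tq T (O, f)) ∧ Okp (tq T (O, g)) ∧ Sh.Hb (tq T (O, f)) (tq T (O, g)) := by
  let h : ℝ × X₁.W × ℝ → V₁.W × C := fun w => (1 - w.1) • f w.2 + w.1 • g w.2
  have ch : ContinuousOn h (Prod.snd ⁻¹' O) :=
    ((continuousOn_const.sub continuousOn_fst).smul (cf.comp continuousOn_snd fun _ a => a)).add
      (continuousOn_fst.smul (cg.comp continuousOn_snd fun _ a => a))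
  have zh : ∀ t, ∀ a ∈ O, h (t, a) = 0 → a ∈ K := fun t a i j => by_contra fun n => n (z a i (by
    simp only [h, e a n, ← add_smul, sub_add_cancel, one_smul] at j; exact j))
  have h0 : ∀ a, h (0, a) = f a := fun a => by simp [h]
  have h1 : ∀ a, h (1, a) = g a := fun a => by simp [h]
  refine ⟨hb_fam h op rfl ch k sK zh (fun a _ => h0 a) fun a _ => h1 a,
    hb_fam (fun w => (tq T (O, fun a => h (w.1, a))).2 w.2) (op_tr T op) rfl ?_
      (zs_cp T k fun z i => s z (sK i)) (zs_sub T sK s) (fun t a i j => ?_)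
      (fun a _ => by simp only [tq, h0]) fun a _ => by simp only [tq, h1]⟩
  · have c : ContinuousOn (fun w : X₁.W × ℝ × ℝ => h (w.2.1, w.1, w.2.2)) {w | (w.1, w.2.2) ∈ O} :=
      ch.comp (Continuous.continuousOn (by fun_prop)) fun _ a => a
    exact ((ct_tr T c.fst).prodMk (ct_pl T c.snd)).comp
      (f := fun w : ℝ × X₂.W × ℝ => ((w.2.1, w.1, w.2.2) : X₂.W × ℝ × ℝ))
      (Continuous.continuousOn (by fun_prop)) fun _ a => a
  · have := tq_zero T i.1 j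
    exact mem_zs T i.1 this.2 (zh t _ i.2 this.1)

/-- the degree of a problem with zeros in a chart is preserved -/
theorem tq_dg (D : DEG) {p : Pp (X₁.W × ℝ) (V₁.W × C)} (h : Okp p) (h' : Okp (tq T p))
    (s : ∀ z ∈ p.1, z.1 ∈ T.U₁) {e : X₁.W → X₁.W} {U : Set X₁.W} {e' : X₁.W → X₁.W}
    (E : Oe e U e') (sU : U ⊆ T.U₁) (z : ∀ a ∈ p.1, p.2 a = 0 → a.1 ∈ U)
    (dA : Even (finrank ℝ (X₁.W × ℝ))) (dB : Even (finrank ℝ (V₁.W × C)))
    (dZ : Even (finrank ℝ Z.W)) (d2 : finrank ℝ X₁.W + finrank ℝ Z.W = finrank ℝ X₂.W) :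
    ∃ n, Dg0 p n ∧ Dg0 (tq T p) n := by
  have m : ∀ a, e a ∈ T.U₁ := fun a => sU (E.mem a)
  have c1 : Continuous fun a : X₁.W × ℝ => (e a.1, a.2) :=
    (E.ct.comp continuous_fst).prodMk continuous_snd
  have E1 : Oe (fun a : X₁.W × ℝ => (e a.1, a.2)) (Prod.fst ⁻¹' U) fun a => (e' a.1, a.2) :=
    ⟨c1, E.op.preimage continuous_fst,
      (E.ct'.comp continuousOn_fst fun _ i => i).prodMk continuousOn_snd, fun a => E.mem a.1,
      fun a => Prod.ext (E.li a.1) rfl, fun a i => Prod.ext (E.ri a.1 i) rfl⟩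
  have ij : ∀ (a : X₁.W) (w : Z.W), T.i (T.j (e a, w)) = (e a, w) := fun a w => (T.mj _ (m a)).2
  have E2 : Oe (fun w : (X₁.W × ℝ) × Z.W => (T.j (e w.1.1, w.2), w.1.2))
      {z : X₂.W × ℝ | z.1 ∈ T.U₂ ∧ ((T.i z.1).1, z.2) ∈ Prod.fst ⁻¹' U}
      fun z => ((e' (T.i z.1).1, z.2), (T.i z.1).2) :=
    ⟨(T.cj.comp_continuous ((E.ct.comp continuous_fst.fst).prodMk continuous_snd)
        fun w => ⟨m _, trivial⟩).prodMk continuous_fst.snd, op_tr T E1.op,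
      (ct_pl T E1.ct').prodMk ((ct_i T).mono fun _ i => i.1).snd,
      fun w => ⟨(T.mj _ (m _)).1, by simp only [ij]; exact E.mem _⟩,
      fun w => by simp only [ij, E.li], fun w i => Prod.ext (by
        change T.j (e (e' (T.i w.1).1), (T.i w.1).2) = w.1
        rw [E.ri _ i.2]; exact (T.mi _ i.1).2) rfl⟩
  let q := cm p univ fun a : X₁.W × ℝ => (e a.1, a.2)
  let K := (fun a : X₁.W × ℝ => (e' a.1, a.2)) '' {a | a ∈ p.1 ∧ p.2 a = 0}
  have kK : IsCompact K := h.cp.image_of_continuousOn (E1.ct'.mono fun a i => z a i.1 i.2)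
  have sK : K ⊆ q.1 := by
    rintro _ ⟨a, i, rfl⟩
    exact ⟨trivial, Set.mem_of_eq_of_mem (E1.ri a (z a i.1 i.2)) i.1⟩
  have zK : ∀ a ∈ q.1, q.2 a = 0 → a ∈ K := fun a i j => ⟨_, ⟨i.2, j⟩, E1.li a⟩
  have oq : IsOpen q.1 := isOpen_univ.inter (h.op.preimage c1)
  have cq : ContinuousOn q.2 q.1 := h.ct.comp c1.continuousOn fun _ i => i.2
  have hq : Okp q := ⟨oq, cq, cp_of_sub kK sK cq zK⟩
  have c2 : ContinuousOn (fun w : (X₁.W × ℝ) × Z.W => q.2 w.1) (st q Z.W).1 :=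
    cq.comp continuousOn_fst fun _ i => i
  have k2 : IsCompact (K ×ˢ ({0} : Set Z.W)) := kK.prod isCompact_singleton
  have hs : Okp (st q Z.W) := ⟨oq.preimage continuous_fst, c2.prodMk continuousOn_snd,
    cp_of_sub k2 (fun w i => sK i.1) (c2.prodMk continuousOn_snd) fun w i j =>
      ⟨zK _ i (congrArg Prod.fst j), congrArg Prod.snd j⟩⟩
  let G0 : (V₁.W × Z.W) ≃L[ℝ] V₂.W :=
    (LinearEquiv.ofBijective (T.G (e 0)).toLinearMap (T.bG _ (m 0))).toContinuousLinearEquiv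
  let L : ((V₁.W × C) × Z.W) ≃L[ℝ] (V₂.W × C) :=
    (((ContinuousLinearEquiv.prodAssoc ℝ _ _ _).trans ((ContinuousLinearEquiv.refl ℝ _).prodCongr
      (ContinuousLinearEquiv.prodComm ℝ _ _))).trans
        (ContinuousLinearEquiv.prodAssoc ℝ _ _ _).symm).trans
      (G0.prodCongr (ContinuousLinearEquiv.refl ℝ _))
  have hL : ∀ w, L w = (T.G (e 0) (w.1.1, w.2), w.1.2) := fun w => rfl
  obtain ⟨n, hn⟩ := D.ex q dA dB
  obtain ⟨a, b, c⟩ := hb_fam (p := tg (st q Z.W) L)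
    (q := cm (tq T p) univ fun w : (X₁.W × ℝ) × Z.W => (T.j (e w.1.1, w.2), w.1.2))
    (fun w => (T.G (e (w.1 • w.2.1.1)) ((q.2 w.2.1).1, w.2.2), (q.2 w.2.1).2)) hs.op
    (Set.ext fun w => by
      simp only [cm, tq, tg, st, q, mem_ofPred_eq, ij, (T.mj (e w.1.1, w.2) (m _)).1, true_and, mem_univ])
    (((T.cG.comp_continuous (E.ct.comp (by fun_prop)) fun w => m _).continuousOn.clm_apply
      ((c2.comp continuousOn_snd fun _ i => i).fst.prodMk continuousOn_snd.snd)).prodMk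
      (c2.comp continuousOn_snd fun _ i => i).snd) k2 (fun w i => sK i.1)
    (fun t w i j => have := G_zero T (m _) (congrArg Prod.fst j)
      ⟨zK _ i (Prod.ext this.1 (congrArg Prod.snd j :)), this.2⟩)
    (fun w _ => by simp only [zero_smul]; rfl)
    fun w _ => by simp only [one_smul, cm, tq, q, ij]
  have d3 : finrank ℝ ((X₁.W × ℝ) × Z.W) = finrank ℝ (X₂.W × ℝ) := by
    simp only [finrank_prod, finrank_self]; omega
  refine ⟨n, D.emb _ _ _ p n E1 rfl dA h z hn, D.emb _ _ _ _ n E2 d3 ?_ h' (fun w i j => ?_)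
    (D.hb _ _ n a b c (D.tg L _ n hs (D.st q n dA dB dZ hq hn)))⟩
  · rw [← d3, finrank_prod]; exact dA.add dZ
  · exact ⟨i.1, z _ i.2 (tq_zero T i.1 j).1⟩

theorem adm_dim {m : ℕ} {X V : Rep Γ} (h : Adm m X V) : finrank ℝ X.W = m + finrank ℝ V.W := by
  obtain ⟨A⟩ := h
  rw [A.e.toLinearEquiv.finrank_eq]
  exact (finrank_prod (R := ℝ) (M := Fin m → ℝ) (M' := V.W)).trans (by simp)

theorem th_ok [CompactSpace Γ] {χ : Γ →* Circle} (hχ : Continuous χ) {X V : Rep Γ} {P : PB X.ls V}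
    (h : P.Fr) {k : X.W → Fin 3 → ℂ} (l : P.Lift (UU χ hχ 3) k) (u : US 3) : Okp (th P k u.1) :=
  have a : (Tc χ hχ 3 P k).Ok := PB.Th_ok h l continuous_subtype_val (fun _ _ => rfl) fun u z => by
    have := u.2
    simp [Un1, show u.1 = 0 from z] at this
  have c : IsClosedEmbedding fun x : X.W × ℝ => (u, x) :=
    Function.LeftInverse.isClosedEmbedding (f := Prod.snd) (fun _ => rfl) continuous_snd
      (continuous_const.prodMk continuous_id)
  ⟨a.op.preimage c.continuous, a.ct.comp c.continuous.continuousOn fun _ i => i,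
    c.isCompact_preimage a.cp⟩

end Pu

open Pu in
/-- **push-forward** -/
theorem push (cle : CLE) (dv : DVAL) (D : DEG) (pe : PERT) : PUSH := by
  intro J hJ Γ _ _ _ _ χ X₁ V₁ Z X₂ V₂ gq a1 a2 c1 c2 eV eZ T hc P hP sP
  obtain ⟨e, U, e', n, δ', δ, E, sU, hn, cδ', cδ, hδ⟩ := hc
  have d1 := adm_dim a1
  have d2 := adm_dim a2
  have d3 : finrank ℝ V₁.W + finrank ℝ Z.W = finrank ℝ V₂.W := by
    rw [← finrank_prod]
    exact (LinearEquiv.ofBijective (T.G (e 0)).toLinearMap (T.bG _ (sU (E.mem 0)))).finrank_eq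
  have dC : finrank ℝ (Fin 3 → ℂ) = 6 := by simp [finrank_pi_fintype]
  obtain ⟨P', k, H, f', eO, eH, oH, l0, l1, lk⟩ := cle χ 3 X₁ V₁ (by omega) P hP
  have sP' : P'.O ⊆ T.U₁ := eO ▸ sP
  have b1 : P.Bd P' := ⟨hP, f', H, oH, l0, l1⟩
  have b2 : (T.tr P).Bd (T.tr P') := ⟨tr_fr T hP sP, tr_fr T f' sP', trf T H,
    trf_ok T oH fun z i => sP (show z ∈ Prod.fst ⁻¹' P.O from eH ▸ i), tr_le T l0, tr_le T l1⟩
  let u : US 3 := ⟨Pi.single 0 1, by simp [Un1, Fin.sum_univ_three]⟩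
  have o := th_ok (cc χ) f' lk u
  obtain ⟨f, K, kK, sK, cf, zK, eK, zf⟩ := pe (th P' k u.1) (Prod.fst ⁻¹' U)
    (fun a => (δ' a.1, a.2)) (fun y : (Fin n → ℝ) × ℝ => (δ y.1, y.2))
    (by simp only [finrank_prod, finrank_self, dC, finrank_fin_fun]; omega) o
    (E.op.preimage continuous_fst)
    ((cδ'.comp continuousOn_fst fun a i => sP' i).prodMk continuousOn_snd)
    ((cδ.comp continuousOn_fst (by
      rintro _ ⟨a, i, rfl⟩; exact ⟨a.1, ⟨sP' i.1, i.2⟩, rfl⟩)).prodMk continuousOn_snd)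
    fun a i => Prod.ext (hδ _ ⟨sP' i.1, i.2⟩) rfl
  obtain ⟨⟨p1, p2, p3⟩, q1, q2, q3⟩ := tq_hb T o.op (fun z i => sP' i) cf o.ct kK sK zK eK
  obtain ⟨m, m1, m2⟩ := tq_dg T D p1 q1 (fun z i => sP' i) E sU zf
    (by rw [finrank_prod, finrank_self, d1, add_right_comm]; exact Even.add (by decide) eV)
    (by rw [finrank_prod, dC]; exact eV.add (by decide)) eZ (by omega)
  have r1 := dv J hJ χ X₁ V₁ gq a1 c1 P' k u m f' lk (D.hb _ _ m p1 p2 p3 m1)
  have r2 := dv J hJ χ X₂ V₂ gq a2 c2 (T.tr P') _ u m b2.2.1 (tr_lift T lk) (D.hb _ _ m q1 q2 q3 m2)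
  refine ⟨b2.1, ?_⟩
  rw [J.bd χ _ _ gq a1 _ _ b1, J.bd χ _ _ gq a2 _ _ b2]
  rcases r1 with r1 | r1 <;> rcases r2 with r2 | r2 <;> simp [r1, r2]

end Crest.Agent.N218.D3

end
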