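import Crest.Agent.N218.D3.Geo
import Crest.Agent.N218.D3.Evd
import Crest.Agent.N218.D3.Push_Mg
import Crest.Agent.N218.D3.Cel
import Crest.Agent.N218.D3.Cmp
import Crest.Agent.N218.D3.Nuk
import Crest.Agent.N218.D3.Hbt
import Crest.Agent.N218.D3.Hopf
import Crest.Agent.N218.D3.Opn
import Crest.Agent.N218.D3.Rep
import Crest.Agent.N218.D3.Zl
import Crest.Agent.N218.K.Denl

/-!
# Row 218, block D3 (helper76): the unconditional K-theory leaves
-/

set_option autoImplicit false

namespace Crest.Agent.N218.D3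
open K

theorem sph0 : SPH := sph thom
theorem opn0 : OPN := opn sph0
theorem deg0 : DEG := deg thom sph0 hbt cmp' opn0
theorem nuk0 : NUK := nuk thom sph0 hbt cmp' opn0 eht
theorem hopf0 : HOPF := hopf sph0 eht nuk0
theorem push0 : PUSH := push cle (dval thom kln (denl thom kln) (oex thom)) deg0 pert

theorem d30 (a : HTP) (b : PLB) (h2 : LBL) (h3 : PFR) (h4 : CHB) (h5 : ESH) (h6 : EIS) (h7 : DIS)
    (h8 : TPD) : D3T := d3 push0 (evd cbd a b) rep h2 h3 h4 h5 h6 h7 h8 cel

end Crest.Agent.N218.D3
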