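import Crest.Agent.N218.D3.Ev0
import Crest.Agent.N218.D3.Hbt
import Crest.Agent.N218.D3.Nuk
import Crest.Agent.N218.K.Eht
import Crest.Agent.N218.Th.Fin
import Crest.Agent.N218.D3.Geo
import Crest.Agent.N218.D3.Loc
import Crest.Agent.N218.Sk.Stb
import Crest.Agent.N218.Pc.Gen
import Crest.Agent.N218.P.Kit
import Crest.Agent.N218.D3.Fin0
import Crest.Agent.N218.D3.Esh
import Crest.Agent.N218.D3.Hopf

-- ▼ part N218/D3/Htp
section

/-!
# Row 218, block D3 (helper94): the classifying map of a pull-back is a composite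
-/

set_option autoImplicit false
set_option linter.unusedVariables false
set_option linter.unusedSectionVars false

open Set Module OnePoint unitInterval

noncomputable section

namespace Crest.Agent.N218.D3
open K

namespace Ht
variable {Γ : Type} [Group Γ] [TopologicalSpace Γ] [CompactSpace Γ] {A B : Type}
  [NormedAddCommGroup A] [NormedSpace ℝ A] [FiniteDimensional ℝ A] [NormedAddCommGroup B]
  [NormedSpace ℝ B] [FiniteDimensional ℝ B] {Y : GS Γ} {M W : Rep Γ} {c : Pp A B}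
  {ξ : Unit × (A × ℝ) → ℝ}

theorem ok_st (h : Okp c) : Okp (st c ℝ) := by
  refine ⟨h.op.preimage continuous_fst,
    (h.ct.comp continuous_fst.continuousOn fun _ o => o).prodMk continuous_snd.continuousOn, ?_⟩
  have e : {a | a ∈ (st c ℝ).1 ∧ (st c ℝ).2 a = 0} = {a | a ∈ c.1 ∧ c.2 a = 0} ×ˢ {0} := by
    ext z; simp [st, and_assoc]
  rw [e]; exact h.cp.prod isCompact_singleton

/-- the rescaled label map -/
def J (c : Pp A B) (s : ℝ) (z : (A × M.W) × ℝ) : (B × M.W) × ℝ :=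
  ((s⁻¹ • c.2 z.1.1, z.1.2), s⁻¹ • z.2)

theorem gC_zero (y : Y.Z) (w : (A × M.W) × ℝ) (h : ξ ((), (w.1.1, w.2)) = 0) :
    gC Y M c ξ (y, w) = ∞ := by
  have : (fp (st c ℝ)).col ξ ((), (w.1.1, w.2)) = ∞ := if_pos h
  exact congrArg (fun u => OnePoint.map (fun w : (B × ℝ) × M.W => ((w.1.1, w.2), w.1.2))
    (wdg (u, (w.1.2 : OnePoint M.W)))) this

theorem gC_ne (y : Y.Z) (w : (A × M.W) × ℝ) (h : ξ ((), (w.1.1, w.2)) ≠ 0) :
    gC Y M c ξ (y, w) = OnePoint.some (J c (ξ ((), (w.1.1, w.2))) w) := by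
  have : (fp (st c ℝ)).col ξ ((), (w.1.1, w.2)) =
    OnePoint.some ((ξ ((), (w.1.1, w.2)))⁻¹ • (c.2 w.1.1, w.2) : B × ℝ) := if_neg h
  exact congrArg (fun u => OnePoint.map (fun w : (B × ℝ) × M.W => ((w.1.1, w.2), w.1.2))
    (wdg (u, (w.1.2 : OnePoint M.W)))) this

theorem gC_eq {y : Y.Z} {w : (A × M.W) × ℝ} {n : (B × M.W) × ℝ}
    (h : gC Y M c ξ (y, w) = OnePoint.some n) :
    ξ ((), (w.1.1, w.2)) ≠ 0 ∧ n = J c (ξ ((), (w.1.1, w.2))) w := by
  have z : ξ ((), (w.1.1, w.2)) ≠ 0 := fun z => infty_ne_coe n ((gC_zero y w z).symm.trans h)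
  exact ⟨z, coe_injective (h.symm.trans (gC_ne y w z))⟩

theorem pm_gC (h : Okp c) (hξ : (fp (st c ℝ)).Cut ξ) :
    Pm Y (XT A M).ls.xr (XT B M).ls.xr (gC Y M c ξ) := by
  let e : ((B × ℝ) × M.W) ≃ₜ ((B × M.W) × ℝ) :=
    ⟨⟨fun w => ((w.1.1, w.2), w.1.2), fun w => ((w.1.1, w.2), w.1.2), fun _ => rfl, fun _ => rfl⟩,
      by fun_prop, by fun_prop⟩
  have c1 : Continuous fun z : Y.Z × (A × M.W) × ℝ => (((), (z.2.1.1, z.2.2)) : Unit × (A × ℝ)) := by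
    fun_prop
  have c2 : Continuous fun z : Y.Z × (A × M.W) × ℝ => z.2.1.2 := by fun_prop
  refine ⟨e.onePointCongr.continuous.comp (continuous_wdg.comp
    (((hξ.pm (ok_st h).fp).ct.comp c1).prodMk (continuous_coe.comp c2))), fun K' k' => ?_,
    fun γ y w => ?_⟩
  · have c3 : Continuous fun z : (B × M.W) × ℝ => z.1.2 := by fun_prop
    have c4 : Continuous fun z : (Unit × (A × ℝ)) × M.W => ((z.1.2.1, z.2), z.1.2.2) := by fun_prop
    refine ⟨_, (hξ.cp.prod (k'.image c3)).image c4, fun p w w' n a i => n ?_⟩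
    obtain ⟨z, rfl⟩ := gC_eq a
    exact ⟨(((), (w.1.1, w.2)), w.1.2), ⟨subset_tsupport _ z, _, i, rfl⟩, rfl⟩
  · by_cases z : ξ ((), (w.1.1, w.2)) = 0
    · exact (gC_zero (Y.act γ y) ((XT A M).ls.xr.act γ w) z).trans
        (congrArg ((XT B M).ls.xr.sph.act γ) (gC_zero y w z)).symm
    · exact (gC_ne (Y.act γ y) ((XT A M).ls.xr.act γ w) z).trans
        (congrArg ((XT B M).ls.xr.sph.act γ) (gC_ne y w z)).symm

theorem cut_min (hξ : (fp (st c ℝ)).Cut ξ) : (fp (st c ℝ)).Cut fun x => min (ξ x) 1 := by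
  have s : tsupport (fun x => min (ξ x) 1) ⊆ tsupport ξ := closure_mono fun x m z =>
    m (min_eq_left (z ▸ zero_le_one) |>.trans z)
  exact ⟨hξ.ct.min continuous_const, fun x => le_min (hξ.nn x) zero_le_one,
    hξ.cp.of_isClosed_subset (isClosed_tsupport _) s, s.trans hξ.sub,
    fun x o z => lt_min (hξ.pos x o z) one_pos, fun g x => congrArg (min · 1) (hξ.inv g x)⟩

/-- the scale -/
def sca (ξ : Unit × (A × ℝ) → ℝ) (τ : I) (a : A × ℝ) : ℝ := (1 - τ) + τ * ξ ((), a)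

theorem ht_scale {Bx : Set B} (L : Lab c Bx) (hξ : (fp (st c ℝ)).Cut ξ) (h1 : ∀ x, ξ x ≤ 1)
    {Q : FP Y (XT B M).ls.xr W} (q : Q.Ok) (hB : ∀ z ∈ Q.O, z.2.1.1 ∈ Bx)
    (P0 P1 : FP Y (XT A M).ls.xr W)
    (o0 : ∀ y (w : (A × M.W) × ℝ), (y, w) ∈ P0.O ↔ w.1.1 ∈ c.1 ∧ (y, J c 1 w) ∈ Q.O)
    (f0 : ∀ y (w : (A × M.W) × ℝ), P0.f (y, w) = Q.f (y, J c 1 w))
    (o1 : ∀ y (w : (A × M.W) × ℝ), (y, w) ∈ P1.O ↔ ξ ((), (w.1.1, w.2)) ≠ 0 ∧
      (y, J c (ξ ((), (w.1.1, w.2))) w) ∈ Q.O)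
    (f1 : ∀ y (w : (A × M.W) × ℝ), P1.f (y, w) = Q.f (y, J c (ξ ((), (w.1.1, w.2))) w)) :
    P0.hm.Ht P1.hm := by
  let T := I × (Y.Z × (A × M.W) × ℝ)
  let s : T → ℝ := fun p => sca ξ p.1 (p.2.2.1.1, p.2.2.2)
  let j : T → Y.Z × (B × M.W) × ℝ := fun p => (p.2.1, J c (s p) p.2.2)
  let U : Set T := {p | p.2.2.1.1 ∈ c.1 ∧ s p ≠ 0}
  have cx : Continuous ξ := hξ.ct
  have cs : Continuous fun p : I × (A × ℝ) => sca ξ p.1 p.2 := by unfold sca; fun_prop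
  have cs' : Continuous s := cs.comp (f := fun p : T => (p.1, (p.2.2.1.1, p.2.2.2))) (by fun_prop)
  have ca : Continuous fun p : T => p.2.2.1.1 := by fun_prop
  have oU : IsOpen U := (L.ok.op.preimage ca).inter (isOpen_ne_fun cs' continuous_const)
  have ci : ContinuousOn (fun p => (s p)⁻¹) U := cs'.continuousOn.inv₀ fun p m => m.2
  have cj : ContinuousOn j U := (by fun_prop : Continuous fun p : T => p.2.1).continuousOn.prodMk
    (((ci.smul (L.ok.ct.comp ca.continuousOn fun p m => m.1)).prodMk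
      (by fun_prop : Continuous fun p : T => p.2.2.1.2).continuousOn).prodMk
      (ci.smul (by fun_prop : Continuous fun p : T => p.2.2.2).continuousOn))
  have s0 : ∀ τ a, 0 ≤ sca ξ τ a := fun τ a =>
    add_nonneg (sub_nonneg.2 τ.2.2) (mul_nonneg τ.2.1 (hξ.nn _))
  have s1 : ∀ τ a, sca ξ τ a ≤ 1 := fun τ a => by
    have := mul_le_mul_of_nonneg_left (h1 ((), a)) τ.2.1
    unfold sca; linarith
  have e0 : ∀ a, sca ξ 0 a = 1 := fun a => by simp [sca]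
  have e1 : ∀ a, sca ξ 1 a = ξ ((), a) := fun a => by simp [sca]
  refine (FP.ht_of P0 P1 (U ∩ j ⁻¹' Q.O) (fun p => Q.f (j p)) (cj.isOpen_inter_preimage oU q.op)
    (fun g t x m => ⟨m.1, q.inv g _ m.2⟩) (q.ct.comp (cj.mono inter_subset_left) fun _ m => m.2)
    (fun g t x m => q.eq g _ m.2) ?_ (fun x => ?_) (fun x _ => ?_) (fun x => ?_)
    fun x _ => ?_).2.2
  · let K0 : Set (Y.Z × (B × M.W) × ℝ) := {x ∈ Q.O | Q.f x = 0}
    have k0 : IsCompact K0 := q.cp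
    let φ : ℝ × (Y.Z × (B × M.W) × ℝ) → B × ℝ := fun p => p.1 • (p.2.2.1.1, p.2.2.2)
    have k1 : IsCompact (φ '' Icc 0 1 ×ˢ K0) := (isCompact_Icc.prod k0).image (by fun_prop)
    have k2 := L.pr _ (by
      rintro _ ⟨_, ⟨p, m, rfl⟩, rfl⟩
      exact L.sc.smul_mem (hB _ m.2.1) m.1.1 m.1.2) (k1.image continuous_fst)
    let S : Set ((I × (A × ℝ)) × (Y.Z × (B × M.W) × ℝ)) :=
      (univ ×ˢ ({a | a ∈ c.1 ∧ c.2 a ∈ Prod.fst '' (φ '' Icc 0 1 ×ˢ K0)} ×ˢ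
        (Prod.snd '' (φ '' Icc 0 1 ×ˢ K0)))) ×ˢ K0
    have k3 : IsCompact S := (isCompact_univ.prod (k2.prod (k1.image continuous_snd))).prod k0
    let ψ : (I × (A × ℝ)) × (Y.Z × (B × M.W) × ℝ) → B × ℝ := fun p =>
      (c.2 p.1.2.1, p.1.2.2) - sca ξ p.1.1 p.1.2 • (p.2.2.1.1, p.2.2.2)
    have cψ : ContinuousOn ψ S :=
      ((L.ok.ct.comp continuous_fst.snd.fst.continuousOn fun p m => m.1.2.1.1).prodMk
        continuous_fst.snd.snd.continuousOn).sub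
        ((cs.comp continuous_fst).smul (by fun_prop)).continuousOn
    have k4 : IsCompact (S ∩ ψ ⁻¹' {0}) := k3.of_isClosed_subset
      (cψ.preimage_isClosed_of_isClosed k3.isClosed isClosed_singleton) inter_subset_left
    have k5 := k4.image (f := fun p => ((p.1.1, (p.2.1, ((p.1.2.1, p.2.2.1.2), p.1.2.2))) : T))
      (by fun_prop)
    refine (congrArg IsCompact (Set.ext (α := T) ?_)).mpr k5
    refine fun p => ⟨?_, ?_⟩
    · obtain ⟨τ, y, ⟨a, m⟩, t⟩ := p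
      rintro ⟨⟨⟨u, n⟩, o⟩, z⟩
      have n' : sca ξ τ (a, t) ≠ 0 := n
      have e : φ (sca ξ τ (a, t), j (τ, y, (a, m), t)) = (c.2 a, t) :=
        Prod.ext (smul_inv_smul₀ n' _) (smul_inv_smul₀ n' _)
      have i : (c.2 a, t) ∈ φ '' Icc 0 1 ×ˢ K0 :=
        ⟨(sca ξ τ (a, t), j (τ, y, (a, m), t)), ⟨⟨s0 _ _, s1 _ _⟩, o, z⟩, e⟩
      exact ⟨((τ, (a, t)), j (τ, y, (a, m), t)),
        ⟨⟨⟨trivial, ⟨u, _, i, rfl⟩, _, i, rfl⟩, o, z⟩, sub_eq_zero.2 e.symm⟩, rfl⟩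
    · rintro ⟨⟨⟨τ, a, t⟩, y, ⟨b, m⟩, t''⟩, ⟨⟨⟨-, ⟨u, -⟩, -⟩, o⟩, e⟩, rfl⟩
      have e' : (c.2 a, t) = sca ξ τ (a, t) • (b, t'') := sub_eq_zero.1 e
      have n : sca ξ τ (a, t) ≠ 0 := fun z => by
        rw [z, zero_smul] at e'
        have p : 0 < ξ ((), (a, t)) := hξ.pos ((), (a, t)) u e'
        have t0 := τ.2.1
        have t1 := τ.2.2
        unfold sca at z
        rcases t0.eq_or_lt with v | v
        · rw [← v] at z; norm_num at z
        · nlinarith [mul_pos v p]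
      have e2 : j (τ, y, (a, m), t) = (y, (b, m), t'') :=
        Prod.ext rfl (Prod.ext (Prod.ext ((inv_smul_eq_iff₀ n).2 (congrArg Prod.fst e')) rfl)
          ((inv_smul_eq_iff₀ n).2 (congrArg Prod.snd e')))
      exact ⟨⟨⟨u, n⟩, show j _ ∈ Q.O from e2 ▸ o.1⟩, show Q.f (j _) = 0 from e2 ▸ o.2⟩
  · refine (o0 x.1 x.2).trans ?_
    change _ ↔ (_ ∧ sca ξ 0 _ ≠ 0) ∧ (x.1, J c (sca ξ 0 _) x.2) ∈ Q.O
    rw [e0]; exact and_congr_left fun _ => (and_iff_left one_ne_zero).symm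
  · refine (f0 x.1 x.2).trans ?_
    change _ = Q.f (x.1, J c (sca ξ 0 _) x.2)
    rw [e0]
  · refine (o1 x.1 x.2).trans ?_
    change _ ↔ (_ ∧ sca ξ 1 _ ≠ 0) ∧ (x.1, J c (sca ξ 1 _) x.2) ∈ Q.O
    rw [e1]; exact and_congr_left fun _ => (and_iff_right_of_imp fun n => hξ.mem n).symm
  · refine (f1 x.1 x.2).trans ?_
    change _ = Q.f (x.1, J c (sca ξ 1 _) x.2)
    rw [e1]

theorem J_one (w : (A × M.W) × ℝ) : J c 1 w = ((c.2 w.1.1, w.1.2), w.2) := by simp [J]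

end Ht

theorem htp (hC : CMP) : HTP := by
  intro Γ _ _ _ χ hχ r A _ _ _ B _ _ _ M V c Bx L P k hP hB hc hk
  obtain ⟨ξ0, c0⟩ := (Ht.ok_st L.ok).fp.exists_cut
  have cξ := Ht.cut_min c0
  have pm := Ht.pm_gC (Y := Sp χ hχ r) (M := M) L.ok cξ
  obtain ⟨C, hr⟩ := pm.exists_rg
  have q := Tc_ok χ hχ r hP hk
  refine ⟨_, C, cξ, hr, ⟨hk.ct.comp ((L.ok.ct.comp continuous_fst.continuousOn fun _ m => m.1).prodMk
    continuous_snd.continuousOn) fun _ m => m.2, fun g x m => hk.eq g (c.2 x.1, x.2) m.2,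
    fun x m => hk.nz _ ⟨m.1.2, m.2⟩⟩, ?_⟩
  let P1 : FP (Sp χ hχ r) (XT A M).ls.xr (V.prod (UU χ hχ r)) :=
    ⟨{x | min (ξ0 ((), (x.2.1.1, x.2.2))) 1 ≠ 0 ∧
      (x.1, Ht.J c (min (ξ0 ((), (x.2.1.1, x.2.2))) 1) x.2) ∈ (Tc χ hχ r P k).O},
      fun x => (Tc χ hχ r P k).f (x.1, Ht.J c (min (ξ0 ((), (x.2.1.1, x.2.2))) 1) x.2)⟩
  refine (Ht.ht_scale L cξ (fun _ => min_le_right _ _) q (fun z m => hB _ m) _ P1
    (fun y w => by rw [Ht.J_one]; rfl) (fun y w => by rw [Ht.J_one]; rfl) (fun _ _ => Iff.rfl)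
    fun _ _ => rfl).tr (hC _ _ _ _ _ C _ P1 pm hr q (fun x => ?_) fun x n a o => ?_).2
  · exact ⟨fun m => ⟨_, Ht.gC_ne x.1 x.2 m.1, m.2⟩, fun ⟨n, a, o⟩ =>
      ⟨(Ht.gC_eq a).1, (Ht.gC_eq a).2 ▸ o⟩⟩
  · rw [(Ht.gC_eq a).2]; rfl

end Crest.Agent.N218.D3

end
end

-- ▼ part N218/D3/Plb
section

/-! Row 218, block D3 (helper33): the Hopf class over `Y`, stabilised by `M`. -/

set_option autoImplicit false
set_option linter.unusedSectionVars false

open Set Module OnePoint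

noncomputable section

namespace Crest.Agent.N218.D3
open K Dgk Nk

namespace Pl
section ex
variable {X : Type} [TopologicalSpace X] {A B S : Ex X} {F : H1 A B} {D : SD A S} {l : KX B.E}
  {ρ : KX X} {x : KX S.E}

theorem ecl_eig (k : Ecl F D l ρ x) : ps _ l = B.sm ρ l := by
  obtain ⟨r, μ, e1, e2⟩ := k
  have := congrArg (KA (Cn.res F)) e2
  rw [map_sub, map_mul, Orb.KA_ps, e1, ka_ka _ _ (cR B.p) (fun _ => rfl),
    ka_ka _ _ (cR (S.s.comp B.p)) (fun _ => rfl), ← pull_ka, ← pull_ka, pull_comp,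
    show pull S.s x = 0 from r, map_zero] at this
  exact sub_eq_zero.1 this

theorem ecl_null (k : Ecl F D l ρ x) (hl : B.Rd l) : pull F.f l = 0 := by
  obtain ⟨-, μ, e1, -⟩ := k
  let j : unitInterval → C(A.E, A.E × unitInterval) := fun t => ⟨fun e => (e, t), by fun_prop⟩
  let H : (j 0).Homotopy (j 1) := ⟨⟨fun z => (z.2, z.1), by fun_prop⟩, fun _ => rfl, fun _ => rfl⟩
  let φ : Cn F →ₐ[ℂ] C(A.E × unitInterval, ℂ) := (AlgHom.fst ℂ _ _).comp (Cn F).val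
  have a : pull (j 0) (KA φ μ) = pull F.f l := by
    rw [← e1]
    exact ka_sq _ _ _ _ (fun u => ContinuousMap.ext fun e => u.2.1 e) μ
  have b : pull (j 1) (KA φ μ) = pull (B.s.comp A.p) l := by
    rw [← e1]
    exact ka_sq _ _ _ _ (fun u => ContinuousMap.ext fun e => u.2.2.1 e) μ
  rw [← a, pull_htpy H, b, pull_comp, show pull B.s l = 0 from hl, map_zero]
end ex

variable {Γ : Type} [Group Γ] [TopologicalSpace Γ]

theorem c1 : Continuous (1 : Γ →* Unit) := continuous_const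

variable (Γ) in
/-- a space with the trivial action -/
abbrev tr (W : LS Unit) : LS Γ := W.res 1 c1

/-- the shuffle -/
def shf (A : Type) [NormedAddCommGroup A] [NormedSpace ℝ A] [FiniteDimensional ℝ A] (M : Rep Γ) :
    (XT A M).ls.xr.Iso ((tr Γ (tv (A × ℝ))).prod M.ls) :=
  ⟨⟨⟨fun z : (A × M.W) × ℝ => (((z.1.1, z.2), z.1.2) : (A × ℝ) × M.W),
    fun z : (A × ℝ) × M.W => (((z.1.1, z.2), z.1.2) : (A × M.W) × ℝ), fun _ => rfl, fun _ => rfl⟩,
    (continuous_fst.fst.prodMk continuous_snd).prodMk continuous_fst.snd,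
    (continuous_fst.fst.prodMk continuous_snd).prodMk continuous_fst.snd⟩, fun _ _ => rfl⟩

theorem shf_shf {A : Type} [NormedAddCommGroup A] [NormedSpace ℝ A] [FiniteDimensional ℝ A]
    (M : Rep Γ) (z : OnePoint ((A × ℝ) × M.W)) : OnePoint.map (shf A M).e
      (OnePoint.map (fun w : (A × ℝ) × M.W => ((w.1.1, w.2), w.1.2)) z) = z := by
  induction z using OnePoint.rec <;> rfl

variable [CompactSpace Γ] (Y : GS Γ)

/-- the projection to the point -/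
def pj : C(Y.Z, P0.Z) := .const _ ()

theorem pj_eqv : Eqv (1 : Γ →* Unit) (pj Y) := fun _ _ => rfl

/-- the map of sphere bundles -/
abbrev pm (W : LS Unit) := ((pj_eqv Y).eqm c1 W).hm

variable {Y}

theorem pm_pl {V W : LS Unit} {g : P0.Z × V.Z → OnePoint W.Z} (h : Pm P0 V W g) :
    Pm Y (tr Γ V) (tr Γ W) fun z => g ((), z.2) := by
  refine ⟨h.ct.comp (continuous_const.prodMk continuous_snd), fun K' k => (h.pr K' k).imp
    fun K a => ⟨a.1, fun _ => a.2 ()⟩, fun γ y w => (h.eq () () w).trans ?_⟩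
  induction g ((), w) using OnePoint.rec <;> rfl

/-- the pull-back of the defect to `Y` -/
theorem ecl_pl {V W : LS Unit} {g : P0.Z × V.Z → OnePoint W.Z} {F0 : H1 (Sb P0 V) (Sb P0 W)}
    (r0 : Rg F0 g) {F : H1 (Sb Y (tr Γ V)) (Sb Y (tr Γ W))} (r : Rg F fun z => g ((), z.2))
    {l : KS P0 W} {k : ℕ} {x : KS P0 V.xr} (e : Ecl F0 (sd P0 V) l (3 ^ k) x) :
    Ecl F (sd Y (tr Γ V)) (pull (pm Y W).f l) (3 ^ k) (pull (pm Y V.xr).f x) := by
  have := Orb.ecl_pull (pm Y V) (pm Y W) (pm Y V.xr) (F' := F) (sb_ind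
    (fun y => (congrArg (pm Y W).f (F.f_inf y)).trans (F0.f_inf _).symm)
    fun y w => (congrArg (pm Y W).f (r y w)).trans (r0 _ w).symm) (D' := sd Y (tr Γ V))
    (fun z t => by obtain ⟨y, w, rfl⟩ := pt_surj z; rfl) e
  rwa [map_pow, map_ofNat] at this

theorem ut_pl {W : LS Unit} {l : KS P0 W} (h : UT P0 W l) : UT Y (tr Γ W) (pull (pm Y W).f l) :=
  h.pull c1 (pj_eqv Y) ((pj_eqv Y).mp c1 W)

end Pl

open Pl in
/-- **the Hopf class over `Y`** -/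
theorem plb : PLB := by
  intro Γ _ _ _ Y A _ _ _ B _ _ _ M c ⟨a, hA⟩ ⟨b, hB⟩ hc ⟨k, g, t, ν, tg, tt, hν, et, x⟩ ξ C cut r
    l ρ tl el
  have ok := fp_ok (ok_st (C := ℝ) hc)
  obtain ⟨F0, r0, p0⟩ := cut.rp ok
  have m := pm_pl (Y := Y) (cut.pm ok)
  obtain ⟨F1, r1⟩ := m.exists_rg
  obtain ⟨F2, r2⟩ := (pm_stg M.ls m).exists_rg
  have x1 := ecl_pl r0 r1 (eht _ _ _ _ _ _ (p0.ht_hm ok) x)
  obtain ⟨g0, u0, -⟩ := ut_even thom P0 (B × ℝ) (b + 1) (by rw [finrank_prod, hB, finrank_self]; ring)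
  obtain ⟨t0, v0, -⟩ := ut_even thom P0 ((A × ℝ) × ℝ) (a + 1)
    (by rw [finrank_prod, finrank_prod, hA, finrank_self]; ring)
  have ug := ut_pl (Y := Y) (u0.of_th tg)
  have ut : UT Y (tr Γ (tv (A × ℝ))).xr (pull (pm Y (tv (A × ℝ)).xr).f t) :=
    ut_pl (Y := Y) (W := (tv (A × ℝ)).xr) (UT.of_th (W := (tv (A × ℝ)).xr) v0 tt)
  have et1 : ps _ (pull (pm Y (tv (A × ℝ)).xr).f t) =
      (Sb Y (tr Γ (tv (A × ℝ))).xr).sm (3 ^ (k + 4)) (pull (pm Y (tv (A × ℝ)).xr).f t) := by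
    rw [ps_pull, et, map_zsmul, sm_z]; push_cast; rfl
  have tl2 := th_iso (shf B M).symm (LS.Iso.mp _ Y) tl
  have el2 := eig_iso (shf B M).symm (LS.Iso.mp _ Y) el
  obtain ⟨w, hw, ew⟩ := ug.rel_l tl2.1
  obtain ⟨σ, eσ⟩ := (ug.cancel_l hw (ew ▸ tl2)).ex_eig
  have eρ : ρ = 3 ^ k * σ := tl2.inj (el2.symm.trans (ew ▸ eig_xm (ecl_eig x1) eσ))
  have x2 := ecl_stg M.ls m r1 r2 x1 ug.1 hw eσ
  have x3 := ecl_h1 ((shf A M).h1 Y) ((shf B M).h1 Y)
    (((shf A M).prod (.refl (LS.triv Γ ℝ))).h1 Y) (F' := C) (sb_ind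
      (fun y => (congrArg ((shf B M).h1 Y).f (C.f_inf y)).trans (F2.f_inf y).symm) fun y w => by
        refine (congrArg ((shf B M).h1 Y).f (r y w)).trans (Eq.trans ?_ (r2 y _).symm)
        exact congrArg (pt Y ((tr Γ (tv (B × ℝ))).prod M.ls) y) (shf_shf M _)) (iso_sd _) x2
  have e1 : pull ((shf B M).h1 Y).f (xm (pull (pm Y _).f g) w) = l :=
    (congrArg _ ew.symm).trans (pull_pull_id _ _ (shf B M).h1_symm l)
  have e2 : xm (V := (tr Γ (tv (A × ℝ))).xr) (pull (pm Y (tv (A × ℝ)).xr).f (ν • t)) (ps _ w) =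
      (Sb Y _).sm (ν * σ) (xm (V := (tr Γ (tv (A × ℝ))).xr) (pull (pm Y (tv (A × ℝ)).xr).f t) w) := by
    rw [map_zsmul]
    refine (xm_zsmul (V := (tr Γ (tv (A × ℝ))).xr) ν _ _).trans ?_
    rw [eσ, sm_z, ← Ex.sm_sm]
    exact congrArg _ ((smd Y _ _).mul_sm _ _ _)
  have e3 : ∀ {P Q : Ex Y.Q} (G : H1 P Q) (s : KX Y.Q) (z : KX Q.E),
      pull G.f (Q.sm s z) = P.sm s (pull G.f z) := fun G s z => by rw [G.pull_sm, pull_id]
  rw [e1, ← eρ, e2, e3, e3] at x3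
  exact ⟨k, ν, _, σ, hν, th_iso _ (LS.Iso.mp _ Y) (th_iso _
      (LS.Iso.mp _ Y) (ut.th_l (ug.cancel_l hw (ew ▸ tl2)))), eρ, eig_iso _ (LS.Iso.mp _ Y)
        (eig_iso _ (LS.Iso.mp _ Y) (eig_xm et1 eσ)), ecl_null x3 tl.1, x3⟩

end Crest.Agent.N218.D3

end
end

-- ▼ part N218/D3/Okx
section

/-! Row 218, block D3 (helper48): the total problem and the piece are admissible. -/

set_option autoImplicit false
open Set Filter Topology
open scoped RealInnerProductSpace ContDiff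

noncomputable section

namespace Crest.Agent.N218.D3
open Sh P

theorem oke : OKE := fun Φ => (Sk.gf_r (by norm_num) Φ).ok

namespace Ox

theorem piH_lip {w A : ℝ} {p : ℝ → ℝ} (h : P.Pp w A p) (y y' : Y) :
    ‖piH p y - piH p y'‖ ≤ ‖y - y'‖ := by
  have e : piH p y - piH p y' = (y - y') - (u1 (y - y') - (p (u1 y) - p (u1 y'))) • ev := by
    rw [piH, piH, u1_sub]; module
  refine le_of_sq_le_sq ?_ (norm_nonneg _)
  have := sq_le_sq.2 (h.lip (u1 y) (u1 y'))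
  rw [e, norm_sub_sq_real, real_inner_smul_right, real_inner_comm, inner_ev, norm_smul, norm_ev,
    mul_one, Real.norm_eq_abs, sq_abs, u1_sub]
  nlinarith

theorem piH_id {w A : ℝ} {p : ℝ → ℝ} (h : P.Pp w A p) {y : Y} (a : u1 y ≤ 0) : piH p y = y := by
  rw [piH, h.id _ a, sub_self, zero_smul, sub_zero]

theorem piH_sm {w A : ℝ} {p : ℝ → ℝ} (h : P.Pp w A p) : ContDiff ℝ ∞ (piH p) :=
  contDiff_id.sub ((u1_sm.sub (h.sm.comp u1_sm)).smul contDiff_const)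

theorem nX_mem {x : Sk.X22} (a : 0 < ⟪(x.1 : E 3), (x.2 : E 3)⟫) : nX x ∈ N0 := by
  have u : ‖(x.1 : E 3)‖ = 1 := by simp
  refine ⟨u, ?_⟩
  simp only [nX, inner_sub_right, real_inner_smul_right, real_inner_self_eq_norm_sq, u]
  rw [inv_mul_cancel₀ a.ne']; ring

theorem cont_ite {W : Type} [NormedAddCommGroup W] {φ : (E 3 × E 3) × Y → W} (hφ : Continuous φ)
    {ρ : ℝ} (r0 : 0 < ρ) (h0 : ∀ n η, ρ ≤ ‖n.2‖ → φ (n, η) = 0) : Continuous fun z : Sk.X22 × Y =>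
      if 0 < ⟪(z.1.1 : E 3), (z.1.2 : E 3)⟫ then φ (nX z.1, z.2) else 0 := by
  have c : Continuous fun z : Sk.X22 × Y => ⟪(z.1.1 : E 3), (z.1.2 : E 3)⟫ := by fun_prop
  refine continuous_iff_continuousAt.2 fun z => ?_
  by_cases a : 0 < ⟪(z.1.1 : E 3), (z.1.2 : E 3)⟫
  · refine ContinuousAt.congr (f := fun z => φ (nX z.1, z.2)) ?_ ?_
    · have c1 : Continuous fun z : Sk.X22 × Y => (z.1.1 : E 3) := by fun_prop
      have c2 : Continuous fun z : Sk.X22 × Y => (z.1.2 : E 3) := by fun_prop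
      exact hφ.continuousAt.comp ((c1.continuousAt.prodMk (((c.continuousAt.inv₀ a.ne').smul
        c2.continuousAt).sub c1.continuousAt)).prodMk continuousAt_snd)
    · filter_upwards [continuousAt_const.eventually_lt c.continuousAt a] with z b using (if_pos b).symm
  · refine ContinuousAt.congr (f := fun _ => 0) continuousAt_const ?_
    filter_upwards [c.continuousAt.eventually_lt (continuousAt_const (y := (1 + ρ)⁻¹))
      ((not_lt.1 a).trans_lt (by positivity))] with z b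
    split_ifs with d
    · refine (h0 _ _ ?_).symm
      have := norm_sub_norm_le (⟪(z.1.1 : E 3), (z.1.2 : E 3)⟫⁻¹ • (z.1.2 : E 3)) z.1.1
      rw [norm_smul, Real.norm_of_nonneg (by positivity), norm_eq_of_mem_sphere,
        norm_eq_of_mem_sphere] at this
      have := (lt_inv_comm₀ d (by positivity)).1 b
      change ρ ≤ ‖_ - _‖
      linarith
    · rfl

/-- a Lyapunov function forces periodic orbits to be constant -/
theorem per {k : ℕ} {E : Type} {φ : E → ℝ} {r : E → E} {z : Pm.V k E} (hz : ∀ i, z i = r (z (i - 1)))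
    (h1 : ∀ i, φ (z i) ≤ 0 → r (z i) = z i) (h2 : ∀ i, 0 < φ (z i) → φ (r (z i)) < φ (z i)) :
    φ (z 0) ≤ 0 ∧ z = fun _ => z 0 := by
  have a : ∀ i, φ (z i) ≤ 0 := fun i => le_of_not_gt fun p =>
    (Finset.sum_lt_sum (s := Finset.univ) (f := fun j => φ (z (j + 1))) (fun j _ => by
      rw [hz, add_sub_cancel_right]
      exact (le_or_gt _ 0).elim (fun q => (congrArg φ (h1 j q)).le) fun q => (h2 j q).le)
      ⟨i, Finset.mem_univ _, by rw [hz, add_sub_cancel_right]; exact h2 i p⟩).ne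
      (Equiv.sum_comp (Equiv.addRight 1) fun j => φ (z j))
  have b : ∀ n : ℕ, z n = z 0 := fun n => by
    induction n with
    | zero => simp
    | succ n ih => rw [hz, h1 _ (a _)]; simpa using ih
  exact ⟨a 0, funext fun i => by rw [← b i.val, ZMod.natCast_zmod_val]⟩

/-- the derivative of a `C¹` map that fixes a regular domain is the identity there -/
theorem d_one {r : Y → Y} {D : Y → Y →L[ℝ] Y} {φ : Y → ℝ} {φ' : Y →L[ℝ] ℝ} {y : Y}
    (hD : Continuous D) (hr : ∀ y, HasFDerivAt r (D y) y) (c : Continuous φ)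
    (h1 : ∀ y, φ y ≤ 0 → r y = y) (h0 : φ y ≤ 0) (hφ : HasFDerivAt φ φ' y)
    (h2 : φ y = 0 → φ' ≠ 0) : D y = 1 := by
  have a : y ∈ closure {y | φ y < 0} := by
    rcases h0.eq_or_lt with e | e
    swap
    · exact subset_closure e
    refine mem_closure_iff_frequently.2 (by_contra fun c => h2 e ?_)
    exact IsLocalMin.hasFDerivAt_eq_zero
      ((not_frequently.1 c).mono fun y hy => e.trans_le (not_lt.1 hy)) hφ
  refine closure_minimal (fun y b => (hr y).unique ((hasFDerivAt_id y).congr_of_eventuallyEq ?_))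
    (isClosed_eq hD continuous_const) a
  filter_upwards [c.continuousAt.eventually_lt continuousAt_const b] with y d using h1 y d.le

variable {Φ : A.Fam} {Λ : ℝ} (h : Shape Φ Λ)

theorem rX_ct : Continuous h.rX :=
  ((piH_sm h.hp).continuous.comp continuous_snd).add
    (cont_ite h.gs.continuous (half_pos h.S.r0) fun n η a => h.g0 n η (.inl a))

/-- the fibre derivative -/
def DX (z : Sk.X22 × Y) : Y →L[ℝ] Y := fderiv ℝ (piH (pl h.ε h.p)) z.2 +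
  if 0 < ⟪(z.1.1 : E 3), (z.1.2 : E 3)⟫ then
    (fderiv ℝ h.g (nX z.1, z.2)).comp (ContinuousLinearMap.inr ℝ _ _) else 0

theorem g_d (n : E 3 × E 3) (η : Y) : HasFDerivAt (fun η => h.g (n, η))
    ((fderiv ℝ h.g (n, η)).comp (ContinuousLinearMap.inr ℝ _ _)) η :=
  (h.gs.differentiable (by simp) (n, η)).hasFDerivAt.comp η (hasFDerivAt_prodMk_right n η)

theorem DX_ct : Continuous (DX h) :=
  (((piH_sm h.hp).continuous_fderiv (by simp)).comp continuous_snd).add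
    (cont_ite (φ := fun p => (fderiv ℝ h.g p).comp (ContinuousLinearMap.inr ℝ _ _))
      ((h.gs.continuous_fderiv (by simp)).clm_comp continuous_const) (half_pos h.S.r0)
      fun n η a => (g_d h n η).unique (by
        rw [show (fun η => h.g (n, η)) = fun _ => 0 from funext fun η => h.g0 n η (.inl a)]
        exact hasFDerivAt_const _ _))

theorem DX_d (x : Sk.X22) (y : Y) : HasFDerivAt (fun w => h.rX (x, w)) (DX h (x, y)) y := by
  refine HasFDerivAt.add (g := fun w => gX h.g (x, w))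
    ((piH_sm h.hp).differentiable (by simp) y).hasFDerivAt ?_
  simp only [gX]
  split_ifs
  · exact g_d h _ _
  · exact hasFDerivAt_const _ _

theorem rX_pos {x : Sk.X22} (a : 0 < ⟪(x.1 : E 3), (x.2 : E 3)⟫) {u v : V} (o : Ov (nX x) u v)
    (y : Y) : h.rX (x, y) =
      h.σ' (lab h.s u v).2 (h.R (lab h.s u v, h.σ (lab h.s u v).2 y)) := by
  rw [Shape.rX, gX, if_pos a, h.gv _ (nX_mem a) u v y o, add_sub_cancel]

theorem rX_neg {x : Sk.X22} (a : ¬ 0 < ⟪(x.1 : E 3), (x.2 : E 3)⟫) (y : Y) :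
    h.rX (x, y) = piH (pl h.ε h.p) y := by
  rw [Shape.rX, gX, if_neg a, add_zero]

theorem bdd {k : ℕ} {x : Sk.X22} {s : ℝ} {z : Pm.V k Y} (s0 : 0 < s) (hz : Pm.mn z ≠ 0)
    (e : Pc.Eqn (fun y => h.rX (x, y)) s z) : ‖z‖ ≤ h.A + 2 * h.A * (2 ^ (k + 1) : ℕ) := by
  have A0 : 0 ≤ h.A := by linarith [h.A1]
  obtain ⟨c, rfl, b⟩ := loc (σ := Equiv.addRight 1) (Sk.tau_sq (k := k))
    (fun i => add_right_comm _ _ _) (q := 2 ^ (k + 1))
    (fun i j => ⟨(j - i).val, (ZMod.val_lt _).le, by simp⟩) s0 A0 (piH_lip h.hp)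
    (r := fun y => h.rX (x, y)) (w := z) (fun y => by
      rw [Shape.rX, add_sub_cancel_left, gX]
      split_ifs with a
      · exact h.gb _ (nX_mem a) y
      · simpa using A0)
    (fun i => (e (i + 1)).trans (by rw [add_sub_cancel_right])) hz (Z := {0}) (a := h.A) fun y a =>
      ⟨0, rfl, piH_id h.hp (by simp [u1]), by
        refine le_of_not_gt fun b => a ?_
        rw [sub_zero] at b
        simp [Shape.rX, gX, h.g0 _ y (.inr b.le)]⟩
  exact (pi_norm_le_iff_of_nonneg (by positivity)).2 fun i => by simpa using b i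

theorem orb {k : ℕ} {x : Sk.X22} {z : Pm.V k Y} (e : ∀ i, z i = h.rX (x, z (i - 1))) :
    z = (fun _ => z 0) ∧ DX h (x, z 0) = 1 := by
  have cD : Continuous fun y => DX h (x, y) := (DX_ct h).comp (by fun_prop)
  by_cases a : 0 < ⟪(x.1 : E 3), (x.2 : E 3)⟫
  swap
  · have i1 : ∀ y, u1 y ≤ 0 → h.rX (x, y) = y := fun y b => (rX_neg h a y).trans (piH_id h.hp b)
    obtain ⟨b, c⟩ := per (φ := u1) (r := fun y => h.rX (x, y)) e (fun i => i1 _) fun i b => by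
      rw [rX_neg h a, u1_piH]; exact h.hp.lt _ b
    exact ⟨c, d_one cD (DX_d h x) u1_sm.continuous i1 b (u1_d _) fun _ d =>
      one_ne_zero (α := ℝ) (congrArg (fun L : Y →L[ℝ] ℝ => L ev) d)⟩
  obtain ⟨u, v, o⟩ := h.ov _ (nX_mem a)
  have l0 : (lab h.s u v).2 ≠ 0 :=
    norm_pos_iff.1 (by linarith [(h.al _ (nX_mem a) u v o).1])
  have r := rX_pos h a o
  generalize lab h.s u v = l at l0 r
  have r' : ∀ y, h.σ l.2 (h.rX (x, y)) = h.R (l, h.σ l.2 y) := fun y => by rw [r, h.hF.ri _ _ l0]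
  have i1 : ∀ y, F h.M (l.1, h.σ l.2 y) ≤ 0 → h.rX (x, y) = y := fun y b => by
    rw [r, h.hR.id _ _ b, h.hF.li _ _ l0]
  have w0 := h.w0
  have w1 := h.w1
  have t : ∀ i, u1 (h.σ l.2 (z i)) ≤ 30 := fun i => by
    obtain ⟨j, hj⟩ := Finite.exists_max fun i => u1 (h.σ l.2 (z i))
    refine (hj i).trans (le_of_not_gt fun b => ?_)
    have m := hj (j - 1)
    have n := (b.le.trans (le_abs_self _)).trans (abs_u1_le _)
    have f := h.hL.out l.1 _ (.inr (.inl (le_trans (by norm_num) n)))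
    rw [e j, r'] at b m f
    rcases le_or_gt (u1 (h.σ l.2 (z (j - 1)))) 30 with c | c
    · linarith [h.hR.inn l _ l0 c]
    · rw [h.hR.out _ _ (.inr ((c.le.trans (le_abs_self _)).trans (abs_u1_le _))), u1_piH] at m
      exact m.not_gt (h.hp.lt _ (by linarith))
  obtain ⟨b, c⟩ := per (φ := fun y => F h.M (l.1, h.σ l.2 y)) (r := fun y => h.rX (x, y)) e
    (fun i => i1 _) fun i b => by
      rw [r']
      refine h.hR.lt l _ b ?_
      rw [e i, r']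
      linarith [h.hR.inn l _ l0 (t (i - 1))]
  refine ⟨c, d_one cD (DX_d h x) (h.hL.sm.continuous.comp (by fun_prop)) i1 b
    ((h.hL.sm.differentiable (by simp) _).hasFDerivAt.comp (z 0)
      ((hasFDerivAt_const l.1 _).prodMk (h.σ l.2).hasFDerivAt)) fun d f => ?_⟩
  obtain ⟨ξ, g⟩ := h.hL.reg l.1 (h.σ l.2 (z 0)) (by rw [show F _ _ = 0 from d]; norm_num)
  have := congrArg (fun L : Y →L[ℝ] ℝ => L (h.σ' l.2 ξ)) f
  exact g (by simpa [h.hF.ri _ _ l0] using this)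

/-- the piece is admissible -/
theorem pc_ok {k : ℕ} (hk : 1 ≤ k) : (h.pc k).Ok :=
  Pc.ec_ok (rX_ct h) (isCompact_univ.prod (isCompact_closedBall 0 _))
    (fun _ _ _ s0 a b => ⟨trivial, mem_closedBall_zero_iff.2 (bdd h s0 a b)⟩) fun x _ e =>
      let ⟨a, b⟩ := orb h (x := x.1) (z := x.2) fun i => by simpa using e i
      ⟨_, a, .of_c1 hk (DX_ct h).continuousAt (.of_forall fun p => DX_d h p.1 p.2) (b ▸ Pc.nn_one)⟩
end Ox

theorem okx : OKX := fun _ h _ => Ox.pc_ok h (by norm_num)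

end Crest.Agent.N218.D3
end
end

-- ▼ part N218/D3/Pfr
section

/-!
# Row 218, block D3 (helper56): the piece over the second sheet is admissible (leaf PFR)
-/

set_option autoImplicit false
set_option linter.unusedVariables false
set_option maxHeartbeats 400000

open Set Module Metric
open scoped RealInnerProductSpace

noncomputable section

namespace Crest.Agent.N218.D3
open K In Sh

namespace Pfr

section
variable {k : ℕ} {F : Type} [NormedAddCommGroup F] [NormedSpace ℝ F]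

theorem mn_tr (y : Pm.V k F) (g : Pm.Ix k) :
    Pm.mn (fun i => y (i + g)) = fun i => Pm.mn y (i + g) :=
  funext fun i => by simp only [Pm.mn, add_right_comm]

theorem mn_tr_ne {y : Pm.V k F} (a : Pm.mn y ≠ 0) (g : Pm.Ix k) :
    Pm.mn (fun i => y (i + g)) ≠ 0 := fun e => a <| funext fun i => by
  have := congrFun ((mn_tr y g).symm.trans e) (i - g)
  rwa [sub_add_cancel] at this

theorem eq_tr (f : F → F) (s : ℝ) (y : Pm.V k F) (g : Pm.Ix k) :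
    ((fun i => y (i + g) - f (y (i - 1 + g))) + s • Pm.mn fun i => y (i + g)) =
      fun i => ((fun i => y i - f (y (i - 1))) + s • Pm.mn y) (i + g) :=
  funext fun i => by
    simp only [mn_tr, Pi.add_apply, Pi.smul_apply, add_sub_right_comm]

theorem norm_av (y : Pm.V k F) : ‖Pm.av k F y‖ ≤ ‖y‖ := by
  have c : (0 : ℝ) < Fintype.card (Pm.Ix k) := by exact_mod_cast Fintype.card_pos
  rw [Pm.av_apply, norm_smul, norm_inv, Real.norm_of_nonneg c.le, inv_mul_le_iff₀ c]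
  refine (norm_sum_le _ _).trans ?_
  have := Finset.sum_le_card_nsmul Finset.univ (fun i => ‖y i‖) ‖y‖ fun i _ => norm_le_pi_norm y i
  rwa [nsmul_eq_mul, Finset.card_univ] at this

end

/-- `eq0` for any order -/
def eqk {k : ℕ} (f : P.Y → P.Y) (s : ℝ) (y : Pm.V k P.Y) : Pm.V k P.Y :=
  (fun i => y i - f (y (i - 1))) + Real.exp s • Pm.mn y

theorem eq0_tr {k : ℕ} (f : P.Y → P.Y) (s : ℝ) (y : Pm.V k P.Y) (g : Pm.Ix k) :
    eqk f s (fun i => y (i + g)) = fun i => eqk f s y (i + g) := eq_tr f _ y g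

theorem cp_of {X W : Type} [TopologicalSpace X] [T2Space X] [TopologicalSpace W] [T1Space W]
    [Zero W] {O K : Set X} {f : X → W} (c : ContinuousOn f O) (k : IsCompact K) (s : K ⊆ O)
    (z : ∀ x ∈ O, f x = 0 → x ∈ K) : IsCompact {x ∈ O | f x = 0} := by
  have := k.of_isClosed_subset ((c.mono s).preimage_isClosed_of_isClosed k.isClosed
    (isClosed_singleton (x := 0))) inter_subset_left
  convert this using 1
  exact Set.ext fun x => ⟨fun a => ⟨z x a.1 a.2, a.2⟩, fun a => ⟨s a.1, a.2⟩⟩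

variable {Φ : A.Fam} (h : P.Shape Φ (2 ^ 30))

theorem norm_j (η : P.Y) : ‖h.j η‖ ≤ ‖η‖ := by
  have a := h.hF.jn η
  have b : ∀ x : ℝ, x ^ 2 ≤ ‖η‖ ^ 2 → |x| ≤ ‖η‖ := fun x e => abs_le_of_sq_le_sq e (norm_nonneg _)
  refine max_le (max_le ?_ ?_) ?_
  · exact (le_abs_self _).trans (b _ (by nlinarith [sq_nonneg (P.u1 η), sq_nonneg (P.u2 η)]))
  · rw [h.hF.j2]
    exact b _ (by nlinarith [sq_nonneg (P.u1 η), sq_nonneg ‖(h.j η).1.1‖])
  · rw [h.hF.j1]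
    exact b _ (by nlinarith [sq_nonneg (P.u2 η), sq_nonneg ‖(h.j η).1.1‖])

theorem cont_rl : Continuous fun x : (E 3 × E 3) × P.Y => rl h x.1 x.2 := by
  have a := h.hp.sm.continuous
  have b := h.gs.continuous
  have c : Continuous P.u1 := by unfold P.u1; fun_prop
  unfold rl P.piH
  fun_prop

theorem cont_eq0 {k : ℕ} :
    Continuous fun x : (E 3 × E 3) × ℝ × Pm.V k P.Y => eqk (rl h x.1) x.2.1 x.2.2 := by
  refine Continuous.add (continuous_pi fun i => Continuous.sub (by fun_prop) ?_) (by fun_prop)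
  exact (cont_rl h).comp (f := fun x : (E 3 × E 3) × ℝ × Pm.V k P.Y => (x.1, x.2.2 (i - 1)))
    (by fun_prop)

/-- every label comes from a point of `S² × S²` -/
theorem ex_X {n : E 3 × E 3} (hn : n ∈ N0) : ∃ x : Sk.X22, ∀ η, h.rX (x, η) = rl h n η := by
  have i1 : ⟪n.1, n.1 + n.2⟫ = 1 := by
    rw [inner_add_right, hn.2, real_inner_self_eq_norm_sq, hn.1]; norm_num
  have z : n.1 + n.2 ≠ 0 := fun e => by rw [e, inner_zero_right] at i1; norm_num at i1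
  have p := norm_pos_iff.2 z
  have i2 : ⟪n.1, ‖n.1 + n.2‖⁻¹ • (n.1 + n.2)⟫ = ‖n.1 + n.2‖⁻¹ := by
    rw [real_inner_smul_right, i1, mul_one]
  refine ⟨(⟨n.1, by simpa using hn.1⟩, ⟨‖n.1 + n.2‖⁻¹ • (n.1 + n.2), by
    rw [mem_sphere_zero_iff_norm, norm_smul, norm_inv, norm_norm, inv_mul_cancel₀ p.ne']⟩),
    fun η => ?_⟩
  simp only [P.Shape.rX, P.gX, P.nX, rl, i2, inv_pos.2 p, if_true, inv_inv, smul_inv_smul₀ p.ne',
    add_sub_cancel_left]

variable (t : Tt h.S) (k : ℕ)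

/-- the total space -/
abbrev TT : Type := B0 × (ℂ × ℝ × ℝ) × Pm.V k P.Y
/-- the domain -/
def OO : Set (TT k) :=
  {z | (z.1.1.1, z.2.1.2.1) ∈ t.S2.O ∧ ‖z.1.1.2‖ < t.S2.r ∧ Pm.mn z.2.2 ≠ 0}
/-- the map -/
def fa (a : Pm.V k P.Y → P.Y) (z : TT k) : ((ℝ × ℝ) × Pm.V k P.Y) × P.Y :=
  (((z.1.2, z.2.1.1.im), eqk (rl h (t.S2.W (z.1.1.1, z.2.1.2.1))) z.2.1.1.re z.2.2),
    h.j.symm ((z.1.1.2, t.S2.H (z.1.1.1, z.2.1.2.1)), z.2.1.2.2 - 1) - h.ε • a z.2.2)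
/-- the map, with the average -/
abbrev ff := fa h t k (Pm.av k P.Y)

theorem c1 : Continuous fun z : TT k => (z.1.1.1, z.2.1.2.1) := by fun_prop

theorem op : IsOpen (OO h t k) :=
  (t.S2.op.preimage (c1 k)).inter ((isOpen_lt (f := fun z : TT k => ‖z.1.1.2‖) (by fun_prop)
    continuous_const).inter (isOpen_ne_fun (f := fun z : TT k => Pm.mn z.2.2)
      (Pm.cont_mn (by fun_prop)) continuous_const))

theorem a5 : Continuous fun z : TT k => Pm.av k P.Y z.2.2 := by fun_prop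

theorem c2 : ContinuousOn (fun z : TT k =>
    eqk (rl h (t.S2.W (z.1.1.1, z.2.1.2.1))) z.2.1.1.re z.2.2) (OO h t k) := by
  have cW : ContinuousOn (fun z : TT k => t.S2.W (z.1.1.1, z.2.1.2.1)) (OO h t k) :=
    t.S2.sW.continuousOn.comp (c1 k).continuousOn fun _ a => a.1
  have a2 : Continuous fun z : TT k => (z.2.1.1.re, z.2.2) := by fun_prop
  have := (cont_eq0 h).comp_continuousOn (cW.prodMk a2.continuousOn)
  exact this

theorem c3 : ContinuousOn (fun z : TT k =>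
    h.j.symm ((z.1.1.2, t.S2.H (z.1.1.1, z.2.1.2.1)), z.2.1.2.2 - 1)) (OO h t k) := by
  have cH : ContinuousOn (fun z : TT k => t.S2.H (z.1.1.1, z.2.1.2.1)) (OO h t k) :=
    t.S2.sH.continuousOn.comp (c1 k).continuousOn fun _ a => a.1
  have a3 : Continuous fun z : TT k => z.1.1.2 := by fun_prop
  have a4 : Continuous fun z : TT k => z.2.1.2.2 - 1 := by fun_prop
  exact h.j.symm.continuous.comp_continuousOn' ((a3.continuousOn.prodMk cH).prodMk a4.continuousOn)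

theorem ct : ContinuousOn (ff h t k) (OO h t k) := by
  have a1 : Continuous fun z : TT k => (z.1.2, z.2.1.1.im) := by fun_prop
  unfold ff fa
  exact (a1.continuousOn.prodMk (c2 h t k)).prodMk ((c3 h t k).fun_sub
    ((a5 k).continuousOn.fun_const_smul h.ε))

theorem cp (hX : (h.pc k).Ok) (hZ : ∀ n ∈ N0, ∀ s (η : Pm.V k P.Y), Pm.mn η ≠ 0 →
    eqk (rl h n) s η = 0 → ‖n.2‖ < h.S.r / 2 ∧ ∀ i, ‖η i‖ ≤ h.A * 2 ^ 24) :
    IsCompact {z ∈ OO h t k | ff h t k z = 0} := by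
  have r0 := t.S2.r0
  have kC := hX.cp.image (f := fun x : (Sk.X22 × ℝ) × Pm.V k P.Y => (x.1.2, x.2)) (by fun_prop)
  have kK := (((t.S2.cpt _ (half_lt_self r0) _ (half_lt_self r0)).prod
    (isCompact_closedBall (0 : E 8) (t.S2.r / 2))).prod (kC.prod
    (isCompact_closedBall (0 : ℝ) (t.S2.r / 2)))).image (f := fun x =>
      (((((x.1.1.1, x.1.2), 0), ((x.2.1.1 : ℂ), x.1.1.2, x.2.2 + 1), x.2.1.2)) : TT k)) (by fun_prop)
  refine cp_of (ct h t k) kK ?_ fun z a e => ?_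
  · rintro _ ⟨x, ⟨⟨a, b⟩, ⟨y, c, d⟩, -⟩, rfl⟩
    refine ⟨a.1, (mem_closedBall_zero_iff.1 b).trans_lt (half_lt_self r0), ?_⟩
    have := hX.fr _ c.1
    rwa [show y.2 = x.2.1.2 from congrArg Prod.snd d] at this
  · have e1 : z.1.2 = 0 := congrArg (·.1.1.1) e
    have e2 : z.2.1.1.im = 0 := congrArg (·.1.1.2) e
    have e3 : eqk (rl h (t.S2.W (z.1.1.1, z.2.1.2.1))) z.2.1.1.re z.2.2 = 0 := congrArg (·.1.2) e
    have e4 : h.j.symm ((z.1.1.2, t.S2.H (z.1.1.1, z.2.1.2.1)), z.2.1.2.2 - 1) =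
        h.ε • Pm.av k _ z.2.2 := sub_eq_zero.1 (congrArg (·.2) e)
    have n0 := (t.l2 _ a.1).2.1
    obtain ⟨b1, b2⟩ := hZ _ n0 _ _ a.2.2 e3
    have A0 : 0 ≤ h.A := zero_le_one.trans h.A1
    have b3 : ‖((z.1.1.2, t.S2.H (z.1.1.1, z.2.1.2.1)), z.2.1.2.2 - 1)‖ ≤ t.S2.r / 2 := by
      rw [← h.j.apply_symm_apply (_, z.2.1.2.2 - 1), e4]
      refine (norm_j h _).trans ?_
      have s := h.small
      have := (norm_av z.2.2).trans ((pi_norm_le_iff_of_nonneg (by positivity)).2 b2)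
      rw [norm_smul, Real.norm_of_nonneg h.ε0.le, ← t.hr]
      have := mul_le_mul_of_nonneg_left this h.ε0.le
      have := mul_nonneg h.ε0.le A0
      have := h.S.r0
      nlinarith
    have b4 := (norm_snd_le _).trans b3
    obtain ⟨x, hx⟩ := ex_X h n0
    refine ⟨(((z.1.1.1, z.2.1.2.1), z.1.1.2), (z.2.1.1.re, z.2.2), z.2.1.2.2 - 1),
      ⟨⟨⟨a.1, (t.hr ▸ b1).le, (norm_snd_le _).trans ((norm_fst_le _).trans b3)⟩,
        mem_closedBall_zero_iff.2 ((norm_fst_le _).trans ((norm_fst_le _).trans b3))⟩,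
        ⟨((x, z.2.1.1.re), z.2.2), ⟨⟨a.2.2, fun _ => trivial⟩, ?_⟩, rfl⟩,
        mem_closedBall_zero_iff.2 b4⟩, ?_⟩
    · refine Eq.trans ?_ e3
      exact congrArg (· + Real.exp z.2.1.1.re • Pm.mn z.2.2)
        (funext fun i => congrArg (z.2.2 i - ·) (hx _))
    · exact Prod.ext (Prod.ext rfl e1.symm) (Prod.ext (Prod.ext (Complex.ext rfl
        ((Complex.ofReal_im _).trans e2.symm)) (Prod.ext rfl (sub_add_cancel _ _))) rfl)

theorem ff_tr (z : TT k) (g : Pm.Ix k) : ff h t k (z.1, z.2.1, fun i => z.2.2 (i + g)) =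
    (((ff h t k z).1.1, fun i => (ff h t k z).1.2 (i + g)), (ff h t k z).2) := by
  simp only [ff, fa, eq0_tr, Pm.av_add]

/-- `P1` for any order -/
def Pk (a : Pm.V k P.Y → P.Y) : PB ((Rep.triv (Gk k) B0).prod (XX (ℂ × ℝ × ℝ) k P.Y)).ls
    ((XX (ℝ × ℝ) k P.Y).prod (Rep.triv (Gk k) P.Y)) := ⟨OO h t k, fa h t k a⟩

theorem fr (hX : (h.pc k).Ok) (hZ : ∀ n ∈ N0, ∀ s (η : Pm.V k P.Y), Pm.mn η ≠ 0 →
    eqk (rl h n) s η = 0 → ‖n.2‖ < h.S.r / 2 ∧ ∀ i, ‖η i‖ ≤ h.A * 2 ^ 24) :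
    (Pk h t k (Pm.av k P.Y)).Fr := by
  refine ⟨op h t k, fun g z a => ⟨a.1, a.2.1, mn_tr_ne a.2.2 g.toAdd⟩, ct h t k, fun g z a => ?_,
    cp h t k hX hZ, fun z a g e => ?_⟩
  · exact ff_tr h t k z g.toAdd
  · exact fr_of_mn (g := g.toAdd) a.1.2.2 fun i => congrFun (congrArg (fun w : TT k => w.2.2) e) i

theorem eq0_eq : eq0 = eqk (k := 21) := rfl

/-- `P1` with any average (the kernel must never unfold `av 21`) -/
def Pa (a : VY → P.Y) : PB X1.ls VV :=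
  ⟨{z : B0 × (ℂ × ℝ × ℝ) × VY | (z.1.1.1, z.2.1.2.1) ∈ t.S2.O ∧ ‖z.1.1.2‖ < t.S2.r ∧
      Pm.mn z.2.2 ≠ 0},
    fun z : B0 × (ℂ × ℝ × ℝ) × VY =>
      (((z.1.2, z.2.1.1.im), eq0 (rl h (t.S2.W (z.1.1.1, z.2.1.2.1))) z.2.1.1.re z.2.2),
        h.j.symm ((z.1.1.2, t.S2.H (z.1.1.1, z.2.1.2.1)), z.2.1.2.2 - 1) - h.ε • a z.2.2)⟩

theorem Pa_eq (a : VY → P.Y) : Pa h t a = Pk h t 21 a := rfl

theorem P1_eq : P1 h t = Pk h t 21 (Pm.av 21 P.Y) :=
  Eq.trans rfl (Pa_eq h t (Pm.av 21 P.Y))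

end Pfr

/-- **leaf PFR** -/
theorem pfr (hX : OKX) (hZ : ZL) : PFR := fun Φ h t => by
  have a := hZ Φ h t
  rw [Pfr.eq0_eq] at a
  rw [Pfr.P1_eq]
  exact Pfr.fr h t 21 (hX Φ h t) a

end Crest.Agent.N218.D3

end
end

-- ▼ part N218/D3/Dis
section

/-! Row 218, block D3 (helper83): linear bookkeeping for the piece (`DIS`). -/

set_option autoImplicit false
set_option linter.unusedVariables false
set_option maxHeartbeats 400000

open Set Module

noncomputable section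

namespace Crest.Agent.N218.D3
open K In

namespace Ds
variable {Γ : Type} [Group Γ] [TopologicalSpace Γ]

/-- change of the source coordinates -/
theorem fr_iso {X X' : LS Γ} {V : Rep Γ} {P : PB X V} (h : P.Fr) (A : X'.Iso X) :
    (P.iso A ⟨.refl ℝ _, fun _ _ => rfl⟩).Fr := by
  refine ⟨h.op.preimage A.e.continuous, fun g x a => ?_,
    h.ct.comp A.e.continuous.continuousOn fun _ a => a, fun g x a => ?_,
    A.e.isCompact_preimage.2 h.cp, fun x a g b => h.fr (a := A.e x) a g ?_⟩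
  · exact (congrArg (· ∈ P.O) (A.eq g x)).mpr (h.inv g _ a)
  · exact (congrArg P.f (A.eq g x)).trans (h.eq g _ a)
  · rw [← A.eq, b]

/-- shear by an invariant map -/
def shr (X : Rep Γ) (E : Type) [NormedAddCommGroup E] [NormedSpace ℝ E] [FiniteDimensional ℝ E]
    (c : X.W → E) (hc : Continuous c) (e : ∀ g x, c (X.ρ g x) = c x) :
    (X.prod (Rep.triv Γ E)).ls.Iso (X.prod (Rep.triv Γ E)).ls :=
  ⟨{ toFun := fun z : X.W × E => (z.1, z.2 - c z.1)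
     invFun := fun z : X.W × E => (z.1, z.2 + c z.1)
     left_inv := fun z => Prod.ext rfl (sub_add_cancel _ _)
     right_inv := fun z => Prod.ext rfl (add_sub_cancel_right _ _)
     continuous_toFun := show Continuous fun z : X.W × E => (z.1, z.2 - c z.1) from
       continuous_fst.prodMk (continuous_snd.sub (hc.comp continuous_fst))
     continuous_invFun := show Continuous fun z : X.W × E => (z.1, z.2 + c z.1) from
       continuous_fst.prodMk (continuous_snd.add (hc.comp continuous_fst)) },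
    fun g z => Prod.ext rfl (congrArg (z.2 - ·) (e g z.1))⟩

/-- a difference -/
def sb {E : Type} [NormedAddCommGroup E] [NormedSpace ℝ E] (a : E) (ε : ℝ) (v : E) : E := a - ε • v

theorem sb_eq (a : P.Y) (ε : ℝ) (v : P.Y) : a - ε • v = sb a ε v := rfl

/-- the difference to the average -/
def avs {k : ℕ} {E : Type} [NormedAddCommGroup E] [NormedSpace ℝ E] (ε : ℝ) (a : E)
    (y : Pm.V k E) : E := sb a ε (Pm.av k E y)

theorem avs_eq (ε : ℝ) (a : P.Y) (y : VY) : a - ε • Pm.av 21 P.Y y = avs ε a y := sb_eq _ _ _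

/-- the average as a new variable -/
theorem key {m : ℕ} (J : AI m) {Y B C : Type} [TopologicalSpace Y] [T2Space Y]
    [NormedAddCommGroup B] [NormedSpace ℝ B] [FiniteDimensional ℝ B] [NormedAddCommGroup C]
    [NormedSpace ℝ C] [FiniteDimensional ℝ C] (e : Emb Y B C) (d : finrank ℝ B = m + finrank ℝ C)
    {k : ℕ} (hk : 16 ≤ k) {E : Type} [NormedAddCommGroup E] [NormedSpace ℝ E]
    [FiniteDimensional ℝ E] {P : Pm.Pb Y k E} (hP : P.Ok) (ε : ℝ)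
    (Q : PB ((XX B k E).prod (Rep.triv (Gk k) (E × ℝ))).ls
      ((XX C k E).prod (Rep.triv (Gk k) (E × ℝ))))
    (hO : Q.O = {z : (B × Pm.V k E) × E × ℝ | z.1 ∈ (e.pb P).O})
    (hf : Q.f = fun z : (B × Pm.V k E) × E × ℝ =>
      ((e.pb P).f z.1, avs ε z.2.1 z.1.2, z.2.2)) :
    Q.Fr ∧ Pm.Pe (J.ν (ck k) _ _ Q) (e.inv J k (Pm.sp E) P) := by
  have q := gq hk
  have a := adm d k E
  have f := e.pb_fr hP
  have c : Continuous fun z : B × Pm.V k E => (ε • Pm.av k E z.2, (0 : ℝ)) := by fun_prop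
  let A := shr (XX B k E) (E × ℝ) (fun z : B × Pm.V k E => (ε • Pm.av k E z.2, (0 : ℝ))) c
    fun (g : Gk k) (z : B × Pm.V k E) =>
      congrArg (fun v : E => (ε • v, (0 : ℝ))) (Pm.av_add z.2 g.toAdd)
  have e' : ((e.pb P).st (Rep.triv (Gk k) (E × ℝ))).iso A ⟨.refl ℝ _, fun _ _ => rfl⟩ = Q := by
    obtain ⟨O, F⟩ := Q
    obtain rfl : O = _ := hO
    obtain rfl : F = _ := hf
    exact congrArg₂ PB.mk (Set.ext fun _ => and_iff_left trivial)
      (funext fun z => Prod.ext rfl (Prod.ext rfl (sub_zero _)))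
  obtain ⟨u, h1⟩ := J.stb _ _ _ (Rep.triv (Gk k) (E × ℝ)) q a
  obtain ⟨u', h2⟩ := J.iso _ _ _ _ _ q (Gn.adm_prod a (Rep.triv (Gk k) (E × ℝ)))
    (Gn.adm_prod a (Rep.triv (Gk k) (E × ℝ))) A ⟨.refl ℝ _, fun _ _ => rfl⟩
  have k1 := h2 _ (Gn.fr_st f _)
  have k2 := fr_iso (Gn.fr_st f _) A
  rw [e'] at k1 k2
  exact ⟨k2, Gn.pe_two u' u k1 (h1 _ f)⟩
end Ds

namespace Ds
variable {Φ : A.Fam} (h : P.Shape Φ (2 ^ 30)) (z : (((E3 × E3) × ℂ) × VY) × P.Y × ℝ)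

theorem f1 : ((D1 h).f z).1 = (e22.line.pb (h.pc 21)).f z.1 := rfl
theorem f2 : ((D1 h).f z).2.2 = z.2.2 := rfl
theorem f3 : ((D1 h).f z).2.1 = z.2.1 - h.ε • Pm.av 21 _ z.1.2 := rfl
theorem f4 : ((D1 h).f z).2.1 = avs h.ε z.2.1 z.1.2 := (f3 h z).trans (avs_eq _ _ _)
theorem f_eq : (D1 h).f = fun z : (((E3 × E3) × ℂ) × VY) × P.Y × ℝ =>
    ((e22.line.pb (h.pc 21)).f z.1, avs h.ε z.2.1 z.1.2, z.2.2) :=
  funext fun z => Prod.ext (f1 h z) (Prod.ext (f4 h z) (f2 h z))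

theorem pa_eq (g : GEN) (p : PAN) (s : CST) (J : AI 5) (k : ℕ) (S : Pm.Sp)
    (Q : Pm.Pb (Sk.X22 × ℝ) k S.E) : (i22 g p s J).pa k S Q = e22.line.inv J k S Q := rfl

theorem main (o : (h.pc 21).Ok) (J : AI 5) : (D1 h).Fr ∧
    Pm.Pe (J.ν (ck 21) X2 V2 (D1 h)) (e22.line.inv J 21 (Pm.sp P.Y) (h.pc 21)) :=
  key J e22.line (by simp) (k := 21) (by norm_num) o h.ε (D1 h) rfl (f_eq h)
end Ds

theorem dis (hX : OKX) : DIS := fun g p s J Φ h t =>
  have k := Ds.main h (hX Φ h t) J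
  ⟨k.1, (congrArg (Pm.Pe _) (Ds.pa_eq @g @p @s J 21 (Pm.sp P.Y) (h.pc 21))).mpr k.2⟩

end Crest.Agent.N218.D3

end
end

-- ▼ part N218/D3/Tpd
section

/-! # Row 218, block D3 (helper66): the transport of the piece -/

set_option autoImplicit false
set_option linter.unusedVariables false

open Set Module
open scoped RealInnerProductSpace

noncomputable section

namespace Crest.Agent.N218.D3
open K In Sh

namespace Tq

/-- the label of a pair of vectors -/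
def nn (p q : E3) : E3 × E3 := (‖p‖⁻¹ • p, (‖p‖ / ⟪p, q⟫) • q - ‖p‖⁻¹ • p)

theorem ne {p q : E3} (h : 0 < ⟪p, q⟫) : p ≠ 0 ∧ q ≠ 0 :=
  ⟨fun e => by simp [e] at h, fun e => by simp [e] at h⟩

theorem nn_mem {p q : E3} (h : 0 < ⟪p, q⟫) : nn p q ∈ N0 := by
  have a := (norm_pos_iff.2 (ne h).1).ne'
  refine ⟨norm_smul_inv_norm (𝕜 := ℝ) (ne h).1, ?_⟩
  rw [nn, inner_sub_right, real_inner_smul_left, real_inner_smul_right, real_inner_smul_left,
    real_inner_smul_right, real_inner_self_eq_norm_mul_norm]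
  field_simp
  ring

theorem in_rad {p q : E3} (a : p ≠ 0) (b : q ≠ 0) :
    ⟪(Emb.rad E3 p : E3), (Emb.rad E3 q : E3)⟫ = ‖p‖⁻¹ * (‖q‖⁻¹ * ⟪p, q⟫) := by
  rw [Emb.rad_coe a, Emb.rad_coe b, real_inner_smul_left, real_inner_smul_right]

theorem nX_rad {p q : E3} (h : 0 < ⟪p, q⟫) : P.nX (Emb.rad E3 p, Emb.rad E3 q) = nn p q := by
  have a := (norm_pos_iff.2 (ne h).1).ne'
  have b := (norm_pos_iff.2 (ne h).2).ne'
  simp only [P.nX, nn]
  rw [in_rad (ne h).1 (ne h).2, Emb.rad_coe (ne h).1, Emb.rad_coe (ne h).2, smul_smul]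
  congr 3
  field_simp

theorem nn_c : ContinuousOn (fun x : E3 × E3 => nn x.1 x.2) {x | 0 < ⟪x.1, x.2⟫} := by
  have a : ContinuousOn (fun x : E3 × E3 => ‖x.1‖⁻¹ • x.1) {x | 0 < ⟪x.1, x.2⟫} :=
    (continuous_fst.norm.continuousOn.inv₀ fun x (h : 0 < ⟪x.1, x.2⟫) =>
      (norm_pos_iff.2 (ne h).1).ne').smul continuousOn_fst
  have b : ContinuousOn (fun x : E3 × E3 => (‖x.1‖ / ⟪x.1, x.2⟫) • x.2) {x | 0 < ⟪x.1, x.2⟫} :=
    have c : Continuous fun x : E3 × E3 => ⟪x.1, x.2⟫ := by fun_prop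
    (continuous_fst.norm.continuousOn.div₀ c.continuousOn fun x (h : 0 < ⟪x.1, x.2⟫) =>
      h.ne').smul continuousOn_snd
  have c : ContinuousOn (fun x : E3 × E3 => (‖x.1‖ / ⟪x.1, x.2⟫) • x.2 - ‖x.1‖⁻¹ • x.1)
    {x | 0 < ⟪x.1, x.2⟫} := fun x h => (b x h).sub (a x h)
  unfold nn
  exact a.prodMk c

/-- the pair of vectors of a label -/
def pp (n : E3 × E3) (z : ℝ × ℝ) : E3 × E3 :=
  (Real.exp z.1 • n.1, Real.exp z.2 • ‖n.1 + n.2‖⁻¹ • (n.1 + n.2))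

theorem in_one {n : E3 × E3} (h : n ∈ N0) : ⟪n.1, n.1 + n.2⟫ = 1 := by
  rw [inner_add_right, h.2, real_inner_self_eq_norm_mul_norm, h.1]; norm_num

theorem sum_ne {n : E3 × E3} (h : n ∈ N0) : n.1 + n.2 ≠ 0 := fun e => by
  simpa [e] using in_one h

theorem pp_nn {p q : E3} (h : 0 < ⟪p, q⟫) :
    pp (nn p q) (Real.log ‖p‖, Real.log ‖q‖) = (p, q) := by
  have a := norm_pos_iff.2 (ne h).1
  have b := norm_pos_iff.2 (ne h).2
  simp only [pp, nn, add_sub_cancel, Real.exp_log a, Real.exp_log b, smul_smul, norm_smul,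
    Real.norm_of_nonneg (div_pos a h).le]
  refine Prod.ext ?_ ?_
  · rw [mul_inv_cancel₀ a.ne', one_smul]
  · rw [show ‖q‖ * ((‖p‖ / ⟪p, q⟫ * ‖q‖)⁻¹ * (‖p‖ / ⟪p, q⟫)) = 1 by field_simp, one_smul]

theorem nn_pp {n : E3 × E3} (h : n ∈ N0) (z : ℝ × ℝ) : 0 < ⟪(pp n z).1, (pp n z).2⟫ ∧
    nn (pp n z).1 (pp n z).2 = n ∧ (Real.log ‖(pp n z).1‖, Real.log ‖(pp n z).2‖) = z := by
  have a := norm_pos_iff.2 (sum_ne h)
  have b : ‖(pp n z).1‖ = Real.exp z.1 := by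
    rw [pp, norm_smul, h.1, mul_one, Real.norm_of_nonneg (Real.exp_pos _).le]
  have c : ‖(pp n z).2‖ = Real.exp z.2 := by
    rw [pp, norm_smul, norm_smul, norm_inv, norm_norm, inv_mul_cancel₀ a.ne', mul_one,
      Real.norm_of_nonneg (Real.exp_pos _).le]
  have d : ⟪(pp n z).1, (pp n z).2⟫ = Real.exp z.1 * (Real.exp z.2 * ‖n.1 + n.2‖⁻¹) := by
    simp only [pp, real_inner_smul_left, real_inner_smul_right, in_one h, mul_one]
    ring
  have e : (Real.exp z.1)⁻¹ • (pp n z).1 = n.1 := inv_smul_smul₀ (Real.exp_pos _).ne' _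
  refine ⟨d ▸ by positivity, ?_, by rw [b, c, Real.log_exp, Real.log_exp]⟩
  rw [nn, b, d, e, pp, smul_smul, smul_smul, show Real.exp z.1 / (Real.exp z.1 * (Real.exp z.2 *
    ‖n.1 + n.2‖⁻¹)) * Real.exp z.2 * ‖n.1 + n.2‖⁻¹ = 1 by field_simp, one_smul, add_sub_cancel_left]

theorem far (r : ℝ) : ∃ n ∈ N0, r ≤ ‖n.2‖ :=
  ⟨(EuclideanSpace.single 0 1, EuclideanSpace.single 1 r), ⟨by simp, by
    simp [EuclideanSpace.inner_single_left]⟩, by simpa using le_abs_self r⟩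

theorem av_le {k : ℕ} {y : Pm.V k P.Y} {c : ℝ} (h : ∀ i, ‖y i‖ ≤ c) : ‖Pm.av k _ y‖ ≤ c := by
  have p : (0 : ℝ) < Fintype.card (Pm.Ix k) := Nat.cast_pos.2 Fintype.card_pos
  rw [Pm.av_apply, norm_smul, norm_inv, Real.norm_natCast, inv_mul_le_iff₀ p]
  simpa using (norm_sum_le_of_le Finset.univ fun i _ => h i)

/-- the shuffle -/
def shf (A B : Type) [NormedAddCommGroup A] [NormedSpace ℝ A] [NormedAddCommGroup B]
    [NormedSpace ℝ B] : (((ℝ × ℝ) × A) × B) × ℝ × ℝ →L[ℝ] (((ℝ × ℝ) × ℝ) × A) × B × ℝ where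
  toFun v := (((v.2, v.1.1.1.2), v.1.1.2), v.1.2, v.1.1.1.1)
  map_add' _ _ := rfl
  map_smul' _ _ := rfl
  cont := by fun_prop


/-- the source -/
abbrev W1 : Type := B0 × (ℂ × ℝ × ℝ) × VY
/-- the target -/
abbrev W2 : Type := (((E3 × E3) × ℂ) × VY) × P.Y × ℝ

variable {Φ : A.Fam} (h : P.Shape Φ (2 ^ 30)) (t : Tt h.S)

/-- the point of the second sheet -/
def xi (x : W2) : (ℝ × E 3) × ℝ := t.Ξ (nn x.1.1.1.1 x.1.1.1.2, (h.j x.2.1).1.2)

/-- the transport -/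
def T : Tp X1 VV Z2 X2 V2 where
  U₁ := U1 h t
  U₂ := {x : W2 | 0 < ⟪x.1.1.1.1, x.1.1.1.2⟫ ∧ ‖(nn x.1.1.1.1 x.1.1.1.2).2‖ < t.S2.r ∧
    ‖(h.j x.2.1).1.2‖ < t.S2.r}
  i := fun x : W2 => (((((xi h t x).1, (h.j x.2.1).1.1), x.2.2),
    (x.1.1.2, (xi h t x).2, (h.j x.2.1).2 + 1), x.1.2),
    Real.log ‖x.1.1.1.1‖, Real.log ‖x.1.1.1.2‖)
  j := fun z : W1 × ℝ × ℝ => (((pp (t.S2.W (z.1.1.1.1, z.1.2.1.2.1)) z.2, z.1.2.1.1), z.1.2.2),
    h.j.symm ((z.1.1.1.2, t.S2.H (z.1.1.1.1, z.1.2.1.2.1)), z.1.2.1.2.2 - 1), z.1.1.2)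
  G _ := shf (Rr 21 P.Y).W P.Y
  o₂ := by
    have c : ContinuousOn (fun x : W2 => (‖(nn x.1.1.1.1 x.1.1.1.2).2‖, ‖(h.j x.2.1).1.2‖))
        {x | 0 < ⟪x.1.1.1.1, x.1.1.1.2⟫} :=
      (nn_c.comp (f := fun x : W2 => x.1.1.1) (by fun_prop) fun _ a => a).snd.norm.prodMk
        (by fun_prop)
    exact c.isOpen_inter_preimage (isOpen_lt continuous_const (by fun_prop))
      (isOpen_Iio.prod isOpen_Iio)
  ci := by
    have c : ContinuousOn (xi h t) {x : W2 | 0 < ⟪x.1.1.1.1, x.1.1.1.2⟫} :=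
      t.cΞ.comp_continuousOn
        ((nn_c.comp (f := fun x : W2 => x.1.1.1) (by fun_prop) fun _ a => a).prodMk (by fun_prop))
    refine ContinuousOn.mono (s := {x : W2 | 0 < ⟪x.1.1.1.1, x.1.1.1.2⟫}) ?_ fun _ a => a.1
    exact (((c.fst.prodMk (by fun_prop)).prodMk (by fun_prop)).prodMk
      ((ContinuousOn.prodMk (by fun_prop) (c.snd.prodMk (by fun_prop))).prodMk (by fun_prop))).prodMk
      ((log_on.comp (f := fun x : W2 => x.1.1.1.1) (by fun_prop) fun _ a => (ne a).1).prodMk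
        (log_on.comp (f := fun x : W2 => x.1.1.1.2) (by fun_prop) fun _ a => (ne a).2))
  cj := by
    have m : Continuous fun z : W1 × ℝ × ℝ => (z.1.1.1.1, z.1.2.1.2.1) := by fun_prop
    have a := t.S2.sW.continuousOn.comp (s := U1 h t ×ˢ univ) m.continuousOn fun _ a => a.1
    have b := t.S2.sH.continuousOn.comp (s := U1 h t ×ˢ univ) m.continuousOn fun _ a => a.1
    have c := a.fst.add a.snd
    have d : Continuous fun z : W1 × ℝ × ℝ => Real.exp z.2.1 := by fun_prop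
    have e : Continuous fun z : W1 × ℝ × ℝ => Real.exp z.2.2 := by fun_prop
    have f : Continuous fun z : W1 × ℝ × ℝ => z.1.1.1.2 := by fun_prop
    have g : Continuous fun z : W1 × ℝ × ℝ => z.1.2.1.2.2 - 1 := by fun_prop
    have k := (d.continuousOn.smul a.fst).prodMk (e.continuousOn.smul
      ((c.norm.inv₀ fun _ u => (norm_pos_iff.2 (sum_ne (t.l2 _ u.1).2.1)).ne').smul c))
    have l := h.j.symm.continuous.comp_continuousOn
      ((f.continuousOn.prodMk b).prodMk g.continuousOn)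
    exact ((k.prodMk continuous_fst.snd.fst.fst.continuousOn).prodMk
      continuous_fst.snd.snd.continuousOn).prodMk (l.prodMk continuous_fst.fst.snd.continuousOn)
  cG := continuousOn_const
  mi := fun x a => by
    obtain ⟨u, v, w⟩ := t.r2 _ (nn_mem a.1) a.2.1 _ a.2.2
    refine ⟨u, Prod.ext (Prod.ext (Prod.ext ?_ rfl) rfl) (Prod.ext ?_ rfl)⟩
    · exact (congrArg (pp · _) v).trans (pp_nn a.1)
    · change h.j.symm ((_, t.S2.H (xi h t x)), _ + 1 - 1) = _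
      rw [xi, w, add_sub_cancel_right]
      exact h.j.symm_apply_apply _
  mj := fun z a => by
    obtain ⟨-, u, v⟩ := t.l2 _ a
    obtain ⟨b, c, d⟩ := nn_pp u z.2
    have e := h.j.apply_symm_apply ((z.1.1.1.2, t.S2.H (z.1.1.1.1, z.1.2.1.2.1)), z.1.2.1.2.2 - 1)
    have f : xi h t (((pp (t.S2.W (z.1.1.1.1, z.1.2.1.2.1)) z.2, z.1.2.1.1), z.1.2.2),
        h.j.symm ((z.1.1.1.2, t.S2.H (z.1.1.1.1, z.1.2.1.2.1)), z.1.2.1.2.2 - 1), z.1.1.2) =
        (z.1.1.1.1, z.1.2.1.2.1) := by rw [xi, c, e, v]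
    refine ⟨⟨b, (congrArg (‖·.2‖) c).trans_lt (t.S2.bd _ a).1,
      (congrArg (‖·.1.2‖) e).trans_lt (t.S2.bd _ a).2⟩, Prod.ext (Prod.ext (Prod.ext (Prod.ext
        (congrArg (·.1) f) (congrArg (·.1.1) e)) rfl) (Prod.ext (Prod.ext rfl (Prod.ext
        (congrArg (·.2) f) ((congrArg (·.2 + 1) e).trans (sub_add_cancel _ _)))) rfl)) d⟩
  ei := fun g x a => ⟨a, rfl⟩
  eG := fun g x a v z => rfl
  bG := fun x a => Function.bijective_iff_has_inverse.2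
    ⟨fun v => ((((v.2.2, v.1.1.2), v.1.2), v.2.1), v.1.1.1), fun _ => rfl, fun _ => rfl⟩

theorem pc_h (x : Sk.X22) (s : ℝ) (y : VY) :
    (h.pc 21).h ((x, s), y) = eq0 (fun η => h.rX (x, η)) s y := rfl

/-- the values -/
abbrev U2 : Type := (((ℝ × ℝ) × ℝ) × VY) × P.Y × ℝ

theorem trf {Γ : Type} [Group Γ] [TopologicalSpace Γ] {X₁ V₁ Z X₂ V₂ : Rep Γ}
    (T : Tp X₁ V₁ Z X₂ V₂) (P : PB X₁.ls V₁) (x : X₂.W) :
    (T.tr P).f x = T.G (T.i x).1 (P.f (T.i x).1, (T.i x).2) := rfl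

theorem T_y (x : W2) : @Eq VY ((T h t).i x).1.2.2 x.1.2 := rfl

theorem p1_f (z : W1) : (P1 h t).f z =
    (((z.1.2, z.2.1.1.im), eq0 (rl h (t.S2.W (z.1.1.1, z.2.1.2.1))) z.2.1.1.re z.2.2),
      h.j.symm ((z.1.1.2, t.S2.H (z.1.1.1, z.2.1.2.1)), z.2.1.2.2 - 1) -
        h.ε • Pm.av 21 _ z.2.2) := rfl

theorem p1_g (z : W1) (y : VY) (e : z.2.2 = y) : ∃ a b, a = Pm.av 21 _ y ∧
    b = eq0 (rl h (t.S2.W (z.1.1.1, z.2.1.2.1))) z.2.1.1.re y ∧ (P1 h t).f z =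
    (((z.1.2, z.2.1.1.im), b), h.j.symm ((z.1.1.2, t.S2.H (z.1.1.1, z.2.1.2.1)), z.2.1.2.2 - 1) -
        h.ε • a) := e ▸ ⟨_, _, rfl, rfl, p1_f h t z⟩

theorem tr_f (x : W2) : ∃ a b, a = Pm.av 21 _ x.1.2 ∧
    b = eq0 (rl h (t.S2.W (xi h t x))) x.1.1.2.re x.1.2 ∧ @Eq U2 (((T h t).tr (P1 h t)).f x)
    ((((Real.log ‖x.1.1.1.1‖, Real.log ‖x.1.1.1.2‖), x.1.1.2.im), b),
      h.j.symm (((h.j x.2.1).1.1, t.S2.H (xi h t x)), (h.j x.2.1).2 + 1 - 1) - h.ε • a, x.2.2) :=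
  have ⟨a, b, c, d, e⟩ := p1_g h t ((T h t).i x).1 _ (T_y h t x)
  ⟨a, b, c, d, (trf (T h t) (P1 h t) x).trans
    (congrArg (fun v => (T h t).G ((T h t).i x).1 (v, ((T h t).i x).2)) e)⟩

theorem d1_f (x : W2) : @Eq U2 ((D1 h).f x)
    ((((Real.log ‖x.1.1.1.1‖, Real.log ‖x.1.1.1.2‖), x.1.1.2.im),
      (h.pc 21).h (((Emb.rad E3 x.1.1.1.1, Emb.rad E3 x.1.1.1.2), x.1.1.2.re), x.1.2)),
      x.2.1 - h.ε • Pm.av 21 _ x.1.2, x.2.2) := rfl

theorem d1_z (x : W2) (e : x ∈ (D1 h).Z) :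
    (h.pc 21).h (((Emb.rad E3 x.1.1.1.1, Emb.rad E3 x.1.1.1.2), x.1.1.2.re), x.1.2) = 0 ∧
      x.2.1 = h.ε • Pm.av 21 _ x.1.2 := by
  have a := d1_f h x
  rw [e.2] at a
  generalize Pm.av 21 _ x.1.2 = u at a ⊢
  generalize (h.pc 21).h _ = v at a ⊢
  exact ⟨(congrArg (·.1.2) a).symm, sub_eq_zero.1 (congrArg (·.2.1) a).symm⟩

theorem rX_eq {p q : E3} (a : 0 < ⟪p, q⟫) :
    (fun η => h.rX ((Emb.rad E3 p, Emb.rad E3 q), η)) = rl h (nn p q) := by
  have b := norm_pos_iff.2 (ne a).1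
  have c := norm_pos_iff.2 (ne a).2
  funext η
  rw [P.Shape.rX, P.gX, if_pos (by rw [in_rad (ne a).1 (ne a).2]; positivity), nX_rad a, rl]

theorem mem_d1 (x : W2) :
    x ∈ (D1 h).O ↔ (x.1.1.1.1 ≠ 0 ∧ x.1.1.1.2 ≠ 0) ∧ Pm.mn x.1.2 ≠ 0 :=
  ⟨fun a => ⟨a.1.1, a.2.1⟩, fun a => ⟨⟨a.1, trivial⟩, a.2, fun _ => trivial⟩⟩

theorem mem_tr (x : W2) : x ∈ ((T h t).tr (P1 h t)).O ↔ x ∈ (T h t).U₂ ∧ xi h t x ∈ t.S2.O ∧
    ‖(h.j x.2.1).1.1‖ < t.S2.r ∧ Pm.mn x.1.2 ≠ 0 := Iff.rfl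

theorem key (zl : ZL) {p q : E3} (hp : p ≠ 0) (hq : q ≠ 0) {y : VY} (hy : Pm.mn y ≠ 0) {s : ℝ}
    (e1 : eq0 (fun η => h.rX ((Emb.rad E3 p, Emb.rad E3 q), η)) s y = 0) {ξ : P.Y}
    (e2 : ξ = h.ε • Pm.av 21 _ y) :
    (0 < ⟪p, q⟫ ∧ ‖(nn p q).2‖ < t.S2.r ∧ ‖(h.j ξ).1.2‖ < t.S2.r) ∧ ‖(h.j ξ).1.1‖ < t.S2.r := by
  have a : 0 < ⟪p, q⟫ := by
    by_contra c
    obtain ⟨n, u, v⟩ := far (h.S.r / 2)
    have k : (fun η => h.rX ((Emb.rad E3 p, Emb.rad E3 q), η)) = rl h n := funext fun η => by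
      rw [P.Shape.rX, P.gX, if_neg, rl, h.g0 _ _ (Or.inl v)]
      rw [in_rad hp hq, not_lt]
      exact mul_nonpos_of_nonneg_of_nonpos (by positivity)
        (mul_nonpos_of_nonneg_of_nonpos (by positivity) (not_lt.1 c))
    rw [k] at e1
    exact (zl Φ h t n u s y hy e1).1.not_ge v
  rw [rX_eq h a] at e1
  obtain ⟨b, c⟩ := zl Φ h t _ (nn_mem a) s y hy e1
  have c := av_le c
  generalize Pm.av 21 _ y = u at c e2
  have r0 := t.S2.r0
  have s := h.small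
  rw [t.hr] at b s
  have d : ‖ξ‖ < t.S2.r := by
    rw [e2, norm_smul, Real.norm_of_nonneg h.ε0.le]
    have := mul_le_mul_of_nonneg_left c h.ε0.le
    have := mul_pos h.ε0 (one_pos.trans_le h.A1)
    nlinarith
  have n := h.hF.jn ξ
  have d1 : ‖(h.j ξ).1.1‖ < t.S2.r := (abs_le_of_sq_le_sq' (by
    nlinarith [sq_nonneg (P.u2 ξ), sq_nonneg (P.u1 ξ)]) (norm_nonneg ξ)).2.trans_lt d
  have d2 : ‖(h.j ξ).1.2‖ < t.S2.r := by
    rw [h.hF.j2, Real.norm_eq_abs]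
    exact (abs_le_of_sq_le_sq' (by
      nlinarith [sq_nonneg ‖(h.j ξ).1.1‖, sq_nonneg (P.u1 ξ)]) (norm_nonneg ξ) |> abs_le.2).trans_lt d
  exact ⟨⟨a, b.trans (by linarith), d2⟩, d1⟩

theorem eq_f (x : W2) (a : x ∈ (T h t).U₂) : ((T h t).tr (P1 h t)).f x = (D1 h).f x := by
  obtain ⟨u, v, w⟩ := t.r2 _ (nn_mem a.1) a.2.1 _ a.2.2
  obtain ⟨b, c, d, f, e⟩ := tr_f h t x
  refine e.trans (Eq.trans ?_ (d1_f h x).symm)
  rw [pc_h, rX_eq h a.1, ← d, f, xi, v, w, add_sub_cancel_right, Prod.mk.eta,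
    h.j.symm_apply_apply]

end Tq

open Tq in
/-- **the transport** -/
theorem tpd (zl : ZL) : TPD := fun Φ h t =>
  ⟨T h t, rfl, fun x a => have a := (mem_tr h t x).1 a; (mem_d1 h x).2 ⟨ne a.1.1, a.2.2.2⟩,
    fun x a => eq_f h t x a.1, fun x a =>
      have ⟨e1, e2⟩ := d1_z h x a
      have b := (mem_d1 h x).1 a.1
      have k := key h t zl b.1.1 b.1.2 b.2 ((pc_h h _ _ _).symm.trans e1) e2
      (mem_tr h t x).2 ⟨k.1, (t.r2 _ (nn_mem k.1.1) k.1.2.1 _ k.1.2.2).1, k.2, b.2⟩⟩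

end Crest.Agent.N218.D3

end
end

-- ▼ part N218/D3/Fin1
section

/-!
# Row 218, block D3 (helper76): assembly modulo three leaves
-/

set_option autoImplicit false

namespace Crest.Agent.N218.D3
open K


theorem d31 (h2 : LBL) (h4 : CHB) (h6 : EIS) : D3T :=
  d30 (htp cmp') plb h2 (pfr okx zl) h4 (esh ze lm zl) h6 (dis okx) (tpd zl)

end Crest.Agent.N218.D3
end

-- ▼ part N218/D3/Lbl

/-!
# Row 218, block D3, leaf LBL (helper51): the label map
-/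

set_option autoImplicit false
set_option linter.unusedVariables false
set_option linter.unusedSectionVars false

open Set Module
open scoped RealInnerProductSpace

noncomputable section

namespace Crest.Agent.N218.D3
open K In Sh

namespace Lb
section top
variable {A A' B D D' : Type} [TopologicalSpace A] [TopologicalSpace A'] [TopologicalSpace B]
  [TopologicalSpace D] [TopologicalSpace D'] {U : Set A}

theorem cp {e : A' → A} {e' : A → A'} (h : Oe e U e') {K : Set A'} (hK : IsCompact K) :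
    IsCompact {a | a ∈ U ∧ e' a ∈ K} := by
  convert hK.image h.ct using 1
  exact Set.ext fun a => ⟨fun o => ⟨_, o.2, h.ri a o.1⟩, fun ⟨b, o, q⟩ => q ▸
    ⟨h.mem b, (h.li b).symm ▸ o⟩⟩

theorem ok [Zero B] {e : A' → A} {e' : A → A'} (h : Oe e U e') {p : Pp A' B} (o : Okp p) :
    Okp (cm p U e') :=
  ⟨h.ct'.isOpen_inter_preimage h.op o.op, o.ct.comp (h.ct'.mono fun _ a => a.1) fun _ a => a.2,
    (congrArg IsCompact (Set.ext fun x => and_assoc)).mpr (cp h o.cp)⟩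

theorem mid {e : A' × D → A} {e' : A → A' × D} (h : Oe e U e') (B : Type) [TopologicalSpace B] :
    Oe (fun z : (A' × B) × D => (e (z.1.1, z.2), z.1.2)) {a | a.1 ∈ U}
      fun a => (((e' a.1).1, a.2), (e' a.1).2) := by
  have c := h.ct
  have c' : ContinuousOn (fun a : A × B => e' a.1) {a | a.1 ∈ U} :=
    h.ct'.comp continuousOn_fst fun _ a => a
  exact ⟨by fun_prop, h.op.preimage continuous_fst, (c'.fst.prodMk continuousOn_snd).prodMk c'.snd,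
    fun a => h.mem _, fun a => by simp only [h.li], fun a o => Prod.ext (h.ri _ o) rfl⟩

theorem asc {e : A' × D → A} {e' : A → A' × D} (h : Oe e U e') (B : Type) [TopologicalSpace B] :
    Oe (fun z : A' × (D × B) => (e (z.1, z.2.1), z.2.2)) {a | a.1 ∈ U}
      fun a => ((e' a.1).1, (e' a.1).2, a.2) := by
  have c := h.ct
  have c' : ContinuousOn (fun a : A × B => e' a.1) {a | a.1 ∈ U} :=
    h.ct'.comp continuousOn_fst fun _ a => a
  exact ⟨by fun_prop, h.op.preimage continuous_fst, c'.fst.prodMk (c'.snd.prodMk continuousOn_snd),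
    fun a => h.mem _, fun a => by simp only [h.li], fun a o => Prod.ext (h.ri _ o) rfl⟩
end top

section gn
variable {X C : Type} [NormedAddCommGroup X] [NormedSpace ℝ X] [NormedAddCommGroup C]
  [NormedSpace ℝ C] (L : X ≃L[ℝ] C × ℝ)

/-- the gnomonic chart -/
def gn (p : X) : C × ℝ := ((L p).2⁻¹ • (L p).1, Real.log ‖p‖)
/-- its inverse -/
def gi (c : C × ℝ) : X := (Real.exp c.2 * ‖L.symm (c.1, 1)‖⁻¹) • L.symm (c.1, 1)

theorem pos (c : C) : 0 < ‖L.symm (c, 1)‖ :=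
  norm_pos_iff.2 fun e => one_ne_zero (congrArg Prod.snd (L.symm.map_eq_zero_iff.1 e) :)

theorem oe : Oe (gi L) {p | 0 < (L p).2} (gn L) := by
  have n : ∀ p : X, 0 < (L p).2 → 0 < ‖p‖ := fun p o => norm_pos_iff.2 fun e => by simp [e] at o
  refine ⟨?_, isOpen_lt continuous_const (by fun_prop), ?_, fun c => ?_, fun c => ?_,
    fun p o => ?_⟩
  · exact ((Real.continuous_exp.comp continuous_snd).mul (Continuous.inv₀ (by fun_prop)
      fun c => (pos L c.1).ne')).smul (by fun_prop)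
  · exact ((ContinuousOn.inv₀ (by fun_prop) fun p o => ne_of_gt o).smul (by fun_prop)).prodMk
      (continuous_norm.continuousOn.log fun p o => (n p o).ne')
  · have := pos L c.1
    simp only [gi, mem_ofPred_eq, map_smul, L.apply_symm_apply, Prod.smul_snd, smul_eq_mul, mul_one]
    positivity
  · have := pos L c.1
    have a : 0 < Real.exp c.2 * ‖L.symm (c.1, 1)‖⁻¹ := by positivity
    refine Prod.ext ?_ ?_
    · simp only [gn, gi, map_smul, L.apply_symm_apply, Prod.smul_snd, Prod.smul_fst, smul_eq_mul,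
        mul_one]
      exact inv_smul_smul₀ a.ne' _
    · simp only [gn, gi]
      rw [norm_smul, Real.norm_of_nonneg a.le, mul_assoc, inv_mul_cancel₀ this.ne', mul_one,
        Real.log_exp]
  · have o' : 0 < (L p).2 := o
    have e : L.symm ((L p).2⁻¹ • (L p).1, 1) = (L p).2⁻¹ • p := by
      rw [L.symm_apply_eq, map_smul]
      exact Prod.ext rfl (inv_mul_cancel₀ o'.ne').symm
    have := n p o
    simp only [gn, gi]
    rw [e, Real.exp_log this, norm_smul, Real.norm_of_nonneg (inv_pos.2 o').le, smul_smul]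
    rw [show ‖p‖ * ((L p).2⁻¹ * ‖p‖)⁻¹ * (L p).2⁻¹ = 1 by field_simp, one_smul]
end gn

variable {Φ : A.Fam} (h : P.Shape Φ (2 ^ 30)) (t : Tt h.S)

theorem exL : ∃ L : A.Eu 11 ≃L[ℝ] (E 8 × E 3) × ℝ, ∀ p, L p = (h.π p, ⟪h.e', p⟫) := by
  let f : A.Eu 11 →ₗ[ℝ] (E 8 × E 3) × ℝ := (h.π.prod (innerSL ℝ h.e')).toLinearMap
  have i : Function.Injective f := (injective_iff_map_eq_zero f).2 fun x e => by
    have e1 : h.π x = 0 := congrArg Prod.fst e
    have e2 : ⟪h.e', x⟫ = 0 := congrArg Prod.snd e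
    have := h.πn x
    have k := h.K0
    rw [e1, e2] at this
    simpa [k.ne'] using this
  exact ⟨(f.linearEquivOfInjective i (by simp)).toContinuousLinearEquiv, fun p => rfl⟩

section sh
variable {X Y Z : Type} [NormedAddCommGroup X] [NormedSpace ℝ X] [NormedAddCommGroup Y]
  [NormedSpace ℝ Y] [NormedAddCommGroup Z] [NormedSpace ℝ Z] (S : Sheet X Y Z norm)

/-- the problem of a sheet -/
def p1 : Pp (X × Y) (Z × Y) := (S.O, fun z => (S.W z, S.H z))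

theorem ok1 : Okp (p1 S) := by
  refine ⟨S.op, S.sW.continuousOn.prodMk S.sH.continuousOn, ?_⟩
  convert S.cpt 0 S.r0 0 S.r0 using 1
  ext z
  simp [p1]

theorem cp1 {K : Set ((Z × Y) × ℝ)} (s : K ⊆ {b | ‖b.1.1‖ < S.r ∧ ‖b.1.2‖ < S.r})
    (c : IsCompact K) : IsCompact {a | a ∈ (st (p1 S) ℝ).1 ∧ (st (p1 S) ℝ).2 a ∈ K} := by
  rcases K.eq_empty_or_nonempty with rfl | n
  · simp
  obtain ⟨a, ha, ma⟩ := c.exists_isMaxOn n (f := fun b => ‖b.1.1‖) (by fun_prop)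
  obtain ⟨b, hb, mb⟩ := c.exists_isMaxOn n (f := fun b => ‖b.1.2‖) (by fun_prop)
  have k := (S.cpt _ (s ha).1 _ (s hb).2).prod (c.image continuous_snd)
  convert k.of_isClosed_subset (((Hf.ok_st (C := ℝ) (ok1 S)).ct.mono
    fun x a => a.1.1).preimage_isClosed_of_isClosed k.isClosed c.isClosed) inter_subset_left using 1
  exact Set.ext fun x => ⟨fun o => ⟨⟨⟨o.1, ma o.2, mb o.2⟩, _, o.2, rfl⟩, o.2⟩,
    fun o => ⟨o.1.1.1, o.2⟩⟩
end sh

section nu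
variable {A A' B : Type} [NormedAddCommGroup A] [NormedSpace ℝ A] [FiniteDimensional ℝ A]
  [NormedAddCommGroup A'] [NormedSpace ℝ A'] [FiniteDimensional ℝ A']
  [NormedAddCommGroup B] [NormedSpace ℝ B] [FiniteDimensional ℝ B]

theorem nu (hN : NUK) {e : A' × ℝ → A} {U : Set A} {e' : A → A' × ℝ} (o : Oe e U e')
    {p : Pp A' B} (o1 : Okp p) (n1 : Nu p) (d : finrank ℝ A = finrank ℝ A' + 1)
    (a : Odd (finrank ℝ A')) (b : Even (finrank ℝ B)) : Nu (st (cm (st p ℝ) U e') ℝ) := by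
  have o2 := Hf.ok_st (C := ℝ × ℝ) o1
  have n2 := hN.st (C := ℝ × ℝ) _ a b (by simp) o1 n1
  have n3 := hN.emb _ _ _ _ (asc o ℝ) (by simp [d]) (by
    rw [finrank_prod, finrank_self, d]; exact a.add_one.add_one) o2 n2
  have n4 := hN.tg (ContinuousLinearEquiv.prodAssoc ℝ B ℝ ℝ).symm _ (ok (asc o ℝ) o2) n3
  convert n4 using 1
  exact Prod.ext (Set.ext fun z => Iff.rfl) (funext fun z => rfl)
end nu

theorem cL_eq {L : A.Eu 11 ≃L[ℝ] (E 8 × E 3) × ℝ} (e : ∀ p, L p = (h.π p, ⟪h.e', p⟫)) :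
    cL h t 1 = cm (st (p1 t.S1) ℝ) {a : A0 | 0 < (L a.1).2}
      fun a => (((gn L a.1).1, a.2), (gn L a.1).2) := by
  have c : ∀ p, ch h 1 p = (gn L p).1 := fun p => by simp [ch, gn, e]
  unfold cL cm st p1
  simp only [c, e]
  rfl
end Lb

open Lb in
/-- **LBL** -/
theorem lbl (hH : HOPF) (hN : NUK) : LBL := by
  intro Φ h t
  obtain ⟨L, e⟩ := exL h
  have o := mid (oe L) (E 8)
  have o1 := ok1 t.S1
  rw [cL_eq h t e]
  exact ⟨ok o (Hf.ok_st o1), fun K s c =>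
    (congrArg IsCompact (Set.ext fun x => and_assoc)).mpr (cp o (cp1 t.S1 s c)),
    nu hN o o1 ((hN.hb _ _ t.hb o1 (Hf.ok_hopf t.hm)).2 (hH t.m t.hm)) (by simp)
      (by simp; decide) (by simp; decide)⟩

end Crest.Agent.N218.D3

end
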